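import Mathlib

/-!
P146, single-exponent route, blocks COST and LINK, part 1: pointwise and mean bounds of the
partition function with a thermal amplitude.

`r a` is the logarithm of the raw partition function at the amplitude `a` (convex in `a` on
`[lo, hi]`), `c` a deterministic compensator, Lipschitz with constant `L`, `c 1 = 0`; the amplitude
is `al t`, `t` in a finite measure space `(T, γ)`:

  `ZA γ al c r = ∫ t, exp (r (al t) - c (al t)) ∂γ`.

* `ZA_le` : upper bound by the values on a grid, with the weights of the bins;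
* `ZA_ge` : lower bound by the value at the amplitude `1`;
* `mean_le`, `mean_ge` : the same for the moments of order `z ∈ (0, 1]`;
* `cost_le` : with the tangent inequality for the raw moments, up to a mismatch `D` of the slopes.
-/

open MeasureTheory Set Filter Topology

namespace Vale.Agent.P146.H529

variable {T : Type*} [MeasurableSpace T]

/-- the partition function with a thermal amplitude, for one disorder -/
noncomputable def ZA (γ : Measure T) (al : T → ℝ) (c r : ℝ → ℝ) : ℝ :=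
  ∫ t, Real.exp (r (al t) - c (al t)) ∂γ

/-- The grid points. -/
noncomputable def gp (lo hi : ℝ) (M : ℕ) (k : ℕ) : ℝ := lo + k * ((hi - lo) / M)

/-- The set of the `t` whose amplitude is in the bin `k`. -/
def bin (al : T → ℝ) (lo hi : ℝ) (M k : ℕ) : Set T :=
  al ⁻¹' Icc (gp lo hi M k) (gp lo hi M (k + 1))

variable {lo hi L : ℝ} {c r : ℝ → ℝ} {γ : Measure T} {al : T → ℝ} {M : ℕ}

lemma gp_mem (h : lo ≤ hi) {k : ℕ} (hM : 0 < M) (hk : k ≤ M) :
    gp lo hi M k ∈ Icc lo hi := by
  unfold gp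
  have hM' : (0 : ℝ) < M := by exact_mod_cast hM
  have hk' : (k : ℝ) ≤ M := by exact_mod_cast hk
  have h0 : 0 ≤ (hi - lo) / M := div_nonneg (by linarith) hM'.le
  constructor
  · have : 0 ≤ (k : ℝ) * ((hi - lo) / M) := by positivity
    linarith
  · have h1 : (k : ℝ) * ((hi - lo) / M) ≤ M * ((hi - lo) / M) :=
      mul_le_mul_of_nonneg_right hk' h0
    have h2 : (M : ℝ) * ((hi - lo) / M) = hi - lo := by field_simp
    linarith

lemma gp_succ (M k : ℕ) : gp lo hi M (k + 1) = gp lo hi M k + (hi - lo) / M := by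
  unfold gp
  push_cast
  ring

lemma gp_zero (M : ℕ) : gp lo hi M 0 = lo := by
  unfold gp
  simp

lemma gp_last (hM : 0 < M) : gp lo hi M M = hi := by
  unfold gp
  have hM' : (0 : ℝ) < M := by exact_mod_cast hM
  field_simp
  ring

lemma exists_bin (hM : 0 < M) {a : ℝ} (ha : a ∈ Icc lo hi) :
    ∃ k < M, a ∈ Icc (gp lo hi M k) (gp lo hi M (k + 1)) := by
  by_contra hcon
  push Not at hcon
  have key : ∀ k ≤ M, gp lo hi M k ≤ a := by
    intro k
    induction k with
    | zero => intro _; rw [gp_zero]; exact ha.1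
    | succ k ih =>
      intro hk
      have h1 := ih (by omega)
      have h2 := hcon k (by omega)
      by_contra h3
      exact h2 ⟨h1, (not_le.1 h3).le⟩
  have h4 := key M le_rfl
  rw [gp_last hM] at h4
  have h5 : a = hi := le_antisymm ha.2 h4
  obtain ⟨k, rfl⟩ : ∃ k, M = k + 1 := ⟨M - 1, by omega⟩
  refine hcon k (by omega) ⟨key k (by omega), ?_⟩
  rw [gp_last hM, h5]

/-- on a bin, the integrand is at most the sum of the values at the ends, up to the factor coming
from the compensator -/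
lemma bin_le {l u : ℝ} (hI : Icc l u ⊆ Icc lo hi)
    (hr : ConvexOn ℝ (Icc lo hi) r)
    (hc : ∀ a ∈ Icc lo hi, ∀ b ∈ Icc lo hi, |c a - c b| ≤ L * |a - b|) (hL : 0 ≤ L)
    (hlu : l ≤ u) {a : ℝ} (ha : a ∈ Icc l u) :
    Real.exp (r a - c a) ≤ Real.exp (L * (u - l)) *
      (Real.exp (r l - c l) + Real.exp (r u - c u)) := by
  have hl : l ∈ Icc lo hi := hI ⟨le_rfl, hlu⟩
  have hu : u ∈ Icc lo hi := hI ⟨hlu, le_rfl⟩
  have ha' := hI ha
  have h1 : r a ≤ max (r l) (r u) := by
    have h2 : a ∈ segment ℝ l u := by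
      rw [segment_eq_Icc hlu]; exact ha
    exact hr.le_max_of_mem_segment hl hu h2
  have hcl : c l - c a ≤ L * (u - l) := by
    refine (le_abs_self _).trans ((hc l hl a ha').trans ?_)
    refine mul_le_mul_of_nonneg_left ?_ hL
    rw [abs_le]
    constructor <;> linarith [ha.1, ha.2]
  have hcu : c u - c a ≤ L * (u - l) := by
    refine (le_abs_self _).trans ((hc u hu a ha').trans ?_)
    refine mul_le_mul_of_nonneg_left ?_ hL
    rw [abs_le]
    constructor <;> linarith [ha.1, ha.2]
  rw [mul_add, ← Real.exp_add, ← Real.exp_add]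
  rcases le_max_iff.1 h1 with h | h
  · have : Real.exp (r a - c a) ≤ Real.exp (L * (u - l) + (r l - c l)) :=
      Real.exp_le_exp.2 (by linarith)
    have h3 := (Real.exp_pos (L * (u - l) + (r u - c u))).le
    linarith
  · have : Real.exp (r a - c a) ≤ Real.exp (L * (u - l) + (r u - c u)) :=
      Real.exp_le_exp.2 (by linarith)
    have h3 := (Real.exp_pos (L * (u - l) + (r l - c l))).le
    linarith

/-- The value at the amplitude `a`, with the compensator. -/
noncomputable def Wv (c r : ℝ → ℝ) (a : ℝ) : ℝ := Real.exp (r a - c a)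

lemma Wv_pos (a : ℝ) : 0 < Wv c r a := Real.exp_pos _

lemma meas_bin (hal : Measurable al) (k : ℕ) : MeasurableSet (bin al lo hi M k) :=
  hal measurableSet_Icc

lemma ZA_nonneg : 0 ≤ ZA γ al c r := integral_nonneg fun _ => (Real.exp_pos _).le

/-- **Upper bound of the amplitude partition function by a grid.** -/
theorem ZA_le [IsFiniteMeasure γ] (h : lo ≤ hi) (hM : 0 < M) (hal : Measurable al)
    (hI : ∀ t, al t ∈ Icc lo hi)
    (hr : ConvexOn ℝ (Icc lo hi) r)
    (hc : ∀ a ∈ Icc lo hi, ∀ b ∈ Icc lo hi, |c a - c b| ≤ L * |a - b|) (hL : 0 ≤ L) :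
    ZA γ al c r ≤ ∑ k ∈ Finset.range M, γ.real (bin al lo hi M k) *
      (Real.exp (L * ((hi - lo) / M)) *
        (Wv c r (gp lo hi M k) + Wv c r (gp lo hi M (k + 1)))) := by
  have hM' : (0 : ℝ) < M := by exact_mod_cast hM
  have hstep : 0 ≤ (hi - lo) / (M : ℝ) := div_nonneg (by linarith) hM'.le
  set V : ℕ → ℝ := fun k => Real.exp (L * ((hi - lo) / M)) *
    (Wv c r (gp lo hi M k) + Wv c r (gp lo hi M (k + 1))) with hV
  have hV0 : ∀ k, 0 ≤ V k := fun k =>
    mul_nonneg (Real.exp_pos _).le (add_nonneg (Wv_pos _).le (Wv_pos _).le)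
  have hpt : ∀ t, Real.exp (r (al t) - c (al t)) ≤
      ∑ k ∈ Finset.range M, (bin al lo hi M k).indicator (fun _ => V k) t := by
    intro t
    obtain ⟨k, hk, ht⟩ := exists_bin hM (hI t)
    have h1 : (bin al lo hi M k).indicator (fun _ => V k) t = V k :=
      indicator_of_mem (show t ∈ bin al lo hi M k from ht) _
    have h2 : V k ≤ ∑ k ∈ Finset.range M, (bin al lo hi M k).indicator (fun _ => V k) t := by
      rw [← h1]
      exact Finset.single_le_sum
        (f := fun k => (bin al lo hi M k).indicator (fun _ => V k) t)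
        (fun j _ => indicator_nonneg (fun _ _ => hV0 j) t) (Finset.mem_range.2 hk)
    refine le_trans ?_ h2
    have hsub : Icc (gp lo hi M k) (gp lo hi M (k + 1)) ⊆ Icc lo hi :=
      Icc_subset_Icc (gp_mem h hM hk.le).1 (gp_mem h hM hk).2
    have h3 := bin_le hsub hr hc hL (by rw [gp_succ]; linarith) ht
    have h4 : gp lo hi M (k + 1) - gp lo hi M k = (hi - lo) / M := by rw [gp_succ]; ring
    rw [h4] at h3
    exact h3
  have hint : Integrable (fun t =>
      ∑ k ∈ Finset.range M, (bin al lo hi M k).indicator (fun _ => V k) t) γ :=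
    integrable_finsetSum _ fun k _ => (integrable_const _).indicator (meas_bin hal k)
  unfold ZA
  refine (integral_mono_of_nonneg (Eventually.of_forall fun _ => (Real.exp_pos _).le) hint
    (Eventually.of_forall hpt)).trans (le_of_eq ?_)
  rw [integral_finsetSum _ fun k _ => (integrable_const _).indicator (meas_bin hal k)]
  refine Finset.sum_congr rfl fun k _ => ?_
  rw [integral_indicator_const _ (meas_bin hal k), smul_eq_mul]

/-- A convex function is at least its value at `1` on one side of `1`. -/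
lemma one_side (hr : ConvexOn ℝ (Icc lo hi) r) :
    (∀ a ∈ Icc lo hi, 1 ≤ a → r 1 ≤ r a) ∨ (∀ a ∈ Icc lo hi, a ≤ 1 → r 1 ≤ r a) := by
  by_contra hcon
  push Not at hcon
  obtain ⟨⟨b, hb, hb1, hb2⟩, ⟨a, ha, ha1, ha2⟩⟩ := hcon
  have h2 : (1 : ℝ) ∈ segment ℝ a b := by
    rw [segment_eq_Icc (ha1.trans hb1)]; exact ⟨ha1, hb1⟩
  have h3 := hr.le_max_of_mem_segment ha hb h2
  rcases le_max_iff.1 h3 with h | h <;> linarith

/-- **Lower bound of the amplitude partition function by its value at `1`.** -/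
theorem ZA_ge [IsFiniteMeasure γ] {τ : ℝ} (hal : Measurable al)
    (hI : ∀ t, al t ∈ Icc lo hi)
    (hr : ConvexOn ℝ (Icc lo hi) r)
    (hc : ∀ a ∈ Icc lo hi, |c a| ≤ L * |a - 1|) (hL : 0 ≤ L)
    (hint : Integrable (fun t => Real.exp (r (al t) - c (al t))) γ) :
    min (γ.real (al ⁻¹' Icc 1 (1 + τ))) (γ.real (al ⁻¹' Icc (1 - τ) 1)) *
      (Real.exp (-(L * τ)) * Real.exp (r 1)) ≤ ZA γ al c r := by
  have key : ∀ S : Set ℝ, MeasurableSet S → (∀ a ∈ S, |a - 1| ≤ τ) →
      (∀ a ∈ S, a ∈ Icc lo hi → r 1 ≤ r a) →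
      γ.real (al ⁻¹' S) * (Real.exp (-(L * τ)) * Real.exp (r 1)) ≤ ZA γ al c r := by
    intro S hS hτ hge
    have h2 : ∫ t, (al ⁻¹' S).indicator (fun _ => Real.exp (-(L * τ)) * Real.exp (r 1)) t ∂γ ≤
        ZA γ al c r := by
      refine integral_mono ((integrable_const _).indicator (hal hS)) hint fun t => ?_
      by_cases ht : t ∈ al ⁻¹' S
      · rw [indicator_of_mem ht]
        simp only
        rw [← Real.exp_add]
        refine Real.exp_le_exp.2 ?_
        have h3 := hge (al t) ht (hI t)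
        have h4 : c (al t) ≤ L * τ :=
          (le_abs_self _).trans ((hc _ (hI t)).trans (mul_le_mul_of_nonneg_left (hτ _ ht) hL))
        linarith
      · rw [indicator_of_notMem ht]
        exact (Real.exp_pos _).le
    rwa [integral_indicator_const _ (hal hS), smul_eq_mul] at h2
  have hp : 0 ≤ Real.exp (-(L * τ)) * Real.exp (r 1) := by positivity
  rcases one_side hr with h | h
  · refine (mul_le_mul_of_nonneg_right (min_le_left _ _) hp).trans
      (key _ measurableSet_Icc (fun a ha => ?_) fun a ha ha' => h a ha' ha.1)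
    rw [abs_le]
    constructor <;> linarith [ha.1, ha.2]
  · refine (mul_le_mul_of_nonneg_right (min_le_right _ _) hp).trans
      (key _ measurableSet_Icc (fun a ha => ?_) fun a ha ha' => h a ha' ha.2)
    rw [abs_le]
    constructor <;> linarith [ha.1, ha.2]

/-! ### powers of sums -/

lemma add_rpow_le' {a b z : ℝ} (ha : 0 ≤ a) (hb : 0 ≤ b) (hz : 0 ≤ z) (hz1 : z ≤ 1) :
    (a + b) ^ z ≤ a ^ z + b ^ z := by
  lift a to NNReal using ha
  lift b to NNReal using hb
  exact_mod_cast NNReal.rpow_add_le_add_rpow a b hz hz1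

lemma sum_rpow_le {ι : Type*} (s : Finset ι) (f : ι → ℝ) {z : ℝ} (hf : ∀ i ∈ s, 0 ≤ f i)
    (hz : 0 < z) (hz1 : z ≤ 1) : (∑ i ∈ s, f i) ^ z ≤ ∑ i ∈ s, f i ^ z := by
  classical
  induction s using Finset.induction_on with
  | empty => simp [Real.zero_rpow hz.ne']
  | insert i s hi ih =>
    rw [Finset.sum_insert hi, Finset.sum_insert hi]
    have h1 : 0 ≤ f i := hf i (Finset.mem_insert_self _ _)
    have h2 : 0 ≤ ∑ j ∈ s, f j :=
      Finset.sum_nonneg fun j hj => hf j (Finset.mem_insert_of_mem hj)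
    exact (add_rpow_le' h1 h2 hz.le hz1).trans
      (by linarith [ih fun j hj => hf j (Finset.mem_insert_of_mem hj)])

/-! ### moments -/

variable {Ω : Type*} [MeasurableSpace Ω] {P : Measure Ω} {R : ℝ → Ω → ℝ} {z : ℝ}

/-- The raw moment of order `z` at the amplitude `a`. -/
noncomputable def Mo (P : Measure Ω) (R : ℝ → Ω → ℝ) (z a : ℝ) : ℝ :=
  ∫ ω, Real.exp (z * R a ω) ∂P

/-- The moment of order `z` of the amplitude partition function. -/
noncomputable def MoA (P : Measure Ω) (γ : Measure T) (al : T → ℝ) (c : ℝ → ℝ) (R : ℝ → Ω → ℝ)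
    (z : ℝ) : ℝ :=
  ∫ ω, (ZA γ al c fun a => R a ω) ^ z ∂P

omit [MeasurableSpace Ω] in
lemma Wv_rpow (a : ℝ) (ω : Ω) :
    (Wv c (fun a => R a ω) a) ^ z = Real.exp (-(z * c a)) * Real.exp (z * R a ω) := by
  unfold Wv
  rw [← Real.exp_mul, ← Real.exp_add]
  congr 1
  ring

/-- **Upper bound of the moments by a grid.** -/
theorem mean_le [IsFiniteMeasure γ] (h : lo ≤ hi) (hM : 0 < M) (hal : Measurable al)
    (hI : ∀ t, al t ∈ Icc lo hi)
    (hr : ∀ ω, ConvexOn ℝ (Icc lo hi) fun a => R a ω)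
    (hc : ∀ a ∈ Icc lo hi, ∀ b ∈ Icc lo hi, |c a - c b| ≤ L * |a - b|) (hL : 0 ≤ L)
    (hz : 0 < z) (hz1 : z ≤ 1)
    (hint : ∀ a ∈ Icc lo hi, Integrable (fun ω => Real.exp (z * R a ω)) P) :
    MoA P γ al c R z ≤ Real.exp (z * (L * ((hi - lo) / M))) *
      ∑ k ∈ Finset.range M, γ.real (bin al lo hi M k) ^ z *
        (Real.exp (-(z * c (gp lo hi M k))) * Mo P R z (gp lo hi M k) +
          Real.exp (-(z * c (gp lo hi M (k + 1)))) * Mo P R z (gp lo hi M (k + 1))) := by
  have hpt : ∀ ω, (ZA γ al c fun a => R a ω) ^ z ≤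
      ∑ k ∈ Finset.range M, Real.exp (z * (L * ((hi - lo) / M))) *
        (γ.real (bin al lo hi M k) ^ z *
        (Real.exp (-(z * c (gp lo hi M k))) * Real.exp (z * R (gp lo hi M k) ω) +
          Real.exp (-(z * c (gp lo hi M (k + 1)))) *
            Real.exp (z * R (gp lo hi M (k + 1)) ω))) := by
    intro ω
    have h1 := ZA_le (γ := γ) h hM hal hI (hr ω) hc hL
    refine (Real.rpow_le_rpow ZA_nonneg h1 hz.le).trans ?_
    refine (sum_rpow_le _ _ (fun k _ => ?_) hz hz1).trans (Finset.sum_le_sum fun k _ => ?_)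
    · exact mul_nonneg measureReal_nonneg (mul_nonneg (Real.exp_pos _).le
        (add_nonneg (Wv_pos _).le (Wv_pos _).le))
    · rw [Real.mul_rpow measureReal_nonneg (mul_nonneg (Real.exp_pos _).le
          (add_nonneg (Wv_pos _).le (Wv_pos _).le)),
        Real.mul_rpow (Real.exp_pos _).le (add_nonneg (Wv_pos _).le (Wv_pos _).le),
        ← Real.exp_mul]
      have h2 := add_rpow_le' (Wv_pos (c := c) (r := fun a => R a ω) (gp lo hi M k)).le
        (Wv_pos (c := c) (r := fun a => R a ω) (gp lo hi M (k + 1))).le hz.le hz1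
      rw [Wv_rpow, Wv_rpow] at h2
      have h3 : 0 ≤ γ.real (bin al lo hi M k) ^ z := Real.rpow_nonneg measureReal_nonneg _
      calc γ.real (bin al lo hi M k) ^ z * (Real.exp (L * ((hi - lo) / M) * z) *
            (Wv c (fun a => R a ω) (gp lo hi M k) +
              Wv c (fun a => R a ω) (gp lo hi M (k + 1))) ^ z)
          ≤ γ.real (bin al lo hi M k) ^ z * (Real.exp (L * ((hi - lo) / M) * z) *
            (Real.exp (-(z * c (gp lo hi M k))) * Real.exp (z * R (gp lo hi M k) ω) +
              Real.exp (-(z * c (gp lo hi M (k + 1)))) *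
                Real.exp (z * R (gp lo hi M (k + 1)) ω))) := by gcongr
        _ = _ := by
          rw [show L * ((hi - lo) / M) * z = z * (L * ((hi - lo) / M)) by ring]
          ring
  have hik : ∀ k ∈ Finset.range M, Integrable (fun ω =>
      Real.exp (z * (L * ((hi - lo) / M))) * (γ.real (bin al lo hi M k) ^ z *
        (Real.exp (-(z * c (gp lo hi M k))) * Real.exp (z * R (gp lo hi M k) ω) +
          Real.exp (-(z * c (gp lo hi M (k + 1)))) *
            Real.exp (z * R (gp lo hi M (k + 1)) ω)))) P := by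
    intro k hk
    have hk' := Finset.mem_range.1 hk
    exact ((((hint _ (gp_mem h hM hk'.le)).const_mul _).add
      ((hint _ (gp_mem h hM hk')).const_mul _)).const_mul _).const_mul _
  unfold MoA
  refine (integral_mono_of_nonneg (Eventually.of_forall fun ω => Real.rpow_nonneg ZA_nonneg _)
    (integrable_finsetSum _ hik) (Eventually.of_forall hpt)).trans (le_of_eq ?_)
  rw [integral_finsetSum _ hik, Finset.mul_sum]
  refine Finset.sum_congr rfl fun k hk => ?_
  have hk' := Finset.mem_range.1 hk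
  rw [integral_const_mul, integral_const_mul, integral_add
    ((hint _ (gp_mem h hM hk'.le)).const_mul _) ((hint _ (gp_mem h hM hk')).const_mul _),
    integral_const_mul, integral_const_mul]
  rfl

/-- **Lower bound of the moments.** -/
theorem mean_ge [IsFiniteMeasure γ] {τ : ℝ} (hal : Measurable al)
    (hI : ∀ t, al t ∈ Icc lo hi)
    (hr : ∀ ω, ConvexOn ℝ (Icc lo hi) fun a => R a ω)
    (hc : ∀ a ∈ Icc lo hi, |c a| ≤ L * |a - 1|) (hL : 0 ≤ L)
    (hz : 0 < z)
    (hint : ∀ ω, Integrable (fun t => Real.exp (R (al t) ω - c (al t))) γ)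
    (hi1 : Integrable (fun ω => Real.exp (z * R 1 ω)) P)
    (hiA : Integrable (fun ω => (ZA γ al c fun a => R a ω) ^ z) P) :
    min (γ.real (al ⁻¹' Icc 1 (1 + τ))) (γ.real (al ⁻¹' Icc (1 - τ) 1)) ^ z *
      (Real.exp (-(z * (L * τ))) * Mo P R z 1) ≤ MoA P γ al c R z := by
  unfold MoA Mo
  rw [← integral_const_mul, ← integral_const_mul]
  refine integral_mono ((hi1.const_mul _).const_mul _) hiA fun ω => ?_
  have h2 := ZA_ge (γ := γ) (τ := τ) hal hI (hr ω) hc hL (hint ω)
  have h0 : 0 ≤ min (γ.real (al ⁻¹' Icc 1 (1 + τ))) (γ.real (al ⁻¹' Icc (1 - τ) 1)) :=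
    le_min measureReal_nonneg measureReal_nonneg
  have h3 := Real.rpow_le_rpow (mul_nonneg h0 (by positivity)) h2 hz.le
  rw [Real.mul_rpow h0 (by positivity), ← Real.exp_add, ← Real.exp_mul] at h3
  refine le_trans (le_of_eq ?_) h3
  simp only
  rw [← Real.exp_add]
  congr 2
  ring

/-- **The cost of the amplitude from above**: if the raw moments satisfy the tangent inequality up
to a mismatch `D` of the slopes, `Mo z a ≤ Mo z 1 * exp (z * c a + z * D * |a - 1|)`. -/
theorem cost_le [IsFiniteMeasure γ] (h : lo ≤ hi) (hM : 0 < M) (hal : Measurable al)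
    (hI : ∀ t, al t ∈ Icc lo hi)
    (hr : ∀ ω, ConvexOn ℝ (Icc lo hi) fun a => R a ω)
    (hc : ∀ a ∈ Icc lo hi, ∀ b ∈ Icc lo hi, |c a - c b| ≤ L * |a - b|) (hL : 0 ≤ L)
    (hz : 0 < z) (hz1 : z ≤ 1)
    (hint : ∀ a ∈ Icc lo hi, Integrable (fun ω => Real.exp (z * R a ω)) P) {D : ℝ}
    (ht : ∀ a ∈ Icc lo hi, Mo P R z a ≤ Mo P R z 1 * Real.exp (z * c a + z * (D * |a - 1|))) :
    MoA P γ al c R z ≤ Mo P R z 1 * Real.exp (z * (L * ((hi - lo) / M))) *
      ∑ k ∈ Finset.range M, γ.real (bin al lo hi M k) ^ z *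
        (Real.exp (z * (D * |gp lo hi M k - 1|)) +
          Real.exp (z * (D * |gp lo hi M (k + 1) - 1|))) := by
  refine (mean_le (γ := γ) (P := P) h hM hal hI hr hc hL hz hz1 hint).trans ?_
  have key : ∀ a ∈ Icc lo hi, Real.exp (-(z * c a)) * Mo P R z a ≤
      Mo P R z 1 * Real.exp (z * (D * |a - 1|)) := by
    intro a ha
    refine (mul_le_mul_of_nonneg_left (ht a ha) (Real.exp_pos _).le).trans (le_of_eq ?_)
    rw [Real.exp_add]
    have : Real.exp (-(z * c a)) * Real.exp (z * c a) = 1 := by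
      rw [← Real.exp_add]; simp
    calc Real.exp (-(z * c a)) * (Mo P R z 1 * (Real.exp (z * c a) *
          Real.exp (z * (D * |a - 1|))))
        = (Real.exp (-(z * c a)) * Real.exp (z * c a)) *
          (Mo P R z 1 * Real.exp (z * (D * |a - 1|))) := by ring
      _ = _ := by rw [this, one_mul]
  have h2 : ∀ k ∈ Finset.range M, γ.real (bin al lo hi M k) ^ z *
        (Real.exp (-(z * c (gp lo hi M k))) * Mo P R z (gp lo hi M k) +
          Real.exp (-(z * c (gp lo hi M (k + 1)))) * Mo P R z (gp lo hi M (k + 1))) ≤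
      Mo P R z 1 * (γ.real (bin al lo hi M k) ^ z *
        (Real.exp (z * (D * |gp lo hi M k - 1|)) +
          Real.exp (z * (D * |gp lo hi M (k + 1) - 1|)))) := by
    intro k hk
    have hk' := Finset.mem_range.1 hk
    have h3 := key _ (gp_mem h hM hk'.le)
    have h4 := key _ (gp_mem h hM hk')
    have h5 : 0 ≤ γ.real (bin al lo hi M k) ^ z := Real.rpow_nonneg measureReal_nonneg _
    calc _ ≤ γ.real (bin al lo hi M k) ^ z *
          (Mo P R z 1 * Real.exp (z * (D * |gp lo hi M k - 1|)) +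
            Mo P R z 1 * Real.exp (z * (D * |gp lo hi M (k + 1) - 1|))) :=
          mul_le_mul_of_nonneg_left (add_le_add h3 h4) h5
      _ = _ := by ring
  refine (mul_le_mul_of_nonneg_left (Finset.sum_le_sum h2) (Real.exp_pos _).le).trans
    (le_of_eq ?_)
  rw [← Finset.mul_sum]
  ring

/-- The probability of a part of the thermal space under the law `∝ Z ^ z dP`:
`Z ^ (z - 1) Z' ≤ Z' ^ z` for `0 ≤ Z' ≤ Z`. -/
lemma part_le {Z Z' z : ℝ} (h0 : 0 ≤ Z') (h : Z' ≤ Z) (hz : 0 < z) (hz1 : z ≤ 1) :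
    Z ^ z * (Z' / Z) ≤ Z' ^ z := by
  rcases h0.eq_or_lt with h1 | h1
  · rw [← h1]
    simp [Real.zero_rpow hz.ne']
  · have hZ : 0 < Z := h1.trans_le h
    have h2 : Z' / Z ≤ (Z' / Z) ^ z := by
      have h3 : Z' / Z ≤ 1 := (div_le_one hZ).2 h
      have h4 : 0 < Z' / Z := div_pos h1 hZ
      calc Z' / Z = (Z' / Z) ^ (1 : ℝ) := (Real.rpow_one _).symm
        _ ≤ (Z' / Z) ^ z := Real.rpow_le_rpow_of_exponent_ge h4 h3 hz1
    calc Z ^ z * (Z' / Z) ≤ Z ^ z * (Z' / Z) ^ z :=
          mul_le_mul_of_nonneg_left h2 (Real.rpow_nonneg hZ.le _)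
      _ = (Z * (Z' / Z)) ^ z := (Real.mul_rpow hZ.le (div_nonneg h0 hZ.le)).symm
      _ = Z' ^ z := by
        congr 1
        field_simp

end Vale.Agent.P146.H529
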