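import Vale.Agent.P146.H475.AmpDef
import Vale.Agent.P146.H529.Link

/-!
P146, block LINK, part 2: the cost of the thermal amplitude for the two-sided exponential law
(`H475.lap lam`, amplitude `H475.al η t`, compensator `c / 2 * (a ^ 2 - 1)`).

* `lap_tail`, `lap_Icc` : the law;
* `log_sum_exp_convex` : convexity of `a ↦ log ∑ exp (A x + a * G x)`;
* `cost_lap` : `MoA ≤ 2 M e^z e^(-z (lam - D) r) Mo 1`, also on `{r ≤ |t|}`;
* `cost_lap_ge` : `MoA ≥ (lam / (4 (lam + c)))^z e^(-2 z) Mo 1`.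
-/

open MeasureTheory Set Filter Topology

namespace Vale.Agent.P146.H529

open Vale.Agent.P146.H475

/-! ### the two-sided exponential law -/

lemma lap_real_eq {lam : ℝ} (h : 0 < lam) {S : Set ℝ} (hS : MeasurableSet S) :
    (lap lam).real S = ∫ t, lapd lam t * S.indicator (fun _ => (1 : ℝ)) t := by
  rw [← integral_lap h.le, integral_indicator_const (1 : ℝ) hS]
  simp

lemma lap_tail {lam r : ℝ} (h : 0 < lam) (hr : 0 ≤ r) :
    (lap lam).real {t | r ≤ |t|} = Real.exp (-(lam * r)) := by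
  have hS : MeasurableSet {t : ℝ | r ≤ |t|} := measurableSet_le measurable_const (by fun_prop)
  rw [lap_real_eq h hS]
  have hi : Integrable fun t => lapd lam t * ({t : ℝ | r ≤ |t|}).indicator (fun _ => (1 : ℝ)) t :=
    integrable_lap h (measurable_const.indicator hS) (C := 1) fun t => by
      rw [abs_of_nonneg (indicator_nonneg (fun _ _ => zero_le_one) t)]
      exact indicator_le_self' (fun _ _ => zero_le_one) t
  rw [integral_half hi]
  have e1 : ∫ t in Ioi (0 : ℝ), (lapd lam t * ({t : ℝ | r ≤ |t|}).indicator (fun _ => (1 : ℝ)) t +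
      lapd lam (-t) * ({t : ℝ | r ≤ |t|}).indicator (fun _ => (1 : ℝ)) (-t)) =
      ∫ t in Ioi (0 : ℝ), (Ici r).indicator (fun t => 2 * (lam / 2 * Real.exp (-(lam * t)))) t := by
    refine setIntegral_congr_fun measurableSet_Ioi fun t ht => ?_
    have ht' : |t| = t := abs_of_pos ht
    have h2 := lapd_eqOn lam ht
    simp only at h2
    simp only [lapd_neg, indicator, mem_ofPred_eq, abs_neg, ht', mem_Ici]
    rw [h2]
    split_ifs <;> ring
  rw [e1, setIntegral_indicator measurableSet_Ici]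
  have e2 : (Ioi (0 : ℝ) ∩ Ici r : Set ℝ) =ᵐ[volume] (Ioi r : Set ℝ) := by
    rcases hr.eq_or_lt with h0 | h0
    · rw [← h0]
      have : Ioi (0 : ℝ) ∩ Ici 0 = Ioi 0 := by
        rw [inter_eq_left]
        exact Ioi_subset_Ici_self
      rw [this]
      exact ae_eq_rfl
    · have : Ioi (0 : ℝ) ∩ Ici r = Ici r := by
        rw [inter_eq_right]
        intro x hx
        exact lt_of_lt_of_le h0 hx
      rw [this]
      exact Ioi_ae_eq_Ici.symm
  rw [setIntegral_congr_set e2, integral_const_mul, integral_exp_Ioi h]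
  ring

lemma lap_Icc {lam τ : ℝ} (h : 0 < lam) (hτ : 0 ≤ τ) :
    (lap lam).real (Icc 0 τ) = (1 - Real.exp (-(lam * τ))) / 2 := by
  rw [lap_real_eq h measurableSet_Icc]
  have e0 : (fun t => lapd lam t * (Icc (0 : ℝ) τ).indicator (fun _ => (1 : ℝ)) t) =
      (Icc (0 : ℝ) τ).indicator (lapd lam) := by
    funext t
    simp only [indicator]
    split_ifs <;> simp
  rw [e0, integral_indicator measurableSet_Icc, integral_Icc_eq_integral_Ioc]
  have e1 : ∫ t in Ioc 0 τ, lapd lam t = ∫ t in Ioc 0 τ, lam / 2 * Real.exp (-(lam * t)) :=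
    setIntegral_congr_fun measurableSet_Ioc fun t ht => lapd_eqOn lam ht.1
  rw [e1]
  have i0 := integrableOn_exp_Ioi h 0
  have e2 : ∫ t in Ioi (0 : ℝ), lam / 2 * Real.exp (-(lam * t)) =
      (∫ t in Ioc 0 τ, lam / 2 * Real.exp (-(lam * t))) +
        ∫ t in Ioi τ, lam / 2 * Real.exp (-(lam * t)) := by
    rw [← setIntegral_union (Ioc_disjoint_Ioi le_rfl) measurableSet_Ioi
      (i0.mono_set Ioc_subset_Ioi_self) (integrableOn_exp_Ioi h τ), Ioc_union_Ioi_eq_Ioi hτ]
  rw [integral_exp_Ioi h, integral_exp_Ioi h] at e2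
  simp only [mul_zero, neg_zero, Real.exp_zero] at e2
  linarith

lemma lap_Icc_neg {lam τ : ℝ} (h : 0 < lam) (hτ : 0 ≤ τ) :
    (lap lam).real (Icc (-τ) 0) = (1 - Real.exp (-(lam * τ))) / 2 := by
  rw [← lap_Icc h hτ, lap_real_eq h measurableSet_Icc, lap_real_eq h measurableSet_Icc,
    ← integral_neg_eq_self]
  refine integral_congr_ae (Eventually.of_forall fun t => ?_)
  simp only [lapd_neg, indicator, mem_Icc]
  congr 1
  have : (-τ ≤ -t ∧ -t ≤ 0) ↔ (0 ≤ t ∧ t ≤ τ) := by
    constructor <;> rintro ⟨h1, h2⟩ <;> constructor <;> linarith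
  simp only [this]

/-! ### convexity of the raw free energy in the amplitude -/

lemma log_sum_exp_convex {X : Type*} [Fintype X] [Nonempty X] (A G : X → ℝ) :
    ConvexOn ℝ univ fun a : ℝ => Real.log (∑ x, Real.exp (A x + a * G x)) := by
  have hpos : ∀ a : ℝ, 0 < ∑ x, Real.exp (A x + a * G x) := fun a =>
    Finset.sum_pos (fun x _ => Real.exp_pos _) Finset.univ_nonempty
  set F : ℝ → ℝ := fun a => Real.log (∑ x, Real.exp (A x + a * G x)) with hF
  have hFe : ∀ a, Real.exp (F a) = ∑ x, Real.exp (A x + a * G x) := fun a =>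
    Real.exp_log (hpos a)
  refine ⟨convex_univ, fun a _ b _ p q hp hq hpq => ?_⟩
  simp only [smul_eq_mul]
  change F (p * a + q * b) ≤ p * F a + q * F b
  have h1 : ∀ x, Real.exp (A x + (p * a + q * b) * G x - (p * F a + q * F b)) ≤
      p * Real.exp (A x + a * G x - F a) + q * Real.exp (A x + b * G x - F b) := by
    intro x
    have h := convexOn_exp.2 (mem_univ (A x + a * G x - F a))
      (mem_univ (A x + b * G x - F b)) hp hq hpq
    simp only [smul_eq_mul] at h
    refine le_trans (le_of_eq ?_) h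
    congr 1
    have : A x = p * A x + q * A x := by rw [← add_mul, hpq, one_mul]
    linear_combination this
  have h2 : (∑ x, Real.exp (A x + (p * a + q * b) * G x)) *
      Real.exp (-(p * F a + q * F b)) ≤ 1 := by
    rw [Finset.sum_mul]
    calc ∑ x, Real.exp (A x + (p * a + q * b) * G x) * Real.exp (-(p * F a + q * F b))
        = ∑ x, Real.exp (A x + (p * a + q * b) * G x - (p * F a + q * F b)) := by
          refine Finset.sum_congr rfl fun x _ => ?_
          rw [← Real.exp_add, sub_eq_add_neg]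
      _ ≤ ∑ x, (p * Real.exp (A x + a * G x - F a) + q * Real.exp (A x + b * G x - F b)) :=
          Finset.sum_le_sum fun x _ => h1 x
      _ = p * ((∑ x, Real.exp (A x + a * G x)) * Real.exp (-F a)) +
          q * ((∑ x, Real.exp (A x + b * G x)) * Real.exp (-F b)) := by
          rw [Finset.sum_add_distrib, Finset.sum_mul, Finset.sum_mul, Finset.mul_sum,
            Finset.mul_sum]
          congr 1 <;>
          · refine Finset.sum_congr rfl fun x _ => ?_
            rw [← Real.exp_add, sub_eq_add_neg]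
      _ = 1 := by
          rw [← hFe, ← hFe, ← Real.exp_add, ← Real.exp_add]
          simp [hpq]
  rw [← hFe, ← Real.exp_add] at h2
  have h3 := Real.exp_le_one_iff.1 h2
  linarith

/-! ### the compensator -/

lemma comp_lip {c η : ℝ} (hc : 0 ≤ c) (hη1 : η ≤ 1) :
    ∀ a ∈ Icc (1 - η) (1 + η), ∀ b ∈ Icc (1 - η) (1 + η),
      |c / 2 * (a ^ 2 - 1) - c / 2 * (b ^ 2 - 1)| ≤ 2 * c * |a - b| := by
  intro a ha b hb
  have e : c / 2 * (a ^ 2 - 1) - c / 2 * (b ^ 2 - 1) = c / 2 * (a + b) * (a - b) := by ring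
  rw [e, abs_mul, abs_mul, abs_of_nonneg (by positivity : 0 ≤ c / 2)]
  refine mul_le_mul_of_nonneg_right ?_ (abs_nonneg _)
  have h1 : |a + b| ≤ 4 := by
    rw [abs_le]
    constructor <;> linarith [ha.1, ha.2, hb.1, hb.2]
  calc c / 2 * |a + b| ≤ c / 2 * 4 := by gcongr
    _ = 2 * c := by ring

lemma comp_one {c η : ℝ} (hc : 0 ≤ c) (hη : 0 ≤ η) (hη1 : η ≤ 1) :
    ∀ a ∈ Icc (1 - η) (1 + η), |c / 2 * (a ^ 2 - 1)| ≤ 2 * c * |a - 1| := by
  intro a ha
  have h := comp_lip hc hη1 a ha 1 ⟨by linarith, by linarith⟩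
  simpa using h

/-! ### the bins -/

lemma bin_tail {η : ℝ} (hη : 0 ≤ η) {M k : ℕ} {t : ℝ}
    (ht : t ∈ bin (al η) (1 - η) (1 + η) M k) :
    max |gp (1 - η) (1 + η) M k - 1| |gp (1 - η) (1 + η) M (k + 1) - 1| -
      ((1 + η) - (1 - η)) / M ≤ |t| := by
  have h0 : |al η t - 1| ≤ |t| := by
    unfold al
    rw [add_sub_cancel_left]
    rcases le_total t (-η) with h | h
    · rw [min_eq_right (by linarith), max_eq_left h, abs_neg, abs_of_nonneg hη,
        abs_of_nonpos (by linarith)]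
      linarith
    · rcases le_total t η with h' | h'
      · rw [min_eq_right h', max_eq_right h]
      · rw [min_eq_left h', max_eq_right (by linarith), abs_of_nonneg hη,
          abs_of_nonneg (by linarith)]
        exact h'
  refine le_trans ?_ h0
  have ht' : al η t ∈ Icc (gp (1 - η) (1 + η) M k) (gp (1 - η) (1 + η) M (k + 1)) := ht
  have hs := gp_succ (lo := 1 - η) (hi := 1 + η) M k
  set s := ((1 + η) - (1 - η)) / (M : ℝ) with hs'
  set g := gp (1 - η) (1 + η) M k with hg
  rw [hs] at ht' ⊢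
  rw [tsub_le_iff_right]
  refine max_le ?_ ?_
  · calc |g - 1| = |(g - al η t) + (al η t - 1)| := by ring_nf
      _ ≤ |g - al η t| + |al η t - 1| := abs_add_le _ _
      _ ≤ |al η t - 1| + s := by
        have : |g - al η t| ≤ s := by
          rw [abs_le]; constructor <;> linarith [ht'.1, ht'.2]
        linarith
  · calc |g + s - 1| = |(g + s - al η t) + (al η t - 1)| := by ring_nf
      _ ≤ |g + s - al η t| + |al η t - 1| := abs_add_le _ _
      _ ≤ |al η t - 1| + s := by
        have : |g + s - al η t| ≤ s := by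
          rw [abs_le]; constructor <;> linarith [ht'.1, ht'.2]
        linarith

/-- the weight of a bin, on `{r ≤ |t|}` -/
lemma bin_weight {lam η r : ℝ} (h : 0 < lam) (hη : 0 ≤ η) (hr : 0 ≤ r) {M k : ℕ} :
    ((lap lam).restrict {t | r ≤ |t|}).real (bin (al η) (1 - η) (1 + η) M k) ≤
      Real.exp (-(lam * max r
        (max |gp (1 - η) (1 + η) M k - 1| |gp (1 - η) (1 + η) M (k + 1) - 1| -
          ((1 + η) - (1 - η)) / M))) := by
  have := isProb_lap h
  rw [measureReal_restrict_apply (meas_bin (measurable_al η) k)]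
  set m := max |gp (1 - η) (1 + η) M k - 1| |gp (1 - η) (1 + η) M (k + 1) - 1| -
          ((1 + η) - (1 - η)) / M with hm
  rw [← lap_tail h (le_max_of_le_left hr)]
  refine measureReal_mono ?_
  rintro t ⟨h1, h2⟩
  exact max_le h2 (bin_tail hη h1)

variable {Ω : Type*} [MeasurableSpace Ω] {P : Measure Ω} {R : ℝ → Ω → ℝ}

/-- **Upper bound of the cost**, on `{r ≤ |t|}`. -/
theorem cost_lap {lam η c z D r : ℝ} {M : ℕ} (hlam : 0 < lam) (hη : 0 < η) (hη1 : η ≤ 1)
    (hc : 0 ≤ c) (hz : 0 < z) (hz1 : z ≤ 1) (hD : 0 ≤ D) (hDl : D ≤ lam) (hr : 0 ≤ r)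
    (hM : 0 < M) (hM2 : 2 * η * (2 * c + D) ≤ M)
    (hR : ∀ ω, ConvexOn ℝ (Icc (1 - η) (1 + η)) fun a => R a ω)
    (hint : ∀ a ∈ Icc (1 - η) (1 + η), Integrable (fun ω => Real.exp (z * R a ω)) P)
    (ht : ∀ a ∈ Icc (1 - η) (1 + η), Mo P R z a ≤
      Mo P R z 1 * Real.exp (z * (c / 2 * (a ^ 2 - 1)) + z * (D * |a - 1|))) :
    MoA P ((lap lam).restrict {t | r ≤ |t|}) (al η) (fun a => c / 2 * (a ^ 2 - 1)) R z ≤
      Mo P R z 1 * (2 * M * Real.exp (z * (1 - (lam - D) * r))) := by
  have := isProb_lap hlam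
  have hM' : (0 : ℝ) < M := by exact_mod_cast hM
  have hle : (1 - η : ℝ) ≤ 1 + η := by linarith
  have hMo : 0 ≤ Mo P R z 1 := integral_nonneg fun _ => (Real.exp_pos _).le
  refine (cost_le (γ := (lap lam).restrict {t | r ≤ |t|}) (P := P) hle hM (measurable_al η)
    (al_mem hη.le) hR (comp_lip hc hη1) (by positivity) hz hz1 hint ht).trans ?_
  rw [mul_assoc]
  refine mul_le_mul_of_nonneg_left ?_ hMo
  set s := ((1 + η) - (1 - η)) / (M : ℝ) with hs
  have hs0 : 0 ≤ s := by rw [hs]; apply div_nonneg <;> linarith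
  have hsM : (2 * c + D) * s ≤ 1 := by
    rw [hs]
    have e : (2 * c + D) * (((1 + η) - (1 - η)) / (M : ℝ)) = 2 * η * (2 * c + D) / M := by ring
    rw [e, div_le_one hM']
    exact hM2
  have key : ∀ k ∈ Finset.range M,
      ((lap lam).restrict {t | r ≤ |t|}).real (bin (al η) (1 - η) (1 + η) M k) ^ z *
        (Real.exp (z * (D * |gp (1 - η) (1 + η) M k - 1|)) +
          Real.exp (z * (D * |gp (1 - η) (1 + η) M (k + 1) - 1|))) ≤
      2 * Real.exp (z * (D * s - (lam - D) * r)) := by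
    intro k _
    set m := max |gp (1 - η) (1 + η) M k - 1| |gp (1 - η) (1 + η) M (k + 1) - 1| with hm
    have h1 := bin_weight (r := r) (M := M) (k := k) hlam hη.le hr
    rw [← hm, ← hs] at h1
    have h2 := Real.rpow_le_rpow measureReal_nonneg h1 hz.le
    rw [← Real.exp_mul] at h2
    have h3 : Real.exp (z * (D * |gp (1 - η) (1 + η) M k - 1|)) +
          Real.exp (z * (D * |gp (1 - η) (1 + η) M (k + 1) - 1|)) ≤
        2 * Real.exp (z * (D * m)) := by
      have a1 : Real.exp (z * (D * |gp (1 - η) (1 + η) M k - 1|)) ≤ Real.exp (z * (D * m)) := by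
        rw [Real.exp_le_exp]
        exact mul_le_mul_of_nonneg_left (mul_le_mul_of_nonneg_left (le_max_left _ _) hD) hz.le
      have a2 : Real.exp (z * (D * |gp (1 - η) (1 + η) M (k + 1) - 1|)) ≤
          Real.exp (z * (D * m)) := by
        rw [Real.exp_le_exp]
        exact mul_le_mul_of_nonneg_left (mul_le_mul_of_nonneg_left (le_max_right _ _) hD) hz.le
      linarith
    refine (mul_le_mul h2 h3 (by positivity) (Real.exp_pos _).le).trans ?_
    rw [mul_left_comm, ← Real.exp_add]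
    refine mul_le_mul_of_nonneg_left (Real.exp_le_exp.2 ?_) (by norm_num)
    have h4 : r ≤ max r (m - s) := le_max_left _ _
    have h5 : m - s ≤ max r (m - s) := le_max_right _ _
    have h6 : -(lam * max r (m - s)) + D * m ≤ D * s - (lam - D) * r := by
      nlinarith [mul_le_mul_of_nonneg_left h4 (sub_nonneg.2 hDl),
        mul_le_mul_of_nonneg_left h5 hD]
    nlinarith [mul_le_mul_of_nonneg_left h6 hz.le]
  calc Real.exp (z * (2 * c * s)) * ∑ k ∈ Finset.range M,
        ((lap lam).restrict {t | r ≤ |t|}).real (bin (al η) (1 - η) (1 + η) M k) ^ z *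
        (Real.exp (z * (D * |gp (1 - η) (1 + η) M k - 1|)) +
          Real.exp (z * (D * |gp (1 - η) (1 + η) M (k + 1) - 1|)))
      ≤ Real.exp (z * (2 * c * s)) * ∑ _k ∈ Finset.range M,
          2 * Real.exp (z * (D * s - (lam - D) * r)) :=
        mul_le_mul_of_nonneg_left (Finset.sum_le_sum key) (Real.exp_pos _).le
    _ = 2 * M * Real.exp (z * (2 * c * s) + z * (D * s - (lam - D) * r)) := by
        rw [Finset.sum_const, Finset.card_range, nsmul_eq_mul, Real.exp_add]
        ring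
    _ ≤ 2 * M * Real.exp (z * (1 - (lam - D) * r)) := by
        refine mul_le_mul_of_nonneg_left (Real.exp_le_exp.2 ?_) (by positivity)
        have : z * (2 * c * s) + z * (D * s - (lam - D) * r) =
          z * ((2 * c + D) * s - (lam - D) * r) := by ring
        rw [this]
        exact mul_le_mul_of_nonneg_left (by linarith) hz.le

lemma restrict_zero (lam : ℝ) : (lap lam).restrict {t | (0 : ℝ) ≤ |t|} = lap lam := by
  have : {t : ℝ | (0 : ℝ) ≤ |t|} = univ := by
    ext t
    simp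
  rw [this, Measure.restrict_univ]

/-- **Upper bound of the cost.** -/
theorem cost_lap_le {lam η c z D : ℝ} {M : ℕ} (hlam : 0 < lam) (hη : 0 < η) (hη1 : η ≤ 1)
    (hc : 0 ≤ c) (hz : 0 < z) (hz1 : z ≤ 1) (hD : 0 ≤ D) (hDl : D ≤ lam)
    (hM : 0 < M) (hM2 : 2 * η * (2 * c + D) ≤ M)
    (hR : ∀ ω, ConvexOn ℝ (Icc (1 - η) (1 + η)) fun a => R a ω)
    (hint : ∀ a ∈ Icc (1 - η) (1 + η), Integrable (fun ω => Real.exp (z * R a ω)) P)
    (ht : ∀ a ∈ Icc (1 - η) (1 + η), Mo P R z a ≤
      Mo P R z 1 * Real.exp (z * (c / 2 * (a ^ 2 - 1)) + z * (D * |a - 1|))) :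
    MoA P (lap lam) (al η) (fun a => c / 2 * (a ^ 2 - 1)) R z ≤
      Mo P R z 1 * (2 * M * Real.exp z) := by
  have h := cost_lap hlam hη hη1 hc hz hz1 hD hDl le_rfl hM hM2 hR hint ht
  rw [restrict_zero] at h
  simpa using h

/-- **Lower bound of the cost.** -/
theorem cost_lap_ge {lam η c z : ℝ} (hlam : 0 < lam) (hη : 0 < η) (hη1 : η ≤ 1)
    (hc : 0 ≤ c) (hz : 0 < z) (hl : 1 ≤ (lam + c) * η)
    (hR : ∀ ω, ConvexOn ℝ (Icc (1 - η) (1 + η)) fun a => R a ω)
    (hi : ∀ ω, Integrable (fun t => Real.exp (R (al η t) ω - c / 2 * (al η t ^ 2 - 1))) (lap lam))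
    (hi1 : Integrable (fun ω => Real.exp (z * R 1 ω)) P)
    (hiA : Integrable (fun ω => (ZA (lap lam) (al η) (fun a => c / 2 * (a ^ 2 - 1))
      fun a => R a ω) ^ z) P) :
    (lam / (4 * (lam + c)) * Real.exp (-2)) ^ z * Mo P R z 1 ≤
      MoA P (lap lam) (al η) (fun a => c / 2 * (a ^ 2 - 1)) R z := by
  have := isProb_lap hlam
  have hlc : 0 < lam + c := by linarith
  set τ := 1 / (lam + c) with hτ
  have hτ0 : 0 < τ := by positivity
  have hτη : τ ≤ η := by
    rw [hτ, div_le_iff₀ hlc]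
    linarith [mul_comm η (lam + c)]
  have h := mean_ge (P := P) (γ := lap lam) (τ := τ) (measurable_al η) (al_mem hη.le) hR
    (comp_one hc hη.le hη1) (by positivity : 0 ≤ 2 * c) hz hi hi1 hiA
  refine le_trans ?_ h
  -- the two probabilities
  have q0 : lam / (4 * (lam + c)) ≤ (1 - Real.exp (-(lam * τ))) / 2 := by
    have h1 : lam * τ ≤ 1 := by
      rw [hτ, mul_one_div, div_le_one hlc]
      linarith
    have h2 : 0 ≤ lam * τ := by positivity
    have h3 : Real.exp (-(lam * τ)) ≤ 1 - lam * τ / 2 := by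
      have h4 : Real.exp (-(lam * τ)) ≤ 1 / (1 + lam * τ) := by
        rw [Real.exp_neg, ← one_div]
        exact one_div_le_one_div_of_le (by linarith) (by linarith [Real.add_one_le_exp (lam * τ)])
      refine h4.trans ?_
      rw [div_le_iff₀ (by linarith)]
      nlinarith
    have h5 : lam / (4 * (lam + c)) = lam * τ / 4 := by
      rw [hτ]
      field_simp
    rw [h5]
    linarith
  have q1 : lam / (4 * (lam + c)) ≤ (lap lam).real (al η ⁻¹' Icc 1 (1 + τ)) := by
    rw [← lap_Icc hlam hτ0.le] at q0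
    refine q0.trans (measureReal_mono fun t ht => ?_)
    have h1 : |t| ≤ η := by
      rw [abs_of_nonneg ht.1]
      exact ht.2.trans hτη
    rw [mem_preimage, al_of_abs h1]
    exact ⟨by linarith [ht.1], by linarith [ht.2]⟩
  have q2 : lam / (4 * (lam + c)) ≤ (lap lam).real (al η ⁻¹' Icc (1 - τ) 1) := by
    rw [← lap_Icc_neg hlam hτ0.le] at q0
    refine q0.trans (measureReal_mono fun t ht => ?_)
    have h1 : |t| ≤ η := by
      rw [abs_of_nonpos ht.2]
      linarith [ht.1]
    rw [mem_preimage, al_of_abs h1]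
    exact ⟨by linarith [ht.1], by linarith [ht.2]⟩
  have q3 := le_min q1 q2
  have hMo : 0 ≤ Mo P R z 1 := integral_nonneg fun _ => (Real.exp_pos _).le
  have hp : 0 ≤ lam / (4 * (lam + c)) := by positivity
  rw [Real.mul_rpow hp (Real.exp_pos _).le, ← Real.exp_mul, mul_assoc]
  refine mul_le_mul (Real.rpow_le_rpow hp q3 hz.le) ?_ (by positivity) (by positivity)
  refine mul_le_mul_of_nonneg_right (Real.exp_le_exp.2 ?_) hMo
  have h6 : 2 * c * τ ≤ 2 := by
    rw [hτ, mul_one_div, div_le_iff₀ hlc]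
    linarith
  nlinarith [mul_le_mul_of_nonneg_left h6 hz.le]

end Vale.Agent.P146.H529
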