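import Vale.Agent.P146.H475.Amp2
import Vale.Agent.P146.H529.Link2
import Vale.Agent.P146.H9.KLd

/-!
P146, block LINK, part 3: the cost of the thermal amplitude for the literal ensemble
`lzm (muA X lam η c) 1 (SA S0 σ s η)`, compared with the natural free energy `Rw S0 σ s 1`, and the
comparison of the relative entropies.

* `amp_le`, `amp_le'` : `∫ Zxm z ≤ 2 M e^(z (1 + D η)) ∫ exp (z Rw 1)`;
* `amp_ge` : `(lam / (4 (lam + c)) e^-2)^z ∫ exp (z Rw 1) ≤ ∫ Zxm z`;
* `amp_tail`, `amp_tail_E` : tails of the thermal variable under the tilted law;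
* `KL_link` : `KL F y ≤ KL G (y + h) + (y Δ₂ + (y + h) Δ₁) / h` when the log-moments of `F` and `G`
  are close at `y` and `y + h`.
-/

open MeasureTheory ProbabilityTheory Filter Topology Set

namespace Vale.Agent.P146.H529

open Vale.Agent.P157.Lv Vale.Agent.P146.H425 Vale.Agent.P146.H325 Vale.Agent.P146.H196
  Vale.Agent.P146.H475 Vale.Agent.P146.H9

set_option linter.unusedSectionVars false

variable {κ J X : Type} [Fintype κ] [DecidableEq κ] [Fintype J] [DecidableEq J]
  [Fintype X] [Nonempty X] [MeasurableSpace X] [MeasurableSingletonClass X]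

/-- the raw free energy at the amplitude `a` -/
noncomputable def Rw (S0 : κ → X → ℝ) (σ : J → X → ℝ) (s a : ℝ) (u : κ ⊕ J → ℝ) : ℝ :=
  Real.log (∑ x, Real.exp (Ef S0 u x + a * Gf σ s u x))

/-- the energies at the amplitude `a` -/
def Sa (S0 : κ → X → ℝ) (σ : J → X → ℝ) (s a : ℝ) : κ ⊕ J → X → ℝ :=
  Sum.elim S0 fun j x => a * s * σ j x

variable {S0 : κ → X → ℝ} {σ : J → X → ℝ} {lam s η c M0 z D r a y h : ℝ}

lemma gm_raw (hB : AB S0 σ s η M0) (ha : a ∈ Icc (1 - η) (1 + η)) :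
    GM (Measure.count : Measure X) (Sa S0 σ s a) M0 where
  fin := inferInstance
  ne := by
    obtain ⟨x⟩ := ‹Nonempty X›
    intro h0
    have : (Measure.count : Measure X) {x} = 0 := by rw [h0]; rfl
    simp at this
  pos := hB.pos
  meas := fun e => measurable_of_finite _
  bd := by
    intro e p
    cases e with
    | inl e => exact hB.b0 e p
    | inr j =>
      refine le_trans ?_ (hB.b1 j p)
      change |a * s * σ j p| ≤ _
      rw [abs_mul, abs_mul]
      have h2 : |a| ≤ 1 + η := by rw [abs_le]; constructor <;> linarith [ha.1, ha.2]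
      gcongr

lemma lzm_raw (u : κ ⊕ J → ℝ) :
    lzm (Measure.count : Measure X) 1 (Sa S0 σ s a) u = Rw S0 σ s a u := by
  unfold lzm Zm Rw ezm
  rw [integral_count]
  congr 1
  refine Finset.sum_congr rfl fun x _ => ?_
  congr 1
  rw [one_mul, Fintype.sum_sum_type]
  unfold Ef Gf
  rw [Finset.mul_sum]
  congr 1
  refine Finset.sum_congr rfl fun j _ => ?_
  change a * s * σ j x * u (Sum.inr j) = _
  ring

lemma eg_raw (hB : AB S0 σ s η M0) (ha : a ∈ Icc (1 - η) (1 + η)) (z : ℝ) :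
    EG fun u : κ ⊕ J → ℝ => Real.exp (z * Rw S0 σ s a u) := by
  have h := (gm_raw hB ha).eg_Zx 1 z
  unfold Zxm at h
  simpa only [lzm_raw] using h

lemma lip_raw (hη : 0 ≤ η) (hB : AB S0 σ s η M0) :
    LipB (Rw S0 σ s 1) (Km (κ ⊕ J) 1 M0) := by
  have h := ((gm_raw hB (a := 1) ⟨by linarith, by linarith⟩).c11 1).lip
  intro y w
  have := h y w
  simpa only [lzm_raw] using this

lemma conv_raw (lo hi : ℝ) (u : κ ⊕ J → ℝ) :
    ConvexOn ℝ (Icc lo hi) fun a => Rw S0 σ s a u :=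
  (log_sum_exp_convex (Ef S0 u) (Gf σ s u)).subset (subset_univ _) (convex_Icc _ _)

lemma cont_raw (u : κ ⊕ J → ℝ) : Continuous fun a => Rw S0 σ s a u := by
  unfold Rw
  refine Continuous.log (by fun_prop) fun _ => ?_
  exact (Finset.sum_pos (fun _ _ => Real.exp_pos _) Finset.univ_nonempty).ne'

/-- the integrand of the amplitude partition function -/
lemma int_raw (hlam : 0 < lam) (hη : 0 ≤ η) (c : ℝ) (u : κ ⊕ J → ℝ) :
    Integrable (fun t => Real.exp (Rw S0 σ s (al η t) u - c / 2 * (al η t ^ 2 - 1))) (lap lam) := by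
  have := isProb_lap hlam
  have hc : Continuous fun a => Real.exp (Rw S0 σ s a u - c / 2 * (a ^ 2 - 1)) := by
    have := cont_raw (S0 := S0) (σ := σ) (s := s) u
    fun_prop
  obtain ⟨C, hC⟩ := (isCompact_Icc (a := 1 - η) (b := 1 + η)).exists_bound_of_continuousOn
    hc.continuousOn
  exact Integrable.of_bound (hc.comp (continuous_al η)).aestronglyMeasurable C
    (Eventually.of_forall fun t => hC _ (al_mem hη t))

lemma exp_Rw (u : κ ⊕ J → ℝ) (a : ℝ) :
    Real.exp (Rw S0 σ s a u) = ∑ x, Real.exp (Ef S0 u x + a * Gf σ s u x) :=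
  Real.exp_log (Finset.sum_pos (fun _ _ => Real.exp_pos _) Finset.univ_nonempty)

/-- the integral of a function of `t` against the amplitude ensemble -/
lemma int_fst (hlam : 0 < lam) (hη : 0 ≤ η) (hB : AB S0 σ s η M0) (u : κ ⊕ J → ℝ)
    {f : ℝ → ℝ} (hf : Measurable f) {C : ℝ} (hC : ∀ t, |f t| ≤ C) :
    ∫ p, ezm 1 (SA S0 σ s η) u p * f p.1 ∂(muA X lam η c) =
      ∫ t, Real.exp (Rw S0 σ s (al η t) u - c / 2 * (al η t ^ 2 - 1)) * f t ∂(lap lam) := by
  have hp := isProb_lap hlam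
  have hG := gm (c := c) hlam hη hB
  have bf : Bm fun p : ℝ × X => f p.1 := Bm.of (hf.comp measurable_fst) fun p => hC p.1
  rw [integral_muA hlam hη c ((hG.bez 1 u).mul bf)]
  have hb : ∀ x : X, Integrable (fun t => cw η c t * (ezm 1 (SA S0 σ s η) u (t, x) * f t))
      (lap lam) := by
    intro x
    obtain ⟨K, hK, h1⟩ := (hG.bez 1 u).2
    refine Integrable.of_bound (C := Real.exp (|c| / 2 * ((1 + η) ^ 2 + 1)) * (K * C)) ?_
      (Eventually.of_forall fun t => ?_)
    · exact ((measurable_cw η c).mul (((hG.bez 1 u).1.comp (by fun_prop)).mul hf)).aestronglyMeasurable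
    · rw [Real.norm_eq_abs, abs_mul, abs_mul, abs_of_pos (cw_pos η c t)]
      exact mul_le_mul (cw_le hη c t) (mul_le_mul (h1 _) (hC t) (abs_nonneg _) hK)
        (by positivity) (Real.exp_pos _).le
  rw [← integral_finsetSum _ fun x _ => hb x]
  refine integral_congr_ae (Eventually.of_forall fun t => ?_)
  simp only
  rw [sub_eq_add_neg, Real.exp_add, exp_Rw, Finset.sum_mul, Finset.sum_mul]
  refine Finset.sum_congr rfl fun x _ => ?_
  rw [ezm_SA]
  unfold cw
  ring

lemma Zm_ZA (hlam : 0 < lam) (hη : 0 ≤ η) (hB : AB S0 σ s η M0) (u : κ ⊕ J → ℝ) :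
    Zm (muA X lam η c) 1 (SA S0 σ s η) u =
      ZA (lap lam) (al η) (fun a => c / 2 * (a ^ 2 - 1)) fun a => Rw S0 σ s a u := by
  have h := int_fst (c := c) hlam hη hB u (f := fun _ => 1) measurable_const (C := 1)
    fun t => by simp
  simp only [mul_one] at h
  exact h

lemma Zxm_ZA (hlam : 0 < lam) (hη : 0 ≤ η) (hB : AB S0 σ s η M0) (z : ℝ) (u : κ ⊕ J → ℝ) :
    Zxm (muA X lam η c) 1 (SA S0 σ s η) z u =
      (ZA (lap lam) (al η) (fun a => c / 2 * (a ^ 2 - 1)) fun a => Rw S0 σ s a u) ^ z := by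
  have hG := gm (c := c) hlam hη hB
  rw [← Zm_ZA hlam hη hB]
  unfold Zxm lzm
  rw [Real.rpow_def_of_pos (hG.Z_pos 1 u), mul_comm]

/-- the moment of the natural free energy -/
noncomputable def Mw (S0 : κ → X → ℝ) (σ : J → X → ℝ) (s z a : ℝ) : ℝ :=
  ∫ u, Real.exp (z * Rw S0 σ s a u) ∂(gI (κ ⊕ J))

/-- the moment of the amplitude partition function -/
noncomputable def MA (S0 : κ → X → ℝ) (σ : J → X → ℝ) (lam s η c z : ℝ) : ℝ :=
  ∫ u, Zxm (muA X lam η c) 1 (SA S0 σ s η) z u ∂(gI (κ ⊕ J))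

lemma Mw_pos (hB : AB S0 σ s η M0) (ha : a ∈ Icc (1 - η) (1 + η)) (z : ℝ) : 0 < Mw S0 σ s z a :=
  integral_exp_pos (eg_raw hB ha z).integrable

lemma MA_pos (hlam : 0 < lam) (hη : 0 ≤ η) (hB : AB S0 σ s η M0) (z : ℝ) :
    0 < MA S0 σ lam s η c z :=
  integral_exp_pos ((gm (c := c) hlam hη hB).eg_Zx 1 z).integrable

/-- **The cost from above**, with a mismatch `D` of the slopes. -/
theorem amp_le' {M : ℕ} (hlam : 0 < lam) (hη : 0 < η) (hη1 : η ≤ 1) (hB : AB S0 σ s η M0)
    (hc : 0 ≤ c) (hz : 0 < z) (hz1 : z ≤ 1) (hD : 0 ≤ D)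
    (hM : 0 < M) (hM2 : 4 * η * c ≤ M)
    (ht : ∀ a ∈ Icc (1 - η) (1 + η), Mw S0 σ s z a ≤
      Mw S0 σ s z 1 * Real.exp (z * (c / 2 * (a ^ 2 - 1)) + z * (D * |a - 1|))) :
    MA S0 σ lam s η c z ≤ Mw S0 σ s z 1 * (2 * M * Real.exp (z * (1 + D * η))) := by
  have := isProb_lap hlam
  have hM' : (0 : ℝ) < M := by exact_mod_cast hM
  have hle : (1 - η : ℝ) ≤ 1 + η := by linarith
  have h1 := cost_le (γ := lap lam) (P := gI (κ ⊕ J)) (R := fun a u => Rw S0 σ s a u) hle hM
    (measurable_al η) (al_mem hη.le) (conv_raw _ _) (comp_lip hc hη1) (by positivity) hz hz1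
    (fun a ha => (eg_raw hB ha z).integrable) ht
  have e1 : MoA (gI (κ ⊕ J)) (lap lam) (al η) (fun a => c / 2 * (a ^ 2 - 1))
      (fun a u => Rw S0 σ s a u) z = MA S0 σ lam s η c z := by
    unfold MoA MA
    refine integral_congr_ae (Eventually.of_forall fun u => ?_)
    simp only
    rw [Zxm_ZA hlam hη.le hB]
  rw [e1] at h1
  refine h1.trans ?_
  have hMw := (Mw_pos hB (a := 1) ⟨by linarith, by linarith⟩ z).le
  change Mw S0 σ s z 1 * _ * _ ≤ _
  rw [mul_assoc]
  refine mul_le_mul_of_nonneg_left ?_ hMw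
  have hs : 2 * c * (((1 + η) - (1 - η)) / (M : ℝ)) ≤ 1 := by
    have e : 2 * c * (((1 + η) - (1 - η)) / (M : ℝ)) = 4 * η * c / M := by ring
    rw [e, div_le_one hM']
    exact hM2
  have hg : ∀ k ≤ M, Real.exp (z * (D * |gp (1 - η) (1 + η) M k - 1|)) ≤
      Real.exp (z * (D * η)) := by
    intro k hk
    have h2 := gp_mem hle hM hk
    refine Real.exp_le_exp.2 (mul_le_mul_of_nonneg_left (mul_le_mul_of_nonneg_left ?_ hD) hz.le)
    rw [abs_le]
    constructor <;> linarith [h2.1, h2.2]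
  calc Real.exp (z * (2 * c * (((1 + η) - (1 - η)) / (M : ℝ)))) *
        ∑ k ∈ Finset.range M, (lap lam).real (bin (al η) (1 - η) (1 + η) M k) ^ z *
          (Real.exp (z * (D * |gp (1 - η) (1 + η) M k - 1|)) +
            Real.exp (z * (D * |gp (1 - η) (1 + η) M (k + 1) - 1|)))
      ≤ Real.exp (z * 1) * ∑ _k ∈ Finset.range M, 2 * Real.exp (z * (D * η)) := by
        refine mul_le_mul (Real.exp_le_exp.2 (mul_le_mul_of_nonneg_left hs hz.le))
          (Finset.sum_le_sum fun k hk => ?_) (Finset.sum_nonneg fun k _ => ?_)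
          (Real.exp_pos _).le
        · have hk' := Finset.mem_range.1 hk
          have w1 : (lap lam).real (bin (al η) (1 - η) (1 + η) M k) ^ z ≤ 1 :=
            Real.rpow_le_one measureReal_nonneg measureReal_le_one hz.le
          calc (lap lam).real (bin (al η) (1 - η) (1 + η) M k) ^ z *
                (Real.exp (z * (D * |gp (1 - η) (1 + η) M k - 1|)) +
                  Real.exp (z * (D * |gp (1 - η) (1 + η) M (k + 1) - 1|)))
              ≤ 1 * (Real.exp (z * (D * η)) + Real.exp (z * (D * η))) :=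
                mul_le_mul w1 (add_le_add (hg k hk'.le) (hg (k + 1) hk')) (by positivity)
                  zero_le_one
            _ = 2 * Real.exp (z * (D * η)) := by ring
        · exact mul_nonneg (Real.rpow_nonneg measureReal_nonneg _) (by positivity)
    _ = 2 * M * Real.exp (z * (1 + D * η)) := by
        rw [Finset.sum_const, Finset.card_range, nsmul_eq_mul, mul_add, Real.exp_add]
        ring

/-- **The cost from above**, mismatch at most `lam`. -/
theorem amp_le {M : ℕ} (hlam : 0 < lam) (hη : 0 < η) (hη1 : η ≤ 1) (hB : AB S0 σ s η M0)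
    (hc : 0 ≤ c) (hz : 0 < z) (hz1 : z ≤ 1) (hD : 0 ≤ D) (hDl : D ≤ lam)
    (hM : 0 < M) (hM2 : 2 * η * (2 * c + D) ≤ M)
    (ht : ∀ a ∈ Icc (1 - η) (1 + η), Mw S0 σ s z a ≤
      Mw S0 σ s z 1 * Real.exp (z * (c / 2 * (a ^ 2 - 1)) + z * (D * |a - 1|))) :
    MA S0 σ lam s η c z ≤ Mw S0 σ s z 1 * (2 * M * Real.exp z) := by
  have h1 := cost_lap_le (P := gI (κ ⊕ J)) (R := fun a u => Rw S0 σ s a u) hlam hη hη1 hc hz hz1
    hD hDl hM hM2 (conv_raw _ _) (fun a ha => (eg_raw hB ha z).integrable) ht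
  have e1 : MoA (gI (κ ⊕ J)) (lap lam) (al η) (fun a => c / 2 * (a ^ 2 - 1))
      (fun a u => Rw S0 σ s a u) z = MA S0 σ lam s η c z := by
    unfold MoA MA
    refine integral_congr_ae (Eventually.of_forall fun u => ?_)
    simp only
    rw [Zxm_ZA hlam hη.le hB]
  rw [e1] at h1
  exact h1

/-- **The cost from below.** -/
theorem amp_ge (hlam : 0 < lam) (hη : 0 < η) (hη1 : η ≤ 1) (hB : AB S0 σ s η M0)
    (hc : 0 ≤ c) (hz : 0 < z) (hl : 1 ≤ (lam + c) * η) :
    (lam / (4 * (lam + c)) * Real.exp (-2)) ^ z * Mw S0 σ s z 1 ≤ MA S0 σ lam s η c z := by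
  have h1 := cost_lap_ge (P := gI (κ ⊕ J)) (R := fun a u => Rw S0 σ s a u) hlam hη hη1 hc hz hl
    (conv_raw _ _) (int_raw hlam hη.le c)
    (eg_raw hB (a := 1) ⟨by linarith, by linarith⟩ z).integrable
    (by
      have h2 := ((gm (c := c) hlam hη.le hB).eg_Zx 1 z).integrable
      refine h2.congr (Eventually.of_forall fun u => ?_)
      simp only
      rw [Zxm_ZA hlam hη.le hB])
  have e1 : MoA (gI (κ ⊕ J)) (lap lam) (al η) (fun a => c / 2 * (a ^ 2 - 1))
      (fun a u => Rw S0 σ s a u) z = MA S0 σ lam s η c z := by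
    unfold MoA MA
    refine integral_congr_ae (Eventually.of_forall fun u => ?_)
    simp only
    rw [Zxm_ZA hlam hη.le hB]
  rw [e1] at h1
  exact h1

/-- **Tail of the thermal variable.** -/
theorem amp_tail {M : ℕ} (hlam : 0 < lam) (hη : 0 < η) (hη1 : η ≤ 1) (hB : AB S0 σ s η M0)
    (hc : 0 ≤ c) (hz : 0 < z) (hz1 : z ≤ 1) (hr : 0 ≤ r)
    (hM : 0 < M) (hM2 : 4 * η * c ≤ M)
    (ht : ∀ a ∈ Icc (1 - η) (1 + η), Mw S0 σ s z a ≤
      Mw S0 σ s z 1 * Real.exp (z * (c / 2 * (a ^ 2 - 1)))) :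
    ∫ u, Zxm (muA X lam η c) 1 (SA S0 σ s η) z u *
        avm (muA X lam η c) 1 (SA S0 σ s η)
          (fun p => ({t : ℝ | r ≤ |t|}).indicator (fun _ => (1 : ℝ)) p.1) u ∂(gI (κ ⊕ J)) ≤
      Mw S0 σ s z 1 * (2 * M * Real.exp (z * (1 - lam * r))) := by
  have hp := isProb_lap hlam
  have hG := gm (c := c) hlam hη.le hB
  have hS : MeasurableSet {t : ℝ | r ≤ |t|} := measurableSet_le measurable_const (by fun_prop)
  have h1 := cost_lap (P := gI (κ ⊕ J)) (R := fun a u => Rw S0 σ s a u) (D := 0) (r := r)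
    hlam hη hη1 hc hz hz1 le_rfl hlam.le hr hM (by linarith) (conv_raw _ _)
    (fun a ha => (eg_raw hB ha z).integrable) (fun a ha => by
      have h0 := ht a ha
      simp only [zero_mul, mul_zero, add_zero]
      exact h0)
  rw [sub_zero] at h1
  refine le_trans ?_ h1
  unfold MoA
  -- measurability of the indicator
  have mI : Measurable (({t : ℝ | r ≤ |t|}).indicator fun _ => (1 : ℝ)) :=
    measurable_const.indicator hS
  have bI : ∀ t, |({t : ℝ | r ≤ |t|}).indicator (fun _ => (1 : ℝ)) t| ≤ 1 := fun t => by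
    rw [abs_of_nonneg (indicator_nonneg (fun _ _ => zero_le_one) t)]
    exact indicator_le_self' (fun _ _ => zero_le_one) t
  have eZ : ∀ u, avm (muA X lam η c) 1 (SA S0 σ s η)
          (fun p => ({t : ℝ | r ≤ |t|}).indicator (fun _ => (1 : ℝ)) p.1) u =
      ZA ((lap lam).restrict {t | r ≤ |t|}) (al η) (fun a => c / 2 * (a ^ 2 - 1))
        (fun a => Rw S0 σ s a u) /
      ZA (lap lam) (al η) (fun a => c / 2 * (a ^ 2 - 1)) (fun a => Rw S0 σ s a u) := by
    intro u
    unfold avm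
    rw [int_fst hlam hη.le hB u mI bI, Zm_ZA hlam hη.le hB]
    congr 1
    unfold ZA
    rw [← integral_indicator hS]
    refine integral_congr_ae (Eventually.of_forall fun t => ?_)
    simp only [indicator]
    split_ifs <;> simp
  have hle : ∀ u, ZA ((lap lam).restrict {t | r ≤ |t|}) (al η) (fun a => c / 2 * (a ^ 2 - 1))
        (fun a => Rw S0 σ s a u) ≤
      ZA (lap lam) (al η) (fun a => c / 2 * (a ^ 2 - 1)) (fun a => Rw S0 σ s a u) := by
    intro u
    unfold ZA
    exact integral_mono_measure Measure.restrict_le_self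
      (Eventually.of_forall fun t => (Real.exp_pos _).le) (int_raw hlam hη.le c u)
  have key : ∀ u, Zxm (muA X lam η c) 1 (SA S0 σ s η) z u *
        avm (muA X lam η c) 1 (SA S0 σ s η)
          (fun p => ({t : ℝ | r ≤ |t|}).indicator (fun _ => (1 : ℝ)) p.1) u ≤
      (ZA ((lap lam).restrict {t | r ≤ |t|}) (al η) (fun a => c / 2 * (a ^ 2 - 1))
        (fun a => Rw S0 σ s a u)) ^ z := by
    intro u
    rw [Zxm_ZA hlam hη.le hB, eZ]
    exact part_le ZA_nonneg (hle u) hz hz1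
  refine integral_mono_of_nonneg (Eventually.of_forall fun u => ?_) ?_
    (Eventually.of_forall key)
  · exact mul_nonneg (Zxm_pos _ _).le (hG.av_nonneg 1
      (fun p => indicator_nonneg (fun _ _ => zero_le_one) _) u)
  · -- integrability: bounded by the moment of the full partition function
    refine (hG.eg_Zx 1 z).integrable.mono' ?_ (Eventually.of_forall fun u => ?_)
    · have bM : Bm fun p : ℝ × X => ({t : ℝ | r ≤ |t|}).indicator (fun _ => (1 : ℝ)) p.1 :=
        Bm.of (mI.comp measurable_fst) fun p => bI p.1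
      have m1 : Measurable fun u : κ ⊕ J → ℝ =>
          ZA ((lap lam).restrict {t | r ≤ |t|}) (al η) (fun a => c / 2 * (a ^ 2 - 1))
            (fun a => Rw S0 σ s a u) := by
        have e2 : (fun u : κ ⊕ J → ℝ =>
            ZA ((lap lam).restrict {t | r ≤ |t|}) (al η) (fun a => c / 2 * (a ^ 2 - 1))
              (fun a => Rw S0 σ s a u)) = fun u =>
            avm (muA X lam η c) 1 (SA S0 σ s η)
              (fun p => ({t : ℝ | r ≤ |t|}).indicator (fun _ => (1 : ℝ)) p.1) u *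
              Zm (muA X lam η c) 1 (SA S0 σ s η) u := by
          funext u
          rw [eZ, Zm_ZA hlam hη.le hB]
          have h0 := hG.Z_pos 1 u
          rw [Zm_ZA hlam hη.le hB] at h0
          rw [div_mul_cancel₀ _ h0.ne']
        rw [e2]
        refine (hG.cont_av 1 bM).measurable.mul ?_
        have h3 : (fun u => Zm (muA X lam η c) 1 (SA S0 σ s η) u) =
            fun u => Zxm (muA X lam η c) 1 (SA S0 σ s η) 1 u := by
          funext u
          unfold Zxm lzm
          rw [one_mul, Real.exp_log (hG.Z_pos 1 u)]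
        change Measurable fun u => Zm (muA X lam η c) 1 (SA S0 σ s η) u
        rw [h3]
        exact (hG.cont_Zx 1 1).measurable
      exact (m1.pow_const z).aestronglyMeasurable
    · rw [Real.norm_of_nonneg (Real.rpow_nonneg ZA_nonneg _), Zxm_ZA hlam hη.le hB]
      exact Real.rpow_le_rpow ZA_nonneg (hle u) hz.le

/-- **Tail of the thermal variable under the tilted law.** -/
theorem amp_tail_E {M : ℕ} (hlam : 0 < lam) (hη : 0 < η) (hη1 : η ≤ 1) (hB : AB S0 σ s η M0)
    (hc : 0 ≤ c) (hz : 0 < z) (hz1 : z ≤ 1) (hr : 0 ≤ r) (hl : 1 ≤ (lam + c) * η)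
    (hM : 0 < M) (hM2 : 4 * η * c ≤ M)
    (ht : ∀ a ∈ Icc (1 - η) (1 + η), Mw S0 σ s z a ≤
      Mw S0 σ s z 1 * Real.exp (z * (c / 2 * (a ^ 2 - 1)))) :
    (∫ u, Zxm (muA X lam η c) 1 (SA S0 σ s η) z u *
        avm (muA X lam η c) 1 (SA S0 σ s η)
          (fun p => ({t : ℝ | r ≤ |t|}).indicator (fun _ => (1 : ℝ)) p.1) u ∂(gI (κ ⊕ J))) /
      MA S0 σ lam s η c z ≤
      2 * M * (4 * (lam + c) / lam * Real.exp 2) ^ z * Real.exp (z * (1 - lam * r)) := by
  have h1 := amp_tail (lam := lam) (r := r) hlam hη hη1 hB hc hz hz1 hr hM hM2 ht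
  have h2 := amp_ge hlam hη hη1 hB hc hz hl
  have hA := MA_pos (c := c) hlam hη.le hB z
  have hMw := Mw_pos hB (a := 1) ⟨by linarith, by linarith⟩ z
  rw [div_le_iff₀ hA]
  refine h1.trans ?_
  have hq : 0 < lam / (4 * (lam + c)) * Real.exp (-2) := by positivity
  have e1 : (4 * (lam + c) / lam * Real.exp 2) ^ z *
      (lam / (4 * (lam + c)) * Real.exp (-2)) ^ z = 1 := by
    rw [← Real.mul_rpow (by positivity) hq.le]
    have : 4 * (lam + c) / lam * Real.exp 2 * (lam / (4 * (lam + c)) * Real.exp (-2)) = 1 := by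
      rw [Real.exp_neg]
      have := (Real.exp_pos 2).ne'
      field_simp
    rw [this, Real.one_rpow]
  calc Mw S0 σ s z 1 * (2 * M * Real.exp (z * (1 - lam * r)))
      = 2 * M * (4 * (lam + c) / lam * Real.exp 2) ^ z * Real.exp (z * (1 - lam * r)) *
          ((lam / (4 * (lam + c)) * Real.exp (-2)) ^ z * Mw S0 σ s z 1) := by
        linear_combination -(Mw S0 σ s z 1 * (2 * M * Real.exp (z * (1 - lam * r)))) * e1
    _ ≤ _ := mul_le_mul_of_nonneg_left h2 (by positivity)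

/-! ### comparison of the relative entropies -/

section KL

variable {κ₁ κ₂ : Type} [Fintype κ₁] [Fintype κ₂] {F : (κ₁ → ℝ) → ℝ} {G : (κ₂ → ℝ) → ℝ}
  {B₁ B₂ Δ₁ Δ₂ : ℝ}

/-- the log-moment -/
noncomputable def lm {κ : Type} [Fintype κ] (F : (κ → ℝ) → ℝ) (z : ℝ) : ℝ :=
  Real.log (∫ u, Real.exp (z * F u) ∂(gI κ))

lemma KL_upper (hF : LipB F B₁) (hB : 0 ≤ B₁) (hy : 0 < y) (hh : 0 < h) :
    KL F y ≤ (y * lm F (y + h) - (y + h) * lm F y) / h := by
  have h1 := (W_sub_bd hF hB hy (by linarith : y ≤ y + h)).1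
  rw [W_one_zero, W_one_zero] at h1
  have hyh : 0 < y + h := by linarith
  unfold lm
  rw [le_div_iff₀ hh]
  have e1 : 1 / y - 1 / (y + h) = h / (y * (y + h)) := by field_simp; ring
  have h2 := mul_le_mul_of_nonneg_right h1 (by positivity : 0 ≤ y * (y + h))
  rw [e1] at h2
  have e2 : KL F y * (h / (y * (y + h))) * (y * (y + h)) = KL F y * h := by
    field_simp
  rw [e2] at h2
  refine h2.trans (le_of_eq ?_)
  field_simp

lemma KL_lower (hF : LipB F B₁) (hB : 0 ≤ B₁) (hy : 0 < y) (hh : 0 < h) :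
    (y * lm F (y + h) - (y + h) * lm F y) / h ≤ KL F (y + h) := by
  have h1 := (W_sub_bd hF hB hy (by linarith : y ≤ y + h)).2
  rw [W_one_zero, W_one_zero] at h1
  have hyh : 0 < y + h := by linarith
  unfold lm
  rw [div_le_iff₀ hh]
  have e1 : 1 / y - 1 / (y + h) = h / (y * (y + h)) := by field_simp; ring
  have h2 := mul_le_mul_of_nonneg_right h1 (by positivity : 0 ≤ y * (y + h))
  rw [e1] at h2
  have e2 : KL F (y + h) * (h / (y * (y + h))) * (y * (y + h)) = KL F (y + h) * h := by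
    field_simp
  rw [e2] at h2
  refine le_trans (le_of_eq ?_) h2
  field_simp

/-- **Comparison of the relative entropies** of two functionals with close log-moments. -/
theorem KL_link (hF : LipB F B₁) (hB₁ : 0 ≤ B₁) (hG : LipB G B₂) (hB₂ : 0 ≤ B₂) (hy : 0 < y)
    (hh : 0 < h) (h1 : lm F (y + h) ≤ lm G (y + h) + Δ₁) (h2 : lm G y ≤ lm F y + Δ₂) :
    KL F y ≤ KL G (y + h) + (y * Δ₁ + (y + h) * Δ₂) / h := by
  refine (KL_upper hF hB₁ hy hh).trans ?_
  refine le_trans ?_ (add_le_add_left (KL_lower hG hB₂ hy hh) _)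
  rw [← add_div]
  refine div_le_div_of_nonneg_right ?_ hh.le
  have e1 := mul_le_mul_of_nonneg_left h1 hy.le
  have e2 := mul_le_mul_of_nonneg_left h2 (by linarith : 0 ≤ y + h)
  linarith

/-- the relative entropy depends on the moments only -/
theorem KL_congr (hF : LipB F B₁) (hB₁ : 0 ≤ B₁) (hG : LipB G B₂) (hB₂ : 0 ≤ B₂)
    (he : ∀ z, lm F z = lm G z) (y : ℝ) : KL F y = KL G y := by
  have h1 := hasDerivAt_cgf hF hB₁ y
  have h2 := hasDerivAt_cgf hG hB₂ y
  have h3 : (fun x => Real.log (∫ z, Real.exp (x * F z) ∂(gI κ₁))) =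
      fun x => Real.log (∫ z, Real.exp (x * G z) ∂(gI κ₂)) := funext he
  rw [h3] at h1
  rw [KL_Mn, KL_Mn, h1.unique h2]
  have := he y
  unfold lm at this
  rw [this]

end KL

end Vale.Agent.P146.H529
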