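import Vale.Agent.P146.H529.Link3

/-!
P146, block LINK, part 4: the relative entropy of the natural law at the exponent `y` and the one of
the amplitude law at `y ± h`.

`ℓ z w` is the log-moment of the natural free energy at the exponent `z`, total field variance `w`;
`p z` a slope of the concave function `ℓ z` at `v = v0 + s ^ 2`. The constant of the compensator is
`c = 2 s ^ 2 p y₀ / y₀`, `y₀` the exponent at which the amplitude law is used.

* `lm_amp_le`, `lm_amp_ge` : the log-moments differ by `O(log)`;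
* `link_up` : `KL nat y ≤ KL amp (y + h) + err`;
* `link_dn` : `KL amp y ≤ KL nat (y + h) + err`.
-/

open MeasureTheory ProbabilityTheory Filter Topology Set

namespace Vale.Agent.P146.H529

open Vale.Agent.P157.Lv Vale.Agent.P146.H425 Vale.Agent.P146.H325 Vale.Agent.P146.H196
  Vale.Agent.P146.H475 Vale.Agent.P146.H9

set_option linter.unusedSectionVars false

variable {κ J X : Type} [Fintype κ] [DecidableEq κ] [Fintype J] [DecidableEq J]
  [Fintype X] [Nonempty X] [MeasurableSpace X] [MeasurableSingletonClass X]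
  {S0 : κ → X → ℝ} {σ : J → X → ℝ} {lam s η c M0 z D y h v0 v : ℝ}

/-- the amplitude functional -/
noncomputable def FA (S0 : κ → X → ℝ) (σ : J → X → ℝ) (lam s η c : ℝ) : (κ ⊕ J → ℝ) → ℝ :=
  lzm (muA X lam η c) 1 (SA S0 σ s η)

lemma lip_FA (hlam : 0 < lam) (hη : 0 ≤ η) (hB : AB S0 σ s η M0) :
    LipB (FA S0 σ lam s η c) (Km (κ ⊕ J) 1 M0) := ((gm (c := c) hlam hη hB).c11 1).lip

lemma Km_nn (hB : AB S0 σ s η M0) : 0 ≤ Km (κ ⊕ J) 1 M0 := by
  unfold Km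
  have := hB.pos
  positivity

lemma lm_FA (z : ℝ) : lm (FA S0 σ lam s η c) z = Real.log (MA S0 σ lam s η c z) := rfl

lemma lm_Rw (z : ℝ) : lm (Rw S0 σ s 1 : (κ ⊕ J → ℝ) → ℝ) z = Real.log (Mw S0 σ s z 1) := rfl

/-- **The log-moment of the amplitude law from above.** -/
theorem lm_amp_le (hlam : 0 < lam) (hη : 0 < η) (hη1 : η ≤ 1) (hB : AB S0 σ s η M0)
    (hc : 0 ≤ c) (hz : 0 < z) (hz1 : z ≤ 1) (hD : 0 ≤ D)
    (ht : ∀ a ∈ Icc (1 - η) (1 + η), Mw S0 σ s z a ≤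
      Mw S0 σ s z 1 * Real.exp (z * (c / 2 * (a ^ 2 - 1)) + z * (D * |a - 1|))) :
    lm (FA S0 σ lam s η c) z ≤
      lm (Rw S0 σ s 1) z + (Real.log (8 * η * c + 4) + z * (1 + D * η)) := by
  have hMw := Mw_pos hB (a := 1) ⟨by linarith, by linarith⟩ z
  have hMA := MA_pos (c := c) hlam hη.le hB z
  obtain ⟨M, hM1, hM2⟩ : ∃ M : ℕ, 4 * η * c + 1 ≤ M ∧ (M : ℝ) ≤ 4 * η * c + 2 := by
    refine ⟨⌈4 * η * c + 1⌉₊, Nat.le_ceil _, ?_⟩
    have := Nat.ceil_lt_add_one (by positivity : 0 ≤ 4 * η * c + 1)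
    linarith
  have hc' : 0 ≤ 4 * η * c := by positivity
  have hM0 : (0 : ℝ) < M := by linarith
  have h1 := amp_le' hlam hη hη1 hB hc hz hz1 hD (by exact_mod_cast hM0) (by linarith) ht
  rw [lm_FA, lm_Rw]
  have h2 := Real.log_le_log hMA h1
  rw [Real.log_mul hMw.ne' (by positivity), Real.log_mul (by positivity) (Real.exp_pos _).ne',
    Real.log_exp] at h2
  have h3 : Real.log (2 * M) ≤ Real.log (8 * η * c + 4) :=
    Real.log_le_log (by positivity) (by linarith)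
  linarith

/-- **The log-moment of the amplitude law from below.** -/
theorem lm_amp_ge (hlam : 0 < lam) (hη : 0 < η) (hη1 : η ≤ 1) (hB : AB S0 σ s η M0)
    (hc : 0 ≤ c) (hz : 0 < z) (hl : 1 ≤ (lam + c) * η) :
    lm (Rw S0 σ s 1) z ≤
      lm (FA S0 σ lam s η c) z + z * (Real.log (4 * (lam + c) / lam) + 2) := by
  have hMw := Mw_pos hB (a := 1) ⟨by linarith, by linarith⟩ z
  have hlc : 0 < lam + c := by linarith
  have h1 := amp_ge (z := z) hlam hη hη1 hB hc hz hl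
  rw [lm_FA, lm_Rw]
  have hq : 0 < lam / (4 * (lam + c)) * Real.exp (-2) := by positivity
  have h2 := Real.log_le_log (mul_pos (Real.rpow_pos_of_pos hq z) hMw) h1
  rw [Real.log_mul (Real.rpow_pos_of_pos hq z).ne' hMw.ne', Real.log_rpow hq,
    Real.log_mul (by positivity) (Real.exp_pos _).ne', Real.log_exp] at h2
  have h3 : Real.log (lam / (4 * (lam + c))) = -Real.log (4 * (lam + c) / lam) := by
    rw [← Real.log_inv, inv_div]
  rw [h3] at h2
  linarith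

/-- The tangent inequality at the exponent `z`, with the constant of the exponent `y`. -/
lemma tangent_of {ℓ : ℝ → ℝ} {pz py : ℝ} (hη : 0 ≤ η) (hη1 : η ≤ 1)
    (hz : 0 < z) (hv : v = v0 + s ^ 2)
    (hℓ : ∀ a ∈ Icc (1 - η) (1 + η), Mw S0 σ s z a = Real.exp (ℓ (v0 + a ^ 2 * s ^ 2)))
    (hp : ∀ a ∈ Icc (1 - η) (1 + η),
      ℓ (v0 + a ^ 2 * s ^ 2) ≤ ℓ v + pz * (v0 + a ^ 2 * s ^ 2 - v))
    (hc : c = 2 * s ^ 2 * (py / y)) (hD : D = 3 * s ^ 2 * |pz / z - py / y|) :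
    ∀ a ∈ Icc (1 - η) (1 + η), Mw S0 σ s z a ≤
      Mw S0 σ s z 1 * Real.exp (z * (c / 2 * (a ^ 2 - 1)) + z * (D * |a - 1|)) := by
  intro a ha
  rw [hℓ a ha, hℓ 1 ⟨by linarith, by linarith⟩, ← Real.exp_add, Real.exp_le_exp]
  have h1 := hp a ha
  have e1 : ℓ (v0 + 1 ^ 2 * s ^ 2) = ℓ v := by rw [hv]; congr 1; ring
  rw [e1]
  have e2 : v0 + a ^ 2 * s ^ 2 - v = s ^ 2 * (a ^ 2 - 1) := by rw [hv]; ring
  rw [e2] at h1
  refine h1.trans ?_
  have h2 : (pz / z - py / y) * (a ^ 2 - 1) ≤ |pz / z - py / y| * (3 * |a - 1|) := by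
    refine (le_abs_self _).trans ?_
    rw [abs_mul]
    refine mul_le_mul_of_nonneg_left ?_ (abs_nonneg _)
    have : a ^ 2 - 1 = (a + 1) * (a - 1) := by ring
    rw [this, abs_mul]
    refine mul_le_mul_of_nonneg_right ?_ (abs_nonneg _)
    rw [abs_le]
    constructor <;> linarith [ha.1, ha.2]
  have h3 := mul_le_mul_of_nonneg_left h2 (by positivity : 0 ≤ z * s ^ 2)
  rw [hc, hD]
  have e3 : pz * (s ^ 2 * (a ^ 2 - 1)) = z * s ^ 2 * (pz / z * (a ^ 2 - 1)) := by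
    field_simp
  rw [e3]
  nlinarith

/-- **From the natural law at `y` to the amplitude law at `y + h`** (constants of `y + h`). -/
theorem link_up {ℓ : ℝ → ℝ → ℝ} {p p' : ℝ} (hlam : 0 < lam) (hη : 0 < η) (hη1 : η ≤ 1)
    (hB : AB S0 σ s η M0) (hy : 0 < y) (hh : 0 < h) (hy1 : y + h ≤ 1) (hl : 1 ≤ (lam + c) * η)
    (hv : v = v0 + s ^ 2)
    (hℓ : ∀ a ∈ Icc (1 - η) (1 + η), Mw S0 σ s y a = Real.exp (ℓ y (v0 + a ^ 2 * s ^ 2)))
    (hp : ∀ a ∈ Icc (1 - η) (1 + η),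
      ℓ y (v0 + a ^ 2 * s ^ 2) ≤ ℓ y v + p * (v0 + a ^ 2 * s ^ 2 - v))
    (hp' : 0 ≤ p') (hc : c = 2 * s ^ 2 * (p' / (y + h))) :
    KL (Rw S0 σ s 1) y ≤ KL (FA S0 σ lam s η c) (y + h) +
      (y * ((y + h) * (Real.log (4 * (lam + c) / lam) + 2)) +
        (y + h) * (Real.log (8 * η * c + 4) +
          y * (1 + 3 * s ^ 2 * |p / y - p' / (y + h)| * η))) / h := by
  have hc0 : 0 ≤ c := by rw [hc]; positivity
  refine KL_link (lip_raw hη.le hB) (Km_nn hB) (lip_FA hlam hη.le hB) (Km_nn hB) hy hh ?_ ?_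
  · exact lm_amp_ge hlam hη hη1 hB hc0 (by linarith) hl
  · exact lm_amp_le hlam hη hη1 hB hc0 hy (by linarith) (by positivity)
      (tangent_of hη.le hη1 hy hv hℓ hp hc rfl)

/-- **From the amplitude law at `y` to the natural law at `y + h`** (constants of `y`). -/
theorem link_dn {ℓ : ℝ → ℝ → ℝ} {p p' : ℝ} (hlam : 0 < lam) (hη : 0 < η) (hη1 : η ≤ 1)
    (hB : AB S0 σ s η M0) (hy : 0 < y) (hh : 0 < h) (hy1 : y + h ≤ 1) (hl : 1 ≤ (lam + c) * η)
    (hv : v = v0 + s ^ 2)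
    (hℓ : ∀ a ∈ Icc (1 - η) (1 + η),
      Mw S0 σ s (y + h) a = Real.exp (ℓ (y + h) (v0 + a ^ 2 * s ^ 2)))
    (hp : ∀ a ∈ Icc (1 - η) (1 + η),
      ℓ (y + h) (v0 + a ^ 2 * s ^ 2) ≤ ℓ (y + h) v + p' * (v0 + a ^ 2 * s ^ 2 - v))
    (hp0 : 0 ≤ p) (hc : c = 2 * s ^ 2 * (p / y)) :
    KL (FA S0 σ lam s η c) y ≤ KL (Rw S0 σ s 1) (y + h) +
      (y * (Real.log (8 * η * c + 4) +
          (y + h) * (1 + 3 * s ^ 2 * |p' / (y + h) - p / y| * η)) +
        (y + h) * (y * (Real.log (4 * (lam + c) / lam) + 2))) / h := by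
  have hc0 : 0 ≤ c := by rw [hc]; positivity
  refine KL_link (lip_FA hlam hη.le hB) (Km_nn hB) (lip_raw hη.le hB) (Km_nn hB) hy hh ?_ ?_
  · exact lm_amp_le hlam hη hη1 hB hc0 (by linarith) hy1 (by positivity)
      (tangent_of hη.le hη1 (by linarith) hv hℓ hp hc rfl)
  · exact lm_amp_ge hlam hη hη1 hB hc0 hy hl

end Vale.Agent.P146.H529
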