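import Vale.Agent.P146.H529.LinkNum

/-!
P146, the amplitude law of the SK model: log-moments at any exponent and the tail of the thermal
variable, in numerical form. The constant is `cc n b s a`, `a` a slope of the natural functional.

* `lm_up_num` : `lm Fsk z ≤ LPhi z V + 4 + log n + 3 z n s² η A / b`;
* `lm_dn_num` : `LPhi z V ≤ lm Fsk z + z (5 + log n)`;
* `tail_num` : `ex ⟨1 - ins⟩ ≤ 2000 n² exp (-(y lam η))`.
-/

open MeasureTheory ProbabilityTheory Filter Topology Set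

namespace Vale.Agent.P146.H529

open Vale.Agent.P157.Lv Vale.Agent.P146 Vale.Agent.P146.H425 Vale.Agent.P146.H325
  Vale.Agent.P146.H332 Vale.Agent.P146.H196 Vale.Agent.P146.H475 Vale.Agent.P146.H9
  Vale.Agent.P146.H347 Vale.Agent.P146.H877

set_option linter.unusedSectionVars false

variable {n : ℕ} {LB LF : Type} [Fintype LB] [DecidableEq LB] [Fintype LF] [DecidableEq LF]
  {b : ℝ} {cB : LB → ℝ} {cF : LF → ℝ} {lam s η c y z V a a' A : ℝ}

/-- the log-moment of the natural functional in the coordinates `Co` -/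
lemma lm_Rw_sk (hB : ∑ l, cB l ^ 2 = 1) (hV : V = ∑ l, cF l ^ 2 + s ^ 2) (hs : 0 < s) (z : ℝ) :
    lm (Rw (S0 b cB cF) (fun (j : Fin n) (σ : Xs n) => sp σ j) s 1 : (Co n LB LF → ℝ) → ℝ) z =
      LPhi n b z V := by
  have := msx n
  have hF0 : 0 ≤ ∑ l, cF l ^ 2 := Finset.sum_nonneg fun _ _ => sq_nonneg _
  have h1 : 0 < ∑ l, cF l ^ 2 + 1 ^ 2 * s ^ 2 := by positivity
  rw [lm_Rw, Mw_sk hB h1, Real.log_exp, hV]
  congr 1
  ring

lemma cc_nonneg (h : SG n b y V a) (hy : 0 < y) (hV : 0 ≤ V) : 0 ≤ cc n b s a := by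
  rw [cc_eq hy.ne', mul_div_assoc, mul_comm y, div_mul_cancel₀ _ hy.ne']
  have := h.nonneg hy.le hV
  positivity

lemma cc_le (h : SG n b y V a) (hy : 0 < y) (hy1 : y ≤ 1) (hV : 0 < V) (hs : s ^ 2 ≤ 1) :
    cc n b s a ≤ n := by
  rw [cc_eq hy.ne', mul_div_assoc, mul_comm y, div_mul_cancel₀ _ hy.ne']
  have h1 := h.nonneg hy.le hV.le
  have h2 := h.le hy hy1 hV
  have hn : (0 : ℝ) ≤ n := Nat.cast_nonneg n
  nlinarith

/-- the tangent inequality at the exponent `z`, constants of the exponent `y` -/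
lemma tangent_sk (hn : 1 ≤ n) (hb : 0 < b) (hB : ∑ l, cB l ^ 2 = 1)
    (hV : V = ∑ l, cF l ^ 2 + s ^ 2) (hs : 0 < s) (hη : 0 < η) (hη1 : η < 1)
    (hz : 0 < z) (ha' : SG n b z V a') :
    ∀ t ∈ Icc (1 - η) (1 + η),
      Mw (S0 b cB cF) (fun (j : Fin n) (σ : Xs n) => sp σ j) s z t ≤
      Mw (S0 b cB cF) (fun (j : Fin n) (σ : Xs n) => sp σ j) s z 1 *
        Real.exp (z * (cc n b s a / 2 * (t ^ 2 - 1)) +
          z * (3 * s ^ 2 * (n / (2 * b) * |a' - a|) * |t - 1|)) := by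
  have := msx n
  have hF0 : 0 ≤ ∑ l, cF l ^ 2 := Finset.sum_nonneg fun _ _ => sq_nonneg _
  have hn1 : (1 : ℝ) ≤ n := by exact_mod_cast hn
  have hpos : ∀ a ∈ Icc (1 - η) (1 + η), 0 < ∑ l, cF l ^ 2 + a ^ 2 * s ^ 2 := by
    intro a ha
    have : 0 < a := by linarith [ha.1]
    positivity
  have hd : n / (2 * b) * |a' - a| =
      |z * (n / (2 * b) * (1 + a')) / z - 1 * (n / (2 * b) * (1 + a)) / 1| := by
    have e1 : z * (n / (2 * b) * (1 + a')) / z - 1 * (n / (2 * b) * (1 + a)) / 1 =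
        n / (2 * b) * (a' - a) := by
      field_simp
      ring
    rw [e1, abs_mul, abs_of_pos (by positivity : (0 : ℝ) < n / (2 * b))]
  exact tangent_of (ℓ := fun w => LPhi n b z w) (v0 := ∑ l, cF l ^ 2) (y := 1)
    (pz := z * (n / (2 * b) * (1 + a'))) (py := 1 * (n / (2 * b) * (1 + a)))
    hη.le hη1.le hz hV (fun t ht => Mw_sk hB (hpos t ht) z)
    (fun t ht => ha'.lphi hz _ (hpos t ht).le) (cc_eq one_ne_zero) (by rw [hd])

/-- **Log-moment of the amplitude law at the exponent `z` from above**; constants of `y`. -/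
theorem lm_up_num (hn : 1 ≤ n) (hb : 0 < b) (hB : ∑ l, cB l ^ 2 = 1)
    (hV : V = ∑ l, cF l ^ 2 + s ^ 2) (hV1 : V ≤ 1) (hs : 0 < s) (hlam : 1 ≤ lam) (hη : 0 < η)
    (hη1 : η < 1) (hy : 0 < y) (hy1 : y ≤ 1) (hz : 0 < z) (hz1 : z ≤ 1)
    (ha : SG n b y V a) (ha' : SG n b z V a') (hA : |a| ≤ A) (hA' : |a'| ≤ A) :
    lm (Fsk n LB LF b cB cF lam s η (cc n b s a)) z ≤
      LPhi n b z V + (4 + Real.log n + 3 * z * (n * s ^ 2 * η * A / b)) := by
  have := msx n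
  have hn1 : (1 : ℝ) ≤ n := by exact_mod_cast hn
  have hF0 : 0 ≤ ∑ l, cF l ^ 2 := Finset.sum_nonneg fun _ _ => sq_nonneg _
  have hV0 : 0 < V := by rw [hV]; positivity
  have hs1 : s ^ 2 ≤ 1 := by linarith
  have hc0 := cc_nonneg (s := s) ha hy hV0.le
  have hcn := cc_le ha hy hy1 hV0 hs1
  have hD : 0 ≤ 3 * s ^ 2 * (n / (2 * b) * |a' - a|) := by positivity
  have h1 := lm_amp_le (D := 3 * s ^ 2 * (n / (2 * b) * |a' - a|)) (by linarith : 0 < lam) hη
    hη1.le (ab_sk n b cB cF s hη.le) hc0 hz hz1 hD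
    (tangent_sk (a := a) hn hb hB hV hs hη hη1 hz ha')
  rw [lm_Rw_sk hB hV hs] at h1
  refine h1.trans (add_le_add_right ?_ _)
  have l2 := (log_bounds hn hlam hc0 hcn hη hη1.le).2
  have h2 : |a' - a| ≤ 2 * A := (abs_sub _ _).trans (by linarith)
  have h3 : 3 * s ^ 2 * (n / (2 * b) * |a' - a|) * η ≤ 3 * (n * s ^ 2 * η * A / b) := by
    calc 3 * s ^ 2 * (n / (2 * b) * |a' - a|) * η ≤ 3 * s ^ 2 * (n / (2 * b) * (2 * A)) * η := by
          gcongr
      _ = _ := by field_simp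
  have h4 := mul_le_mul_of_nonneg_left h3 hz.le
  nlinarith

/-- **Log-moment of the amplitude law from below.** -/
theorem lm_dn_num (hn : 1 ≤ n) (hB : ∑ l, cB l ^ 2 = 1)
    (hV : V = ∑ l, cF l ^ 2 + s ^ 2) (hV1 : V ≤ 1) (hs : 0 < s) (hlam : 1 ≤ lam) (hη : 0 < η)
    (hη1 : η < 1) (hle : 1 ≤ lam * η) (hy : 0 < y) (hy1 : y ≤ 1) (hz : 0 < z)
    (ha : SG n b y V a) :
    LPhi n b z V ≤ lm (Fsk n LB LF b cB cF lam s η (cc n b s a)) z + z * (5 + Real.log n) := by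
  have := msx n
  have hF0 : 0 ≤ ∑ l, cF l ^ 2 := Finset.sum_nonneg fun _ _ => sq_nonneg _
  have hV0 : 0 < V := by rw [hV]; positivity
  have hs1 : s ^ 2 ≤ 1 := by linarith
  have hc0 := cc_nonneg (s := s) ha hy hV0.le
  have hcn := cc_le ha hy hy1 hV0 hs1
  have h1 := lm_amp_ge (z := z) (by linarith : 0 < lam) hη hη1.le (ab_sk n b cB cF s hη.le) hc0 hz
    (by nlinarith)
  rw [lm_Rw_sk hB hV hs] at h1
  refine h1.trans (add_le_add_right (mul_le_mul_of_nonneg_left ?_ hz.le) _)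
  exact (log_bounds hn hlam hc0 hcn hη hη1.le).1

lemma one_sub_ins (η t : ℝ) :
    1 - ins η t = ({t : ℝ | η ≤ |t|}).indicator (fun _ => (1 : ℝ)) t := by
  unfold ins
  by_cases h : |t| < η
  · rw [if_pos h, indicator_of_notMem]
    · ring
    · simpa using h
  · rw [if_neg h, indicator_of_mem]
    · ring
    · simpa using not_lt.1 h

/-- **The thermal variable leaves `(-η, η)` with small probability.** -/
theorem tail_num (hn : 1 ≤ n) (hb : 0 < b) (hB : ∑ l, cB l ^ 2 = 1)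
    (hV : V = ∑ l, cF l ^ 2 + s ^ 2) (hV1 : V ≤ 1) (hs : 0 < s) (hlam : 1 ≤ lam) (hη : 0 < η)
    (hη1 : η < 1) (hle : 1 ≤ lam * η) (hy : 0 < y) (hy1 : y ≤ 1) (ha : SG n b y V a) :
    H646.ex (fun _ => gaussianReal 0 1)
        (Zxm (muA (Xs n) lam η (cc n b s a)) 1 (Sm (LB := LB) (LF := LF) b cB cF s η) y)
        (avm (muA (Xs n) lam η (cc n b s a)) 1 (Sm b cB cF s η) fun p => 1 - ins η p.1) ≤
      2000 * n ^ 2 * Real.exp (-(y * (lam * η))) := by
  have := msx n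
  have hn1 : (1 : ℝ) ≤ n := by exact_mod_cast hn
  have hF0 : 0 ≤ ∑ l, cF l ^ 2 := Finset.sum_nonneg fun _ _ => sq_nonneg _
  have hV0 : 0 < V := by rw [hV]; positivity
  have hs1 : s ^ 2 ≤ 1 := by linarith
  have hc0 := cc_nonneg (s := s) ha hy hV0.le
  have hcn := cc_le ha hy hy1 hV0 hs1
  set C := cc n b s a with hC
  have hlam0 : 0 < lam := by linarith
  obtain ⟨M, hM1, hM2⟩ : ∃ M : ℕ, 4 * η * C + 1 ≤ M ∧ (M : ℝ) ≤ 4 * η * C + 2 := by
    refine ⟨⌈4 * η * C + 1⌉₊, Nat.le_ceil _, ?_⟩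
    have := Nat.ceil_lt_add_one (by positivity : 0 ≤ 4 * η * C + 1)
    linarith
  have hc' : 0 ≤ 4 * η * C := by positivity
  have hM0 : (0 : ℝ) < M := by linarith
  have ht : ∀ t ∈ Icc (1 - η) (1 + η),
      Mw (S0 b cB cF) (fun (j : Fin n) (σ : Xs n) => sp σ j) s y t ≤
      Mw (S0 b cB cF) (fun (j : Fin n) (σ : Xs n) => sp σ j) s y 1 *
        Real.exp (y * (C / 2 * (t ^ 2 - 1))) := by
    intro t ht
    have h1 := tangent_sk (a := a) hn hb hB hV hs hη hη1 hy ha t ht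
    simpa using h1
  have h1 := amp_tail_E (r := η) (M := M) hlam0 hη hη1.le (ab_sk n b cB cF s hη.le) hc0 hy hy1
    hη.le (by nlinarith) (by exact_mod_cast hM0) (by linarith) ht
  have e0 : H646.ex (fun _ => gaussianReal 0 1)
        (Zxm (muA (Xs n) lam η C) 1 (Sm (LB := LB) (LF := LF) b cB cF s η) y)
        (avm (muA (Xs n) lam η C) 1 (Sm b cB cF s η) fun p => 1 - ins η p.1) =
      (∫ u, Zxm (muA (Xs n) lam η C) 1 (SA (S0 b cB cF)
          (fun (j : Fin n) (σ : Xs n) => sp σ j) s η) y u *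
        avm (muA (Xs n) lam η C) 1 (SA (S0 b cB cF)
          (fun (j : Fin n) (σ : Xs n) => sp σ j) s η)
          (fun p => ({t : ℝ | η ≤ |t|}).indicator (fun _ => (1 : ℝ)) p.1) u
          ∂(gI (Co n LB LF))) /
      MA (S0 b cB cF) (fun (j : Fin n) (σ : Xs n) => sp σ j) lam s η C y := by
    have e1 : (fun p : ℝ × Xs n => 1 - ins η p.1) = fun p =>
        ({t : ℝ | η ≤ |t|}).indicator (fun _ => (1 : ℝ)) p.1 := by
      funext p
      exact one_sub_ins η p.1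
    rw [e1]
    rfl
  rw [e0]
  refine h1.trans ?_
  -- numbers
  have hlc : lam + C ≤ lam * (2 * n) := by nlinarith
  have b1 : 4 * (lam + C) / lam * Real.exp 2 ≤ 8 * n * Real.exp 2 := by
    refine mul_le_mul_of_nonneg_right ?_ (Real.exp_pos _).le
    rw [div_le_iff₀ hlam0]
    nlinarith
  have b2 : 1 ≤ 8 * (n : ℝ) * Real.exp 2 := by
    have : 1 ≤ Real.exp 2 := Real.one_le_exp (by norm_num)
    nlinarith
  have b3 : (4 * (lam + C) / lam * Real.exp 2) ^ y ≤ 8 * n * Real.exp 2 := by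
    calc (4 * (lam + C) / lam * Real.exp 2) ^ y ≤ (8 * n * Real.exp 2) ^ y :=
          Real.rpow_le_rpow (by positivity) b1 hy.le
      _ ≤ (8 * n * Real.exp 2) ^ (1 : ℝ) := Real.rpow_le_rpow_of_exponent_le b2 hy1
      _ = _ := Real.rpow_one _
  have b4 : Real.exp (y * (1 - lam * η)) = Real.exp y * Real.exp (-(y * (lam * η))) := by
    rw [← Real.exp_add]
    congr 1
    ring
  have b5 : Real.exp y ≤ Real.exp 1 := Real.exp_le_exp.2 hy1
  have b6 : (2 * M : ℝ) ≤ 12 * n := by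
    have : 4 * η * C ≤ 4 * n := by nlinarith [mul_le_mul hη1.le hcn hc0 zero_le_one]
    linarith
  have b7 : Real.exp 2 * Real.exp 1 ≤ 2000 / 96 := by
    rw [← Real.exp_add]
    have h3 : Real.exp (2 + 1) = Real.exp 1 ^ 3 := by
      rw [← Real.exp_nat_mul]
      norm_num
    have h4 := Real.exp_one_lt_d9
    have h5 := Real.exp_pos 1
    rw [h3]
    calc Real.exp 1 ^ 3 ≤ 2.7182818286 ^ 3 := by gcongr
      _ ≤ 2000 / 96 := by norm_num
  rw [b4]
  have hE := Real.exp_pos (-(y * (lam * η)))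
  calc 2 * ↑M * (4 * (lam + C) / lam * Real.exp 2) ^ y *
        (Real.exp y * Real.exp (-(y * (lam * η))))
      ≤ 12 * n * (8 * n * Real.exp 2) * (Real.exp 1 * Real.exp (-(y * (lam * η)))) := by
        gcongr
    _ = 96 * n ^ 2 * (Real.exp 2 * Real.exp 1) * Real.exp (-(y * (lam * η))) := by ring
    _ ≤ 96 * n ^ 2 * (2000 / 96) * Real.exp (-(y * (lam * η))) := by gcongr
    _ = _ := by ring

end Vale.Agent.P146.H529
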