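import Vale.Agent.P146.H529.LinkAs
import Vale.Agent.P146.H529.TailSK
import Vale.Agent.P146.H178.AP
import Vale.Agent.P146.H320.ConcSK

/-!
P146, block LINK with the a-priori package `H178.AP`.

* `exists_SG` : the natural functional has a slope at every `V > 0`;
* `SG.abs_le` : `|a| ≤ 4 b n ^ s0 y ^ 5 / V` from `AP`;
* `link_up_ap`, `link_dn_ap` : the two comparisons with the error `n ^ (1 - g) y ^ 6`.
-/

open MeasureTheory ProbabilityTheory Filter Topology Set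

namespace Vale.Agent.P146.H529

open Vale.Agent.P157.Lv Vale.Agent.P146 Vale.Agent.P146.H425 Vale.Agent.P146.H325
  Vale.Agent.P146.H332 Vale.Agent.P146.H196 Vale.Agent.P146.H475 Vale.Agent.P146.H9
  Vale.Agent.P146.H347 Vale.Agent.P146.H877

set_option linter.unusedSectionVars false

variable {n : ℕ} {b s0 y V a : ℝ}

/-- the natural functional has a slope -/
theorem exists_SG (hn : 1 ≤ n) (hb : 0 < b) (hy : 0 < y) (hy1 : y ≤ 1) (hV : 0 < V) :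
    ∃ a, SG n b y V a := by
  have hn0 : (0 : ℝ) < n := by exact_mod_cast hn
  obtain ⟨σ, _, _, h⟩ := H320.Conc.Phn_tangent n b hy hy1 hV
  refine ⟨2 * b / n * σ - 1, fun w hw => ?_⟩
  have h1 := h w hw
  have e : n / (2 * b) * (1 + (2 * b / n * σ - 1)) = σ := by
    field_simp
    ring
  rw [e]
  exact h1

/-- a slope is small if the a-priori package holds at the double variance -/
theorem SG.abs_le (h : SG n b y V a) (hn : 1 ≤ n) (hb : 0 < b) (hy : 0 ≤ y)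
    (hap : H178.AP b s0 n y (2 * V)) (hV : 0 < V) :
    |a| ≤ 4 * b * ((n : ℝ) ^ s0 * y ^ 5 / V) := by
  have h1 := hap.al_le hb hn hV (by linarith) h
  have h2 := hap.al_ge hb hn hV le_rfl h
  have h3 : 0 ≤ b * ((n : ℝ) ^ s0 * y ^ 5 / V) := by positivity
  rw [_root_.abs_le]
  constructor
  · exact h2
  · nlinarith

/-- a slope is at least `-1` -/
theorem SG.ge_neg_one (h : SG n b y V a) (hn : 1 ≤ n) (hb : 0 < b) (hy : 0 ≤ y) (hV : 0 ≤ V) :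
    -1 ≤ a := by
  have hn0 : (0 : ℝ) < n := by exact_mod_cast hn
  have h1 := h.nonneg hy hV
  by_contra h2
  push Not at h2
  have : n / (2 * b) * (1 + a) < 0 := mul_neg_of_pos_of_neg (by positivity) (by linarith)
  linarith

lemma ap_prod {e g ch ce k : ℝ} (hb : 0 < b) (hch : 0 ≤ ch) (hce : 0 < ce)
    (h1 : ch + g < 6 * e) (h2 : g + ch + s0 < k + ce) :
    ∀ᶠ n : ℕ in atTop, 1 ≤ n ∧ 0 < (n : ℝ) ^ (-ch) ∧ (n : ℝ) ^ (-ch) ≤ 1 ∧ (n : ℝ) ^ (-ce) < 1 ∧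
      ∀ y V s η : ℝ, (n : ℝ) ^ (-(1 / 6) + e) ≤ 2 * y → y ≤ 1 → 0 < V →
      s ^ 2 ≤ (n : ℝ) ^ (-k) * V → 0 ≤ η → η ≤ (n : ℝ) ^ (-ce) →
      60 / (n : ℝ) ^ (-ch) * (1 + Real.log n + n * y * s ^ 2 * η *
        (4 * b * ((n : ℝ) ^ s0 * (2 * y) ^ 5 / V)) / b) ≤ (n : ℝ) ^ (1 - g) * y ^ 6 := by
  set δ := (k + ce - (g + ch + s0)) / 2 with hδ
  have hδ0 : 0 < δ := by
    rw [hδ]
    linarith
  filter_upwards [link_err2 (b := b) (k := k - s0 - δ) (g := g) (ch := ch) (ce := ce) hb h1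
    (by rw [hδ]; linarith), ev_rpow hδ0 (128 * b), ev_rpow hce 2, eventually_ge_atTop 1]
    with n g1 g2 g3 g4
  have hn1 : (1 : ℝ) ≤ n := by exact_mod_cast g4
  have hn0 : (0 : ℝ) < n := by linarith
  refine ⟨g4, Real.rpow_pos_of_pos hn0 _, Real.rpow_le_one_of_one_le_of_nonpos hn1 (by linarith),
    ?_, ?_⟩
  · rw [Real.rpow_neg hn0.le]
    exact inv_lt_one_of_one_lt₀ (by linarith)
  intro y V s η hy hy1 hV hs hη hη1
  have hy0 : 0 < y := by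
    have : 0 < (n : ℝ) ^ (-(1 / 6) + e) := Real.rpow_pos_of_pos hn0 _
    linarith
  refine g1 y s η _ hy hy1 hη hη1 (by positivity) ?_
  calc s ^ 2 * (4 * b * ((n : ℝ) ^ s0 * (2 * y) ^ 5 / V))
      ≤ ((n : ℝ) ^ (-k) * V) * (4 * b * ((n : ℝ) ^ s0 * (2 * y) ^ 5 / V)) :=
        mul_le_mul_of_nonneg_right hs (by positivity)
    _ = 128 * b * ((n : ℝ) ^ (-k) * (n : ℝ) ^ s0) * y ^ 5 := by
        field_simp
        ring
    _ ≤ (n : ℝ) ^ δ * ((n : ℝ) ^ (-k) * (n : ℝ) ^ s0) * y ^ 5 := by gcongr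
    _ = (n : ℝ) ^ (-(k - s0 - δ)) * y ^ 5 := by
        rw [← Real.rpow_add hn0, ← Real.rpow_add hn0]
        congr 2
        ring

/-- **LINK, upper, with the a-priori package.** The amplitude law is built at the exponent
`y (1 + n ^ (-ch))` with its own slope `a'`. -/
theorem link_up_ap {e g ch ce k : ℝ} (hb : 0 < b) (hch : 0 ≤ ch) (hce : 0 < ce)
    (h1 : ch + g < 6 * e) (h2 : g + ch + s0 < k + ce) :
    ∀ᶠ n : ℕ in atTop, ∀ (LB LF : Type) [Fintype LB] [DecidableEq LB] [Fintype LF]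
      [DecidableEq LF] (cB : LB → ℝ) (cF : LF → ℝ) (lam s η y V a' : ℝ),
      ∑ l, cB l ^ 2 = 1 → V = ∑ l, cF l ^ 2 + s ^ 2 → V ≤ 1 → 0 < s →
      s ^ 2 ≤ (n : ℝ) ^ (-k) * V → 1 ≤ lam → 0 < η → η ≤ (n : ℝ) ^ (-ce) → 1 ≤ lam * η →
      (n : ℝ) ^ (-(1 / 6) + e) ≤ 2 * y → y ≤ 1 / 2 →
      H178.AP b s0 n y (2 * V) → H178.AP b s0 n (y * (1 + (n : ℝ) ^ (-ch))) (2 * V) →
      SG n b (y * (1 + (n : ℝ) ^ (-ch))) V a' →
      KV n b y V ≤ KL (Fsk n LB LF b cB cF lam s η (cc n b s a')) (y * (1 + (n : ℝ) ^ (-ch))) +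
        (n : ℝ) ^ (1 - g) * y ^ 6 := by
  filter_upwards [ap_prod (s0 := s0) (k := k) hb hch hce h1 h2] with n hn
  obtain ⟨g1, g2, g3, g4, g5⟩ := hn
  intro LB LF _ _ _ _ cB cF lam s η y V a' hB hV hV1 hs hs2 hlam hη hη1 hle hy hy1 hap hap' hsg'
  have hn1 : (1 : ℝ) ≤ n := by exact_mod_cast g1
  have hn0 : (0 : ℝ) < n := by linarith
  have hy0 : 0 < y := by
    have : 0 < (n : ℝ) ^ (-(1 / 6) + e) := Real.rpow_pos_of_pos hn0 _
    linarith
  have hF0 : 0 ≤ ∑ l, cF l ^ 2 := Finset.sum_nonneg fun _ _ => sq_nonneg _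
  have hV0 : 0 < V := by rw [hV]; positivity
  obtain ⟨a, ha⟩ := exists_SG g1 hb hy0 (by linarith) hV0
  have hθy : y * (1 + (n : ℝ) ^ (-ch)) ≤ 2 * y := by nlinarith
  have hA : |a| ≤ 4 * b * ((n : ℝ) ^ s0 * (2 * y) ^ 5 / V) := by
    refine (ha.abs_le g1 hb hy0.le hap hV0).trans ?_
    gcongr
    linarith
  have hA' : |a'| ≤ 4 * b * ((n : ℝ) ^ s0 * (2 * y) ^ 5 / V) := by
    refine (hsg'.abs_le g1 hb (by positivity) hap' hV0).trans ?_
    gcongr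
  refine (link_up_num g1 hb hB hV hV1 hs hlam hη (hη1.trans_lt g4) hle hy0 g2 g3
    (by linarith) ha hsg' hA hA').trans (add_le_add_right ?_ _)
  exact g5 y V s η hy (by linarith) hV0 hs2 hη.le hη1

/-- **LINK, lower, with the a-priori package.** The amplitude law is built at the exponent `y`
with its own slope `a`, the natural entropy is at `y (1 + n ^ (-ch))`. -/
theorem link_dn_ap {e g ch ce k : ℝ} (hb : 0 < b) (hch : 0 ≤ ch) (hce : 0 < ce)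
    (h1 : ch + g < 6 * e) (h2 : g + ch + s0 < k + ce) :
    ∀ᶠ n : ℕ in atTop, ∀ (LB LF : Type) [Fintype LB] [DecidableEq LB] [Fintype LF]
      [DecidableEq LF] (cB : LB → ℝ) (cF : LF → ℝ) (lam s η y V a : ℝ),
      ∑ l, cB l ^ 2 = 1 → V = ∑ l, cF l ^ 2 + s ^ 2 → V ≤ 1 → 0 < s →
      s ^ 2 ≤ (n : ℝ) ^ (-k) * V → 1 ≤ lam → 0 < η → η ≤ (n : ℝ) ^ (-ce) → 1 ≤ lam * η →
      (n : ℝ) ^ (-(1 / 6) + e) ≤ 2 * y → y ≤ 1 / 2 →
      H178.AP b s0 n y (2 * V) → H178.AP b s0 n (y * (1 + (n : ℝ) ^ (-ch))) (2 * V) →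
      SG n b y V a →
      KL (Fsk n LB LF b cB cF lam s η (cc n b s a)) y ≤ KV n b (y * (1 + (n : ℝ) ^ (-ch))) V +
        (n : ℝ) ^ (1 - g) * y ^ 6 := by
  filter_upwards [ap_prod (s0 := s0) (k := k) hb hch hce h1 h2] with n hn
  obtain ⟨g1, g2, g3, g4, g5⟩ := hn
  intro LB LF _ _ _ _ cB cF lam s η y V a hB hV hV1 hs hs2 hlam hη hη1 hle hy hy1 hap hap' hsg
  have hn1 : (1 : ℝ) ≤ n := by exact_mod_cast g1
  have hn0 : (0 : ℝ) < n := by linarith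
  have hy0 : 0 < y := by
    have : 0 < (n : ℝ) ^ (-(1 / 6) + e) := Real.rpow_pos_of_pos hn0 _
    linarith
  have hF0 : 0 ≤ ∑ l, cF l ^ 2 := Finset.sum_nonneg fun _ _ => sq_nonneg _
  have hV0 : 0 < V := by rw [hV]; positivity
  have hθy : y * (1 + (n : ℝ) ^ (-ch)) ≤ 2 * y := by nlinarith
  have hθ0 : 0 < y * (1 + (n : ℝ) ^ (-ch)) := by positivity
  obtain ⟨a', ha'⟩ := exists_SG g1 hb hθ0 (by linarith) hV0
  have hA : |a| ≤ 4 * b * ((n : ℝ) ^ s0 * (2 * y) ^ 5 / V) := by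
    refine (hsg.abs_le g1 hb hy0.le hap hV0).trans ?_
    gcongr
    linarith
  have hA' : |a'| ≤ 4 * b * ((n : ℝ) ^ s0 * (2 * y) ^ 5 / V) := by
    refine (ha'.abs_le g1 hb (by positivity) hap' hV0).trans ?_
    gcongr
  refine (link_dn_num g1 hb hB hV hV1 hs hlam hη (hη1.trans_lt g4) hle hy0 g2 g3
    (by linarith) hsg ha' hA hA').trans (add_le_add_right ?_ _)
  exact g5 y V s η hy (by linarith) hV0 hs2 hη.le hη1

/-- the thermal variable has a negligible tail -/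
theorem tail_ap {D cl : ℝ} (hcl : 0 < cl) (hb : 0 < b) :
    ∀ᶠ n : ℕ in atTop, ∀ (LB LF : Type) [Fintype LB] [DecidableEq LB] [Fintype LF]
      [DecidableEq LF] (cB : LB → ℝ) (cF : LF → ℝ) (lam s η y V a : ℝ),
      ∑ l, cB l ^ 2 = 1 → V = ∑ l, cF l ^ 2 + s ^ 2 → V ≤ 1 → 0 < s →
      1 ≤ lam → 0 < η → η < 1 → (n : ℝ) ^ cl ≤ y * (lam * η) → 0 < y → y ≤ 1 →
      SG n b y V a →
      H646.ex (fun _ => gaussianReal 0 1)
          (Zxm (muA (Xs n) lam η (cc n b s a)) 1 (Sm (LB := LB) (LF := LF) b cB cF s η) y)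
          (avm (muA (Xs n) lam η (cc n b s a)) 1 (Sm b cB cF s η) fun p => 1 - ins η p.1) ≤
        (n : ℝ) ^ (-D) := by
  have hexp : ∀ᶠ n : ℕ in atTop, 2000 * (n : ℝ) ^ 2 * Real.exp (-(n : ℝ) ^ cl) ≤
      (n : ℝ) ^ (-D) := by
    have h1 : Tendsto (fun x : ℝ => x ^ ((|D| + 3) / cl) * Real.exp (-x)) atTop (𝓝 0) :=
      (tendsto_rpow_mul_exp_neg_mul_atTop_nhds_zero ((|D| + 3) / cl) 1 one_pos).congr
        fun x => by simp
    have h2 : Tendsto (fun n : ℕ => (n : ℝ) ^ cl) atTop atTop :=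
      (tendsto_rpow_atTop hcl).comp (tendsto_natCast_atTop_atTop (R := ℝ))
    have h3 := (h1.comp h2).eventually (gt_mem_nhds (show (0 : ℝ) < 1 / 2000 by norm_num))
    filter_upwards [h3, eventually_ge_atTop 1] with n h4 hn
    have hn1 : (1 : ℝ) ≤ n := by exact_mod_cast hn
    have hn0 : (0 : ℝ) < n := by linarith
    simp only [Function.comp_apply] at h4
    rw [← Real.rpow_mul hn0.le, mul_div_cancel₀ _ hcl.ne'] at h4
    have h5 : (n : ℝ) ^ 2 ≤ (n : ℝ) ^ (-D) * (n : ℝ) ^ (|D| + 3) := by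
      rw [← Real.rpow_add hn0, ← Real.rpow_natCast]
      refine Real.rpow_le_rpow_of_exponent_le hn1 ?_
      push_cast
      have := le_abs_self D
      linarith
    have hD0 : 0 < (n : ℝ) ^ (-D) := Real.rpow_pos_of_pos hn0 _
    have hE0 : 0 < Real.exp (-(n : ℝ) ^ cl) := Real.exp_pos _
    calc 2000 * (n : ℝ) ^ 2 * Real.exp (-(n : ℝ) ^ cl)
        ≤ 2000 * ((n : ℝ) ^ (-D) * (n : ℝ) ^ (|D| + 3)) * Real.exp (-(n : ℝ) ^ cl) := by gcongr
      _ = 2000 * (n : ℝ) ^ (-D) * ((n : ℝ) ^ (|D| + 3) * Real.exp (-(n : ℝ) ^ cl)) := by ring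
      _ ≤ 2000 * (n : ℝ) ^ (-D) * (1 / 2000) := by gcongr
      _ = _ := by ring
  filter_upwards [hexp, eventually_ge_atTop 1] with n g1 g2
  intro LB LF _ _ _ _ cB cF lam s η y V a hB hV hV1 hs hlam hη hη1 hc hy hy1 hsg
  have hn1 : (1 : ℝ) ≤ n := by exact_mod_cast g2
  have h1 : 1 ≤ (n : ℝ) ^ cl := Real.one_le_rpow hn1 hcl.le
  have hle0 : 0 ≤ lam * η := by positivity
  have hle : 1 ≤ lam * η := by nlinarith
  refine (tail_num g2 hb hB hV hV1 hs hlam hη hη1 hle hy hy1 hsg).trans (le_trans ?_ g1)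
  gcongr

end Vale.Agent.P146.H529
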