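import Vale.Agent.P146.H529.Par1
import Vale.Agent.P146.H418.Par
import Vale.Agent.P146.H178.Link1

/-!
P146: the parameter functions of `H418.Par` in the literals `LinkUp`, `LinkDn`, `KampUp`, `KampLow`
of the flow.

* `sA`, `sB`, `sC`: the modulated field as a function of `(n, y, V)` (first choice, second choice,
  second choice with a cut which is not active for `V ≤ y ^ 3`); `lA`, `hA`: rate and width;
* `linkUp_one`, `linkDn_one`: LINK for the first choice;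
* `linkUp_two`, `linkDn_two`: LINK for the second choice with the cut;
* `kampUp_cut`, `kampLow_cut`: the formula for `sB` gives the formula for `sC`.
-/

open MeasureTheory ProbabilityTheory Filter Topology Set

namespace Vale.Agent.P146.H529

open Vale.Agent.P157.Lv Vale.Agent.P146 Vale.Agent.P146.H425 Vale.Agent.P146.H325
  Vale.Agent.P146.H332 Vale.Agent.P146.H196 Vale.Agent.P146.H475 Vale.Agent.P146.H9
  Vale.Agent.P146.H347 Vale.Agent.P146.H877

/-- `Kam` is the number of the law `lawOf` -/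
lemma Kam_lawOf (β : ℝ) (sF lF hF : ℕ → ℝ → ℝ → ℝ) (n : ℕ) (y V a : ℝ) :
    Kam β sF lF hF n y V a =
      (H418.lawOf n β y V a (sF n y V) (lF n y V) (hF n y V)).KA := rfl

/-- the modulated field of the first choice as a function of `(n, y, V)` -/
noncomputable def sA (q : ℝ) : ℕ → ℝ → ℝ → ℝ := fun n y _ => H418.s1F q n y

/-- the modulated field of the second choice as a function of `(n, y, V)` -/
noncomputable def sB (q : ℝ) : ℕ → ℝ → ℝ → ℝ := fun n _ V => H418.s2F q n V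

/-- the modulated field of the second choice with a cut -/
noncomputable def sC (q : ℝ) : ℕ → ℝ → ℝ → ℝ := fun n y V => H418.s2F q n (min V (y ^ 3))

/-- the rate -/
noncomputable def lA (q : ℝ) : ℕ → ℝ → ℝ → ℝ := fun n y _ => H418.lamF q n y

/-- the width -/
noncomputable def hA (q : ℝ) : ℕ → ℝ → ℝ → ℝ := fun n _ _ => H418.etaF q n

lemma sA_sq (q : ℝ) (n : ℕ) (y V : ℝ) : sA q n y V ^ 2 = (n : ℝ) ^ (-(37 * q)) * y ^ 4 :=
  Real.sq_sqrt (by positivity)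

lemma sC_sq (q : ℝ) (n : ℕ) {y V : ℝ} (hy : 0 ≤ y) (hV : 0 ≤ V) :
    sC q n y V ^ 2 = (n : ℝ) ^ (-(80 * q)) * min V (y ^ 3) :=
  Real.sq_sqrt (mul_nonneg (by positivity) (le_min hV (by positivity)))

/-- the parameter functions are admissible, fields up to `y ^ 2` -/
def ParV (e d k ce : ℝ) (sF lF hF : ℕ → ℝ → ℝ → ℝ) : Prop := ∀ A : ℝ, 1 ≤ A →
  ∀ᶠ n : ℕ in atTop, ∀ y V : ℝ, (n : ℝ) ^ (-(1 / 6) + e) ≤ A * y → y ≤ 1 / 32 →
    (n : ℝ) ^ (-d) * y ^ 3 ≤ A * V →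
    0 < sF n y V ∧ sF n y V ^ 2 ≤ (n : ℝ) ^ (-k) * y ^ 3 ∧ sF n y V ^ 2 ≤ V ∧ 1 ≤ lF n y V ∧
      0 < hF n y V ∧ hF n y V ≤ (n : ℝ) ^ (-ce) ∧ 1 ≤ lF n y V * hF n y V

section gen

variable {β e ch g w d k ce : ℝ} {sF lF hF : ℕ → ℝ → ℝ → ℝ}

/-- **LINK, upper, in the literal form of the flow.** -/
theorem linkUp_ParV (hβ : 0 < β) (hce : 0 < ce) (hk : 0 ≤ k) (hch : 0 < ch)
    (h1 : ch + g < 6 * e) (h2 : g + ch + w < k + ce) (hp : ParV e d k ce sF lF hF) :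
    H178.LinkUp β e ch g w d (Kam β sF lF hF) := by
  intro A hA
  filter_upwards [H178.link_err3 (b := β) hβ h1 h2 hA, hp (8 * A) (by linarith),
    ev_rpow hch 1, ev_rpow hce 2, eventually_ge_atTop 1] with n g1 g2 g3 g4 hn
  intro y hy hy1 V hV1 hV2 a a' hsg hsg' hA1 hA2
  have hn1 : (1 : ℝ) ≤ n := by exact_mod_cast hn
  have hn0 : (0 : ℝ) < n := by linarith
  have hA0 : 0 < A := by linarith
  have hy0 : 0 < y := by
    have h3 : 0 < (n : ℝ) ^ (-(1 / 6) + e) := Real.rpow_pos_of_pos hn0 _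
    exact pos_of_mul_pos_right (h3.trans_le hy) hA0.le
  have hθ0 : 0 < (n : ℝ) ^ (-ch) := Real.rpow_pos_of_pos hn0 _
  have hθ1 : (n : ℝ) ^ (-ch) ≤ 1 := Real.rpow_le_one_of_one_le_of_nonpos hn1 (by linarith)
  have hη1 : (n : ℝ) ^ (-ce) < 1 := by
    rw [Real.rpow_neg hn0.le]
    exact inv_lt_one_of_one_lt₀ (by linarith)
  set z := y * (1 + (n : ℝ) ^ (-ch)) with hz
  have hyz : y ≤ z := by rw [hz]; nlinarith
  have hz2 : z ≤ 2 * y := by rw [hz]; nlinarith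
  have hz0 : 0 < z := by linarith
  have hd0 : 0 < (n : ℝ) ^ (-d) := Real.rpow_pos_of_pos hn0 _
  have hcube : z ^ 3 ≤ 8 * y ^ 3 := by
    calc z ^ 3 ≤ (2 * y) ^ 3 := pow_le_pow_left₀ hz0.le hz2 3
      _ = 8 * y ^ 3 := by ring
  obtain ⟨p1, p2, p3, p4, p5, p6, p7⟩ := g2 z V (by nlinarith) (by linarith) (by
      calc (n : ℝ) ^ (-d) * z ^ 3 ≤ (n : ℝ) ^ (-d) * (8 * y ^ 3) := by gcongr
        _ = 8 * ((n : ℝ) ^ (-d) * y ^ 3) := by ring
        _ ≤ 8 * (A * V) := by linarith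
        _ = 8 * A * V := by ring)
  have hV1' : V ≤ 1 := by
    have : y ^ 2 ≤ 1 ^ 2 := pow_le_pow_left₀ hy0.le (by linarith) 2
    linarith
  have hVV : V = ∑ _l : Unit, √(V - sF n z V ^ 2) ^ 2 + sF n z V ^ 2 := by
    simp [Real.sq_sqrt (show 0 ≤ V - sF n z V ^ 2 by linarith)]
  have key := link_up_num1 (LB := Unit) (LF := Unit) (cB := fun _ => 1)
    (cF := fun _ => √(V - sF n z V ^ 2)) (lam := lF n z V) hn hβ (by simp) hVV (by linarith) p1
    p4 p5 (p6.trans_lt hη1) p7 hy0 hθ0 hθ1 (by linarith) hsg hsg' hA1 hA2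
  rw [Kam_eq]
  exact key.trans (add_le_add_right (g1 y z _ _ hy (by linarith) hz0.le hz2 p2 p5.le p6) _)

/-- **LINK, lower, in the literal form of the flow.** -/
theorem linkDn_ParV (hβ : 0 < β) (hce : 0 < ce) (hk : 0 ≤ k) (hch : 0 < ch)
    (h1 : ch + g < 6 * e) (h2 : g + ch + w < k + ce) (hp : ParV e d k ce sF lF hF) :
    H178.LinkDn β e ch g w d (Kam β sF lF hF) := by
  intro A hA
  filter_upwards [H178.link_err3 (b := β) hβ h1 h2 hA, hp A hA,
    ev_rpow hch 1, ev_rpow hce 2, eventually_ge_atTop 1] with n g1 g2 g3 g4 hn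
  intro y hy hy1 V hV1 hV2 a a' hsg hsg' hA1 hA2
  have hn1 : (1 : ℝ) ≤ n := by exact_mod_cast hn
  have hn0 : (0 : ℝ) < n := by linarith
  have hA0 : 0 < A := by linarith
  have hy0 : 0 < y := by
    have h3 : 0 < (n : ℝ) ^ (-(1 / 6) + e) := Real.rpow_pos_of_pos hn0 _
    exact pos_of_mul_pos_right (h3.trans_le hy) hA0.le
  have hθ0 : 0 < (n : ℝ) ^ (-ch) := Real.rpow_pos_of_pos hn0 _
  have hθ1 : (n : ℝ) ^ (-ch) ≤ 1 := Real.rpow_le_one_of_one_le_of_nonpos hn1 (by linarith)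
  have hη1 : (n : ℝ) ^ (-ce) < 1 := by
    rw [Real.rpow_neg hn0.le]
    exact inv_lt_one_of_one_lt₀ (by linarith)
  have hz2 : y * (1 + (n : ℝ) ^ (-ch)) ≤ 2 * y := by nlinarith
  obtain ⟨p1, p2, p3, p4, p5, p6, p7⟩ := g2 y V hy (by linarith) hV1
  have hV1' : V ≤ 1 := by
    have : y ^ 2 ≤ 1 ^ 2 := pow_le_pow_left₀ hy0.le (by linarith) 2
    linarith
  have hVV : V = ∑ _l : Unit, √(V - sF n y V ^ 2) ^ 2 + sF n y V ^ 2 := by
    simp [Real.sq_sqrt (show 0 ≤ V - sF n y V ^ 2 by linarith)]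
  have key := link_dn_num1 (LB := Unit) (LF := Unit) (cB := fun _ => 1)
    (cF := fun _ => √(V - sF n y V ^ 2)) (lam := lF n y V) hn hβ (by simp) hVV (by linarith) p1
    p4 p5 (p6.trans_lt hη1) p7 hy0 hθ0 hθ1 (by linarith) hsg hsg' hA1 hA2
  rw [Kam_eq]
  exact key.trans (add_le_add_right (g1 y y _ _ hy (by linarith) hy0.le (by linarith) p2 p5.le
    p6) _)

end gen

lemma rate_ok {q : ℝ} (hq : 0 < q) {n : ℕ} (hn : 1 ≤ n) {y : ℝ} (hy : 0 < y) (hy1 : y ≤ 1)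
    (V : ℝ) : 1 ≤ lA q n y V ∧ 0 < hA q n y V ∧ hA q n y V ≤ (n : ℝ) ^ (-(2000 * q)) ∧
      1 ≤ lA q n y V * hA q n y V := by
  obtain ⟨h1, h2⟩ := lam_le (c := 2001 * q) (ce := 2000 * q) (by linarith) (by positivity) hn hy
    hy1 V
  exact ⟨h1, etaF_pos (ce := 2000 * q) hn y V, le_rfl, h2⟩

/-- the first choice -/
theorem parV_one {q e d : ℝ} (hq : 0 < q) (hd : d < 37 * q) :
    ParV e d (37 * q) (2000 * q) (sA q) (lA q) (hA q) := by
  intro A hA
  filter_upwards [ev_rpow (show 0 < 37 * q - d by linarith) A, eventually_ge_atTop 1] with n hnA hn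
  intro y V hy hy1 hV
  obtain ⟨hy0, hV0⟩ := box_pos hn hA hy hV
  have hn0 : (0 : ℝ) < n := by exact_mod_cast hn
  obtain ⟨p1, p2, p3, p4⟩ := rate_ok hq hn hy0 (by linarith) V
  have hx0 := Real.rpow_pos_of_pos hn0 (-(37 * q))
  have h5 : y ^ 4 ≤ y ^ 3 := pow_le_pow_of_le_one hy0.le (by linarith) (by norm_num)
  have h6 : (n : ℝ) ^ (-(37 * q)) * y ^ 4 ≤ (n : ℝ) ^ (-(37 * q)) * y ^ 3 := by gcongr
  refine ⟨Real.sqrt_pos.2 (by positivity), ?_, ?_, p1, p2, p3, p4⟩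
  · rw [sA_sq]
    exact h6
  · rw [sA_sq]
    have e1 : (n : ℝ) ^ (-(37 * q)) = (n : ℝ) ^ (-(37 * q - d)) * (n : ℝ) ^ (-d) := by
      rw [← Real.rpow_add hn0]
      congr 1
      ring
    have e2 : (n : ℝ) ^ (-(37 * q - d)) * (n : ℝ) ^ (37 * q - d) = 1 := by
      rw [← Real.rpow_add hn0]
      simp
    have h3 := Real.rpow_pos_of_pos hn0 (-(37 * q - d))
    calc (n : ℝ) ^ (-(37 * q)) * y ^ 4 ≤ (n : ℝ) ^ (-(37 * q)) * y ^ 3 := h6
      _ = (n : ℝ) ^ (-(37 * q - d)) * ((n : ℝ) ^ (-d) * y ^ 3) := by rw [e1]; ring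
      _ ≤ (n : ℝ) ^ (-(37 * q - d)) * (A * V) := by gcongr
      _ ≤ (n : ℝ) ^ (-(37 * q - d)) * ((n : ℝ) ^ (37 * q - d) * V) := by gcongr
      _ = V := by rw [← mul_assoc, e2, one_mul]

/-- the second choice, with the cut -/
theorem parV_two {q e d : ℝ} (hq : 0 < q) :
    ParV e d (80 * q) (2000 * q) (sC q) (lA q) (hA q) := by
  intro A hA
  filter_upwards [eventually_ge_atTop 1] with n hn
  intro y V hy hy1 hV
  obtain ⟨hy0, hV0⟩ := box_pos hn hA hy hV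
  have hn1 : (1 : ℝ) ≤ n := by exact_mod_cast hn
  have hn0 : (0 : ℝ) < n := by linarith
  obtain ⟨p1, p2, p3, p4⟩ := rate_ok hq hn hy0 (by linarith) V
  have hx0 := Real.rpow_pos_of_pos hn0 (-(80 * q))
  have hx1 : (n : ℝ) ^ (-(80 * q)) ≤ 1 :=
    Real.rpow_le_one_of_one_le_of_nonpos hn1 (by linarith)
  have hm : 0 < min V (y ^ 3) := lt_min hV0 (by positivity)
  refine ⟨Real.sqrt_pos.2 (by positivity), ?_, ?_, p1, p2, p3, p4⟩
  · rw [sC_sq q n hy0.le hV0.le]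
    exact mul_le_mul_of_nonneg_left (min_le_right _ _) hx0.le
  · rw [sC_sq q n hy0.le hV0.le]
    calc (n : ℝ) ^ (-(80 * q)) * min V (y ^ 3) ≤ 1 * V :=
          mul_le_mul hx1 (min_le_left _ _) hm.le (by norm_num)
      _ = V := one_mul V

section named

variable {β q e ch g w d : ℝ}

/-- LINK, upper, first choice -/
theorem linkUp_one (hβ : 0 < β) (hq : 0 < q) (hd : d < 37 * q) (hch : 0 < ch)
    (h1 : ch + g < 6 * e) (h2 : g + ch + w < 37 * q + 2000 * q) :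
    H178.LinkUp β e ch g w d (Kam β (sA q) (lA q) (hA q)) :=
  linkUp_ParV hβ (by positivity) (by positivity) hch h1 h2 (parV_one hq hd)

/-- LINK, lower, first choice -/
theorem linkDn_one (hβ : 0 < β) (hq : 0 < q) (hd : d < 37 * q) (hch : 0 < ch)
    (h1 : ch + g < 6 * e) (h2 : g + ch + w < 37 * q + 2000 * q) :
    H178.LinkDn β e ch g w d (Kam β (sA q) (lA q) (hA q)) :=
  linkDn_ParV hβ (by positivity) (by positivity) hch h1 h2 (parV_one hq hd)

/-- LINK, upper, second choice -/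
theorem linkUp_two (hβ : 0 < β) (hq : 0 < q) (hch : 0 < ch)
    (h1 : ch + g < 6 * e) (h2 : g + ch + w < 80 * q + 2000 * q) :
    H178.LinkUp β e ch g w d (Kam β (sC q) (lA q) (hA q)) :=
  linkUp_ParV hβ (by positivity) (by positivity) hch h1 h2 (parV_two hq)

/-- LINK, lower, second choice -/
theorem linkDn_two (hβ : 0 < β) (hq : 0 < q) (hch : 0 < ch)
    (h1 : ch + g < 6 * e) (h2 : g + ch + w < 80 * q + 2000 * q) :
    H178.LinkDn β e ch g w d (Kam β (sC q) (lA q) (hA q)) :=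
  linkDn_ParV hβ (by positivity) (by positivity) hch h1 h2 (parV_two hq)

/-- the cut is not active in the window -/
lemma sC_eq {A y V : ℝ} {n : ℕ} (hd : A ≤ (n : ℝ) ^ d) (hn : 1 ≤ n) (hy : 0 ≤ y)
    (hV : V ≤ A * ((n : ℝ) ^ (-d) * y ^ 3)) : sC q n y V = sB q n y V := by
  have hn0 : (0 : ℝ) < n := by exact_mod_cast hn
  have h1 : V ≤ y ^ 3 := by
    calc V ≤ A * ((n : ℝ) ^ (-d) * y ^ 3) := hV
      _ ≤ (n : ℝ) ^ d * ((n : ℝ) ^ (-d) * y ^ 3) := by gcongr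
      _ = y ^ 3 := by rw [← mul_assoc, ← Real.rpow_add hn0]; simp
  unfold sC sB
  rw [min_eq_left h1]

variable {b₁ s0 s s' c : ℝ}

/-- the upper half of the formula for the second choice with the cut -/
theorem kampUp_cut (hd : 0 < d) (h : H178.KampUp β b₁ e s0 s s' d c (Kam β (sB q) (lA q) (hA q))) :
    H178.KampUp β b₁ e s0 s s' d c (Kam β (sC q) (lA q) (hA q)) := by
  intro A hA1
  filter_upwards [h A hA1, ev_rpow hd A, eventually_ge_atTop 1] with n hn hnA hn1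
  intro y hy hy2 V hV1 hV2 a ha1 ha2 a0 hsg h3 h4
  have hy0 := (box_pos hn1 hA1 hy hV1).1
  have e1 : sC q n y V = sB q n y V := sC_eq hnA hn1 hy0.le hV2
  have e2 : Kam β (sC q) (lA q) (hA q) n y V a0 = Kam β (sB q) (lA q) (hA q) n y V a0 := by
    unfold Kam
    rw [e1]
  rw [e2]
  exact hn y hy hy2 V hV1 hV2 a ha1 ha2 a0 hsg h3 h4

/-- the lower half of the formula for the second choice with the cut -/
theorem kampLow_cut (hd : 0 < d)
    (h : H178.KampLow β b₁ e s0 s s' d c (Kam β (sB q) (lA q) (hA q))) :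
    H178.KampLow β b₁ e s0 s s' d c (Kam β (sC q) (lA q) (hA q)) := by
  intro A hA1
  filter_upwards [h A hA1, ev_rpow hd A, eventually_ge_atTop 1] with n hn hnA hn1
  intro y hy hy2 V hV1 hV2 a ha1 ha2 a0 hsg h3 h4
  have hy0 := (box_pos hn1 hA1 hy hV1).1
  have e1 : sC q n y V = sB q n y V := sC_eq hnA hn1 hy0.le hV2
  have e2 : Kam β (sC q) (lA q) (hA q) n y V a0 = Kam β (sB q) (lA q) (hA q) n y V a0 := by
    unfold Kam
    rw [e1]
  rw [e2]
  exact hn y hy hy2 V hV1 hV2 a ha1 ha2 a0 hsg h3 h4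

end named

end Vale.Agent.P146.H529
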