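import Vale.Agent.P146.H529.LinkNum

/-!
P146, block LINK, asymptotic form: for `θ = n ^ (-ch)`, `s ^ 2 ≤ n ^ (-x) y ^ 4`, `η ≤ n ^ (-ce)`,
slopes at most `n ^ w y ^ 2`, the error is at most `n ^ (1 - g) y ^ 6` as soon as `ch + g < 6 e` and
`g + ch + w < x + ce`.
-/

open MeasureTheory ProbabilityTheory Filter Topology Set

namespace Vale.Agent.P146.H529

open Vale.Agent.P157.Lv Vale.Agent.P146 Vale.Agent.P146.H425 Vale.Agent.P146.H325
  Vale.Agent.P146.H332 Vale.Agent.P146.H196 Vale.Agent.P146.H475 Vale.Agent.P146.H9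
  Vale.Agent.P146.H347 Vale.Agent.P146.H877

set_option linter.unusedSectionVars false

lemma ev_rpow {u : ℝ} (hu : 0 < u) (C : ℝ) : ∀ᶠ n : ℕ in atTop, C ≤ (n : ℝ) ^ u :=
  ((tendsto_rpow_atTop hu).comp (tendsto_natCast_atTop_atTop (R := ℝ))).eventually_ge_atTop C

lemma ev_log' {u : ℝ} (hu : 0 < u) {C : ℝ} (hC : 0 ≤ C) : ∀ᶠ n : ℕ in atTop,
    C * (1 + Real.log n) ≤ (n : ℝ) ^ u := by
  filter_upwards [ev_rpow (show 0 < u / 2 by positivity) (C * (1 + 2 / u)),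
    eventually_ge_atTop 1] with n h2 hn
  have hn1 : (1 : ℝ) ≤ n := by exact_mod_cast hn
  have hn0 : (0 : ℝ) < n := by linarith
  have hl : Real.log n ≤ (n : ℝ) ^ (u / 2) / (u / 2) := Real.log_le_rpow_div hn0.le (by positivity)
  have hp : (1 : ℝ) ≤ (n : ℝ) ^ (u / 2) := Real.one_le_rpow hn1 (by positivity)
  have e1 : (n : ℝ) ^ u = (n : ℝ) ^ (u / 2) * (n : ℝ) ^ (u / 2) := by
    rw [← Real.rpow_add hn0]; congr 1; ring
  have e2 : (n : ℝ) ^ (u / 2) / (u / 2) = 2 / u * (n : ℝ) ^ (u / 2) := by field_simp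
  have h3 : 1 + Real.log n ≤ (1 + 2 / u) * (n : ℝ) ^ (u / 2) := by
    rw [e2] at hl
    linarith
  calc C * (1 + Real.log n) ≤ C * ((1 + 2 / u) * (n : ℝ) ^ (u / 2)) :=
        mul_le_mul_of_nonneg_left h3 hC
    _ = C * (1 + 2 / u) * (n : ℝ) ^ (u / 2) := by ring
    _ ≤ (n : ℝ) ^ (u / 2) * (n : ℝ) ^ (u / 2) := mul_le_mul_of_nonneg_right h2 (by positivity)
    _ = _ := e1.symm

/-- the error of `link_up_num`, `link_dn_num`: only the product `s ^ 2 * A` enters -/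
theorem link_err2 {b e g ch ce k : ℝ} (hb : 0 < b) (h1 : ch + g < 6 * e)
    (h2 : g + ch < k + ce) :
    ∀ᶠ n : ℕ in atTop, ∀ y s η A : ℝ, (n : ℝ) ^ (-(1 / 6) + e) ≤ 2 * y → y ≤ 1 →
      0 ≤ η → η ≤ (n : ℝ) ^ (-ce) → 0 ≤ A → s ^ 2 * A ≤ (n : ℝ) ^ (-k) * y ^ 5 →
      60 / (n : ℝ) ^ (-ch) * (1 + Real.log n + n * y * s ^ 2 * η * A / b) ≤
        (n : ℝ) ^ (1 - g) * y ^ 6 := by
  have hu : 0 < 6 * e - (ch + g) := by linarith
  have hv : 0 < k + ce - (g + ch) := by linarith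
  filter_upwards [ev_log' hu (show (0 : ℝ) ≤ 120 * 64 by norm_num), ev_rpow hv (120 / b),
    eventually_ge_atTop 1] with n hn1 hn2 hn y s η A hy hy1 hη0 hη hA0 hA
  have hN1 : (1 : ℝ) ≤ n := by exact_mod_cast hn
  have hN : (0 : ℝ) < n := by linarith
  set N : ℝ := (n : ℝ) with hNN
  have hy0 : 0 < y := by
    have : 0 < N ^ (-(1 / 6) + e) := Real.rpow_pos_of_pos hN _
    linarith
  have e0 : 60 / N ^ (-ch) = 60 * N ^ ch := by
    rw [Real.rpow_neg hN.le]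
    field_simp
  rw [e0]
  -- first part
  have hy6 : N ^ (6 * e) / 64 ≤ N * y ^ 6 := by
    have h3 : (N ^ (-(1 / 6) + e)) ^ 6 ≤ (2 * y) ^ 6 :=
      pow_le_pow_left₀ (Real.rpow_nonneg hN.le _) hy 6
    have h4 : (N ^ (-(1 / 6) + e)) ^ 6 = N ^ (-1 + 6 * e) := by
      rw [← Real.rpow_natCast, ← Real.rpow_mul hN.le]
      congr 1
      push_cast
      ring
    rw [h4] at h3
    have h5 : N * N ^ (-1 + 6 * e) = N ^ (6 * e) := by
      nth_rewrite 1 [← Real.rpow_one N]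
      rw [← Real.rpow_add hN]
      congr 1
      ring
    have h6 := mul_le_mul_of_nonneg_left h3 hN.le
    rw [h5] at h6
    have e1 : (2 * y) ^ 6 = 64 * y ^ 6 := by ring
    rw [e1] at h6
    linarith
  have p1 : 60 * N ^ ch * (1 + Real.log N) ≤ N ^ (1 - g) * y ^ 6 / 2 := by
    have h3 : 120 * 64 * (1 + Real.log N) ≤ N ^ (6 * e - (ch + g)) := hn1
    have h4 : N ^ (6 * e - (ch + g)) = N ^ (6 * e) * (N ^ (-ch) * N ^ (-g)) := by
      rw [← Real.rpow_add hN, ← Real.rpow_add hN]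
      congr 1
      ring
    have h5 : N ^ ch * N ^ (-ch) = 1 := by
      rw [← Real.rpow_add hN]
      simp
    have h6 : N ^ (1 - g) = N * N ^ (-g) := by
      rw [sub_eq_add_neg, Real.rpow_add hN, Real.rpow_one]
    have hg0 : 0 < N ^ (-g) := Real.rpow_pos_of_pos hN _
    have hc0 : 0 < N ^ ch := Real.rpow_pos_of_pos hN _
    have h7 : 120 * 64 * (1 + Real.log N) * N ^ ch ≤ N ^ (6 * e) * N ^ (-g) := by
      calc 120 * 64 * (1 + Real.log N) * N ^ ch ≤ N ^ (6 * e - (ch + g)) * N ^ ch :=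
            mul_le_mul_of_nonneg_right h3 hc0.le
        _ = N ^ (6 * e) * N ^ (-g) * (N ^ ch * N ^ (-ch)) := by rw [h4]; ring
        _ = N ^ (6 * e) * N ^ (-g) := by rw [h5, mul_one]
    have h8 := mul_le_mul_of_nonneg_right hy6 hg0.le
    rw [h6]
    nlinarith
  -- second part
  have p2 : 60 * N ^ ch * (N * y * s ^ 2 * η * A / b) ≤ N ^ (1 - g) * y ^ 6 / 2 := by
    have h3 : N * y * s ^ 2 * η * A ≤ N * y * N ^ (-ce) * (N ^ (-k) * y ^ 5) := by
      calc N * y * s ^ 2 * η * A = N * y * η * (s ^ 2 * A) := by ring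
        _ ≤ N * y * N ^ (-ce) * (N ^ (-k) * y ^ 5) := by gcongr
    have h4 : 120 / b ≤ N ^ (k + ce - (g + ch)) := hn2
    have hk0 : 0 < N ^ (g + ch - k - ce) := Real.rpow_pos_of_pos hN _
    have h5 : N ^ (k + ce - (g + ch)) * N ^ (g + ch - k - ce) = 1 := by
      rw [← Real.rpow_add hN]
      have : k + ce - (g + ch) + (g + ch - k - ce) = 0 := by ring
      rw [this, Real.rpow_zero]
    have h6 : 120 / b * N ^ (g + ch - k - ce) ≤ 1 := by
      calc 120 / b * N ^ (g + ch - k - ce)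
          ≤ N ^ (k + ce - (g + ch)) * N ^ (g + ch - k - ce) :=
            mul_le_mul_of_nonneg_right h4 hk0.le
        _ = 1 := h5
    have h7 : N ^ ch * (N * y * N ^ (-ce) * (N ^ (-k) * y ^ 5)) =
        N ^ (1 - g) * N ^ (g + ch - k - ce) * y ^ 6 := by
      have e1 : N ^ (1 - g) * N ^ (g + ch - k - ce) = N ^ ch * N * N ^ (-ce) * N ^ (-k) := by
        rw [← Real.rpow_add hN]
        nth_rewrite 3 [← Real.rpow_one N]
        rw [← Real.rpow_add hN, ← Real.rpow_add hN, ← Real.rpow_add hN]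
        congr 1
        ring
      rw [e1]
      ring
    have hch : 0 < N ^ ch := Real.rpow_pos_of_pos hN _
    have hg1 : 0 < N ^ (1 - g) := Real.rpow_pos_of_pos hN _
    calc 60 * N ^ ch * (N * y * s ^ 2 * η * A / b)
        = 60 / b * (N ^ ch * (N * y * s ^ 2 * η * A)) := by ring
      _ ≤ 60 / b * (N ^ ch * (N * y * N ^ (-ce) * (N ^ (-k) * y ^ 5))) := by
          gcongr
      _ = (120 / b * N ^ (g + ch - k - ce)) * (N ^ (1 - g) * y ^ 6) / 2 := by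
          rw [h7]
          ring
      _ ≤ 1 * (N ^ (1 - g) * y ^ 6) / 2 := by gcongr
      _ = N ^ (1 - g) * y ^ 6 / 2 := by ring
  calc 60 * N ^ ch * (1 + Real.log N + N * y * s ^ 2 * η * A / b)
      = 60 * N ^ ch * (1 + Real.log N) + 60 * N ^ ch * (N * y * s ^ 2 * η * A / b) := by ring
    _ ≤ N ^ (1 - g) * y ^ 6 / 2 + N ^ (1 - g) * y ^ 6 / 2 := add_le_add p1 p2
    _ = _ := by ring

/-- the error of `link_up_num`, `link_dn_num` -/
theorem link_err {b e g ch ce x w : ℝ} (hb : 0 < b) (h1 : ch + g < 6 * e)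
    (h2 : g + ch + w < x + ce) :
    ∀ᶠ n : ℕ in atTop, ∀ y s η A : ℝ, (n : ℝ) ^ (-(1 / 6) + e) ≤ 2 * y → y ≤ 1 →
      s ^ 2 ≤ (n : ℝ) ^ (-x) * y ^ 4 → 0 ≤ η → η ≤ (n : ℝ) ^ (-ce) → 0 ≤ A →
      A ≤ (n : ℝ) ^ w * y ^ 2 →
      60 / (n : ℝ) ^ (-ch) * (1 + Real.log n + n * y * s ^ 2 * η * A / b) ≤
        (n : ℝ) ^ (1 - g) * y ^ 6 := by
  filter_upwards [link_err2 (b := b) (k := x - w) hb h1 (by linarith : g + ch < x - w + ce),
    eventually_ge_atTop 1] with n h hn y s η A hy hy1 hs hη0 hη hA0 hA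
  have hN1 : (1 : ℝ) ≤ n := by exact_mod_cast hn
  have hN : (0 : ℝ) < n := by linarith
  have hy0 : 0 < y := by
    have : 0 < (n : ℝ) ^ (-(1 / 6) + e) := Real.rpow_pos_of_pos hN _
    linarith
  refine h y s η A hy hy1 hη0 hη hA0 ?_
  have hx0 : 0 < (n : ℝ) ^ (-x) := Real.rpow_pos_of_pos hN _
  calc s ^ 2 * A ≤ ((n : ℝ) ^ (-x) * y ^ 4) * ((n : ℝ) ^ w * y ^ 2) := by gcongr
    _ = (n : ℝ) ^ (-(x - w)) * y ^ 6 := by
        have e1 : (n : ℝ) ^ (-(x - w)) = (n : ℝ) ^ (-x) * (n : ℝ) ^ w := by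
          rw [← Real.rpow_add hN]
          congr 1
          ring
        rw [e1]
        ring
    _ ≤ (n : ℝ) ^ (-(x - w)) * y ^ 5 := by
        have h8 : y ^ 6 ≤ y ^ 5 := pow_le_pow_of_le_one hy0.le hy1 (by norm_num)
        have hg1 : 0 < (n : ℝ) ^ (-(x - w)) := Real.rpow_pos_of_pos hN _
        gcongr

end Vale.Agent.P146.H529
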