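import Vale.Agent.P146.H529.Par2
import Vale.Agent.P146.H178.KSlope

/-!
P146: the upper bound of the entropy with a constant, at one field `V = n^(-24q) y^3`

* `upV_n`: one `n`: from LINK and from the bound of the auxiliary law at the slightly larger
  exponent;
* `KaC`: the bound of the auxiliary law, eventually;
* `upV`: the bound of the natural functional, eventually.
-/

open MeasureTheory ProbabilityTheory Filter Topology Set

namespace Vale.Agent.P146.H529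

open Vale.Agent.P146.H418 (lawOf KW s2F lamF etaF kw_two)
open Vale.Agent.P146.H9 (Phn KV)

variable {β q A C : ℝ} {n : ℕ} {y V : ℝ}

/-- every slope in the window is at most `n^(25q) y^2` -/
lemma sl_win (hβ : 0 < β) (hn : 1 ≤ n) (hq : 0 < q) (hA1 : 1 ≤ A)
    (t1 : 128 * β * A ≤ (n : ℝ) ^ (q / 2)) (hy : 0 < y)
    (hV1 : (n : ℝ) ^ (-(24 * q)) * y ^ 3 ≤ A * V) {u a : ℝ} (hu1 : y ≤ u) (hu2 : u ≤ 2 * y)
    (hap : H178.AP β (q / 2) n u (2 * V)) (hsg : SG n β u V a) :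
    |a| ≤ (n : ℝ) ^ (25 * q) * y ^ 2 := by
  have hn0 : (0 : ℝ) < n := by exact_mod_cast hn
  have hA0 : 0 < A := by linarith
  have hu0 : 0 < u := by linarith
  have hD0 := Real.rpow_pos_of_pos hn0 (-(24 * q))
  have hV0 : 0 < V := by
    have : 0 < A * V := lt_of_lt_of_le (by positivity) hV1
    exact pos_of_mul_pos_right this hA0.le
  have h1 := hap.al_abs hβ hn hu0 hV0 le_rfl hsg
  have h2 : u ^ 5 ≤ 32 * y ^ 5 := by
    calc u ^ 5 ≤ (2 * y) ^ 5 := pow_le_pow_left₀ hu0.le hu2 5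
      _ = 32 * y ^ 5 := by ring
  have hs0 : 0 < (n : ℝ) ^ (q / 2) := Real.rpow_pos_of_pos hn0 _
  have h3 : (n : ℝ) ^ (q / 2) * u ^ 5 / V ≤ 32 * A * ((n : ℝ) ^ (q / 2) *
      ((n : ℝ) ^ (24 * q) * y ^ 2)) := by
    rw [div_le_iff₀ hV0]
    have e1 : (n : ℝ) ^ (24 * q) * (n : ℝ) ^ (-(24 * q)) = 1 := by
      rw [← Real.rpow_add hn0]
      simp
    have h4 : y ^ 5 ≤ A * ((n : ℝ) ^ (24 * q) * y ^ 2) * V := by
      have h5 := mul_le_mul_of_nonneg_left hV1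
        (show 0 ≤ (n : ℝ) ^ (24 * q) * y ^ 2 by positivity)
      calc y ^ 5 = (n : ℝ) ^ (24 * q) * (n : ℝ) ^ (-(24 * q)) * y ^ 5 := by rw [e1, one_mul]
        _ = (n : ℝ) ^ (24 * q) * y ^ 2 * ((n : ℝ) ^ (-(24 * q)) * y ^ 3) := by ring
        _ ≤ (n : ℝ) ^ (24 * q) * y ^ 2 * (A * V) := h5
        _ = _ := by ring
    calc (n : ℝ) ^ (q / 2) * u ^ 5 ≤ (n : ℝ) ^ (q / 2) * (32 * y ^ 5) := by gcongr
      _ ≤ (n : ℝ) ^ (q / 2) * (32 * (A * ((n : ℝ) ^ (24 * q) * y ^ 2) * V)) := by gcongr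
      _ = _ := by ring
  have h6 : (n : ℝ) ^ (25 * q) = (n : ℝ) ^ (q / 2) * ((n : ℝ) ^ (q / 2) * (n : ℝ) ^ (24 * q)) := by
    rw [← Real.rpow_add hn0, ← Real.rpow_add hn0]
    congr 1
    ring
  calc |a| ≤ 4 * β * ((n : ℝ) ^ (q / 2) * u ^ 5 / V) := h1
    _ ≤ 4 * β * (32 * A * ((n : ℝ) ^ (q / 2) * ((n : ℝ) ^ (24 * q) * y ^ 2))) := by gcongr
    _ = 128 * β * A * ((n : ℝ) ^ (q / 2) * ((n : ℝ) ^ (24 * q) * y ^ 2)) := by ring
    _ ≤ (n : ℝ) ^ (q / 2) * ((n : ℝ) ^ (q / 2) * ((n : ℝ) ^ (24 * q) * y ^ 2)) := by gcongr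
    _ = (n : ℝ) ^ (25 * q) * y ^ 2 := by rw [h6]; ring

/-- **One `n`**: LINK and the bound of the auxiliary law give the bound of the entropy. -/
theorem upV_n (hβ : 0 < β) (hn : 1 ≤ n) (hq : 0 < q) (hA1 : 1 ≤ A) (hC : 0 ≤ C)
    (t1 : 128 * β * A ≤ (n : ℝ) ^ (q / 2)) (t2 : (n : ℝ) ^ (-(45 * q)) ≤ 1 / 10)
    (t3 : A ≤ (n : ℝ) ^ (24 * q)) (hy : 0 < y) (hy64 : y ≤ 1 / 64)
    (hV1 : (n : ℝ) ^ (-(24 * q)) * y ^ 3 ≤ A * V)
    (hV2 : V ≤ A * ((n : ℝ) ^ (-(24 * q)) * y ^ 3))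
    (hap : ∀ u : ℝ, y ≤ u → u ≤ 2 * y → H178.AP β (q / 2) n u (2 * V))
    (LU : ∀ a a' : ℝ, SG n β y V a → SG n β (y * (1 + (n : ℝ) ^ (-(45 * q)))) V a' →
      |a| ≤ (n : ℝ) ^ (25 * q) * y ^ 2 → |a'| ≤ (n : ℝ) ^ (25 * q) * y ^ 2 →
      KV n β y V ≤ Kam β (sC q) (lA q) (hA q) n (y * (1 + (n : ℝ) ^ (-(45 * q)))) V a' +
        (n : ℝ) ^ (1 - 36 * q) * y ^ 6)
    (hKa : ∀ u a : ℝ, y ≤ u → u ≤ 2 * y → SG n β u V a → H178.AP β (q / 2) n u (2 * V) →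
      Kam β (sB q) (lA q) (hA q) n u V a ≤ C * (n * u ^ 6)) :
    KV n β y V ≤ (2 * C + 1) * (n * y ^ 6) := by
  have hn0 : (0 : ℝ) < n := by exact_mod_cast hn
  have hn1 : (1 : ℝ) ≤ n := by exact_mod_cast hn
  have hA0 : 0 < A := by linarith
  have hD0 := Real.rpow_pos_of_pos hn0 (-(24 * q))
  have hV0 : 0 < V := by
    have : 0 < A * V := lt_of_lt_of_le (by positivity) hV1
    exact pos_of_mul_pos_right this hA0.le
  set θ := (n : ℝ) ^ (-(45 * q)) with hθ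
  have hθ0 : 0 < θ := Real.rpow_pos_of_pos hn0 _
  set u := y * (1 + θ) with hu
  have hyu : y ≤ u := by rw [hu]; nlinarith
  have hu2 : u ≤ 2 * y := by rw [hu]; nlinarith
  have hu0 : 0 < u := by linarith
  obtain ⟨a, ha⟩ := H178.exists_SG (n := n) (β := β) hn hβ hy (by linarith) hV0
  obtain ⟨a', ha'⟩ := H178.exists_SG (n := n) (β := β) hn hβ hu0 (by linarith) hV0
  have h1 := LU a a' ha ha' (sl_win hβ hn hq hA1 t1 hy hV1 le_rfl (by linarith)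
    (hap y le_rfl (by linarith)) ha) (sl_win hβ hn hq hA1 t1 hy hV1 hyu hu2 (hap u hyu hu2) ha')
  have e1 : sC q n u V = sB q n u V := by
    refine sC_eq (A := A) (d := 24 * q) t3 hn hu0.le (hV2.trans ?_)
    have h2 : y ^ 3 ≤ u ^ 3 := pow_le_pow_left₀ hy.le hyu 3
    gcongr
  have e2 : Kam β (sC q) (lA q) (hA q) n u V a' = Kam β (sB q) (lA q) (hA q) n u V a' := by
    unfold Kam
    rw [e1]
  rw [e2] at h1
  have h3 := hKa u a' hyu hu2 ha' (hap u hyu hu2)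
  have h4 : u ^ 6 ≤ 2 * y ^ 6 := by
    have h5 : (1 + θ) ^ 6 ≤ 2 := by
      calc (1 + θ) ^ 6 ≤ (1 + 1 / 10) ^ 6 := pow_le_pow_left₀ (by linarith) (by linarith) 6
        _ ≤ 2 := by norm_num
    calc u ^ 6 = (1 + θ) ^ 6 * y ^ 6 := by rw [hu]; ring
      _ ≤ 2 * y ^ 6 := by gcongr
  have h6 : (n : ℝ) ^ (1 - 36 * q) ≤ n := by
    calc (n : ℝ) ^ (1 - 36 * q) ≤ (n : ℝ) ^ (1 : ℝ) :=
          Real.rpow_le_rpow_of_exponent_le hn1 (by linarith)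
      _ = n := Real.rpow_one _
  calc KV n β y V ≤ Kam β (sB q) (lA q) (hA q) n u V a' + (n : ℝ) ^ (1 - 36 * q) * y ^ 6 := h1
    _ ≤ C * (n * (2 * y ^ 6)) + n * y ^ 6 := by
        refine add_le_add (h3.trans ?_) ?_
        · gcongr
        · gcongr
    _ = (2 * C + 1) * (n * y ^ 6) := by ring

/-- the bound of the auxiliary law with a constant, eventually -/
def KaC (a0 b₁ q A b C : ℝ) : Prop := ∀ᶠ n : ℕ in atTop, ∀ y V al s lam η : ℝ,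
  KW a0 b₁ q A b n y V al s lam η → s ^ 2 = (n : ℝ) ^ (-(80 * q)) * V →
    (lawOf n b y V al s lam η).KA ≤ C * (n * y ^ 6)

/-- **The bound of the entropy with a constant**, eventually. -/
theorem upV {a0 b₁ : ℝ} (hβ : 0 < β) (hq : 0 < q) (ha0 : a0 ≤ 1 / 6) (hb₁ : 0 < b₁)
    (hC : 0 ≤ C) (hKa : ∀ A : ℝ, 1 ≤ A → KaC a0 b₁ q A β C) :
    ∀ A : ℝ, 1 ≤ A → ∀ᶠ n : ℕ in atTop, ∀ y : ℝ, (n : ℝ) ^ (-a0 + 1000 * q) ≤ A * y →
      y ≤ A * (n : ℝ) ^ (-b₁) → ∀ V : ℝ, (n : ℝ) ^ (-(24 * q)) * y ^ 3 ≤ A * V →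
      V ≤ A * ((n : ℝ) ^ (-(24 * q)) * y ^ 3) →
      (∀ u : ℝ, y ≤ u → u ≤ 2 * y → H178.AP β (q / 2) n u (2 * V)) →
      KV n β y V ≤ (2 * C + 1) * (n * y ^ 6) := by
  intro A hA1
  have hA0 : 0 < A := by linarith
  have hLU := linkUp_two (β := β) (q := q) (e := 1 / 6 - a0 + 1000 * q) (ch := 45 * q)
    (g := 36 * q) (w := 25 * q) (d := 24 * q) hβ hq (by linarith) (by linarith) (by linarith) A hA1
  filter_upwards [hLU, hKa (8 * A) (by linarith), kw_two (a0 := a0) (b₁ := b₁) (b := β) hq ha0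
      (show (1 : ℝ) ≤ 8 * A by linarith),
    ev_rpow (show 0 < q / 2 by positivity) (128 * β * A),
    ev_rpow (show 0 < 45 * q by positivity) 10, ev_rpow (show 0 < 24 * q by positivity) A,
    ev_rpow hb₁ (64 * A), eventually_ge_atTop 1] with n g1 g2 g3 t1 t2 t3 t4 hn
  intro y hy1 hy2 V hV1 hV2 hap
  have hn0 : (0 : ℝ) < n := by exact_mod_cast hn
  have hy0 := (box_pos hn hA1 (e := 1 / 6 - a0 + 1000 * q) (d := 24 * q) (y := y) (V := V)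
    (by rw [show (-(1 / 6) + (1 / 6 - a0 + 1000 * q) : ℝ) = -a0 + 1000 * q by ring]; exact hy1)
    hV1).1
  have hy64 : y ≤ 1 / 64 := by
    have e1 : (n : ℝ) ^ b₁ * (n : ℝ) ^ (-b₁) = 1 := by
      rw [← Real.rpow_add hn0]
      simp
    have h1 := mul_le_mul_of_nonneg_right t4 (Real.rpow_pos_of_pos hn0 (-b₁)).le
    rw [e1] at h1
    linarith
  have t2' : (n : ℝ) ^ (-(45 * q)) ≤ 1 / 10 := by
    rw [Real.rpow_neg hn0.le, inv_le_comm₀ (Real.rpow_pos_of_pos hn0 _) (by norm_num)]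
    linarith
  have hD0 := Real.rpow_pos_of_pos hn0 (-(24 * q))
  have hV2' : V ≤ y ^ 2 := by
    have e1 : (n : ℝ) ^ (24 * q) * (n : ℝ) ^ (-(24 * q)) = 1 := by
      rw [← Real.rpow_add hn0]
      simp
    calc V ≤ A * ((n : ℝ) ^ (-(24 * q)) * y ^ 3) := hV2
      _ ≤ (n : ℝ) ^ (24 * q) * ((n : ℝ) ^ (-(24 * q)) * y ^ 3) := by gcongr
      _ = y * y ^ 2 := by rw [← mul_assoc, e1]; ring
      _ ≤ 1 * y ^ 2 := by gcongr; linarith
      _ = y ^ 2 := one_mul _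
  refine upV_n hβ hn hq hA1 hC t1 t2' t3 hy0 hy64 hV1 hV2 hap (g1 y ?_ hy64 V hV1 hV2') ?_
  · rw [show (-(1 / 6) + (1 / 6 - a0 + 1000 * q) : ℝ) = -a0 + 1000 * q by ring]
    exact hy1
  · intro u a hu1 hu2 hsg hapu
    have hu0 : 0 < u := by linarith
    have hV0 : 0 < V := by
      have : 0 < A * V := lt_of_lt_of_le (by positivity) hV1
      exact pos_of_mul_pos_right this hA0.le
    have hu3 : u ^ 3 ≤ 8 * y ^ 3 := by
      calc u ^ 3 ≤ (2 * y) ^ 3 := pow_le_pow_left₀ hu0.le hu2 3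
        _ = 8 * y ^ 3 := by ring
    have hy3 : y ^ 3 ≤ u ^ 3 := pow_le_pow_left₀ hy0.le hu1 3
    have hB0 := Real.rpow_pos_of_pos hn0 (-b₁)
    have hkw := g3 u V a (hy1.trans (by nlinarith)) (by nlinarith)
      (by
        calc (n : ℝ) ^ (-(24 * q)) * u ^ 3 ≤ (n : ℝ) ^ (-(24 * q)) * (8 * y ^ 3) := by gcongr
          _ = 8 * ((n : ℝ) ^ (-(24 * q)) * y ^ 3) := by ring
          _ ≤ 8 * (A * V) := by linarith
          _ = 8 * A * V := by ring)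
      (by
        calc V ≤ A * ((n : ℝ) ^ (-(24 * q)) * y ^ 3) := hV2
          _ ≤ A * ((n : ℝ) ^ (-(24 * q)) * u ^ 3) := by gcongr
          _ ≤ 8 * (A * ((n : ℝ) ^ (-(24 * q)) * u ^ 3)) := by
              have : 0 ≤ A * ((n : ℝ) ^ (-(24 * q)) * u ^ 3) := by positivity
              linarith
          _ = 8 * A * ((n : ℝ) ^ (-(24 * q)) * u ^ 3) := by ring) hsg hapu
    have h := g2 u V a _ _ _ hkw (Real.sq_sqrt (by positivity))
    rw [Kam_lawOf]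
    exact h

end Vale.Agent.P146.H529
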