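import Vale.Agent.P146.H529.LinkSK

/-!
P146, block LINK, numerical form.

`SG n b y V a` : `(n / (2 b)) (1 + a)` is a slope of `Phn n b y` (the natural functional) at `V`.
The amplitude law at `(y, V)`: modulated variance `ε`, plain variance `V - ε`, clip `η`, parameter
`lam`, constant `c = ε n (1 + a) / b`, `a` the slope at the same `(y, V)`.

* `link_up_num` : `KV y V ≤ KL amp (y (1 + θ)) + (60 / θ) (1 + log n + n y ε η A / b)`;
* `link_dn_num` : `KL amp y ≤ KV (y (1 + θ)) V + (60 / θ) (1 + log n + n y ε η A / b)`,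
`A` a bound of the slopes at both exponents.
-/

open MeasureTheory ProbabilityTheory Filter Topology Set

namespace Vale.Agent.P146.H529

open Vale.Agent.P157.Lv Vale.Agent.P146 Vale.Agent.P146.H425 Vale.Agent.P146.H325
  Vale.Agent.P146.H332 Vale.Agent.P146.H196 Vale.Agent.P146.H475 Vale.Agent.P146.H9
  Vale.Agent.P146.H347 Vale.Agent.P146.H877

set_option linter.unusedSectionVars false

variable {n : ℕ} {LB LF : Type} [Fintype LB] [DecidableEq LB] [Fintype LF] [DecidableEq LF]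
  {b : ℝ} {cB : LB → ℝ} {cF : LF → ℝ} {lam s η c y θ V a a' A : ℝ}

/-- `(n / (2 b)) (1 + a)` is a slope of the concave function `Phn n b y` at `V`. -/
def SG (n : ℕ) (b y V a : ℝ) : Prop :=
  ∀ w, 0 ≤ w → Phn n b y w ≤ Phn n b y V + n / (2 * b) * (1 + a) * (w - V)

lemma SG.lphi (h : SG n b y V a) (hy : 0 < y) :
    ∀ w ≥ 0, LPhi n b y w ≤ LPhi n b y V + y * (n / (2 * b) * (1 + a)) * (w - V) := by
  intro w hw
  have h1 := mul_le_mul_of_nonneg_left (h w hw) hy.le
  unfold Phn at h1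
  have e1 : y * (LPhi n b y w / y) = LPhi n b y w := by field_simp
  have e2 : y * (LPhi n b y V / y + n / (2 * b) * (1 + a) * (w - V)) =
      LPhi n b y V + y * (n / (2 * b) * (1 + a)) * (w - V) := by field_simp
  rw [e1, e2] at h1
  exact h1

/-- the slope is nonnegative -/
lemma SG.nonneg (h : SG n b y V a) (hy : 0 ≤ y) (hV : 0 ≤ V) : 0 ≤ n / (2 * b) * (1 + a) := by
  by_contra hneg
  push Not at hneg
  set q := n / (2 * b) * (1 + a) with hq
  -- at `w = V + t` the right side is `Phn V + q t`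
  obtain ⟨t, ht, h2⟩ : ∃ t : ℝ, 0 ≤ t ∧ Phn n b y V + q * t < Phn n b y 0 := by
    refine ⟨(|Phn n b y V - Phn n b y 0| + 1) / (-q), by
      have : 0 < -q := by linarith
      positivity, ?_⟩
    have h3 : q * ((|Phn n b y V - Phn n b y 0| + 1) / (-q)) =
        -(|Phn n b y V - Phn n b y 0| + 1) := by
      have : q ≠ 0 := hneg.ne
      field_simp
    rw [h3]
    have := le_abs_self (Phn n b y V - Phn n b y 0)
    linarith
  have h4 := h (V + t) (by linarith)
  have h5 := Phn_zero_le n b (V + t) hy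
  have h6 : V + t - V = t := by ring
  rw [h6] at h4
  linarith

/-- the slope is at most `n / 2` -/
lemma SG.le (h : SG n b y V a) (hy : 0 < y) (hy1 : y ≤ 1) (hV : 0 < V) :
    n / (2 * b) * (1 + a) ≤ n / 2 := by
  have h1 := h 0 le_rfl
  have h2 := Phn_le n b hy hy1 hV.le
  have h3 : n / (2 * b) * (1 + a) * V ≤ n / 2 * V := by linarith
  exact le_of_mul_le_mul_right h3 hV

lemma log_bounds {n : ℕ} (hn : 1 ≤ n) {c lam η : ℝ} (hlam : 1 ≤ lam) (hc : 0 ≤ c) (hcn : c ≤ n)
    (hη : 0 < η) (hη1 : η ≤ 1) :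
    Real.log (4 * (lam + c) / lam) + 2 ≤ 5 + Real.log n ∧
      Real.log (8 * η * c + 4) ≤ 3 + Real.log n := by
  have hn1 : (1 : ℝ) ≤ n := by exact_mod_cast hn
  have hn0 : (0 : ℝ) < n := by linarith
  constructor
  · have h1 : 4 * (lam + c) / lam ≤ 8 * n := by
      rw [div_le_iff₀ (by linarith)]
      nlinarith
    have h2 := Real.log_le_log (by positivity) h1
    rw [Real.log_mul (by norm_num) hn0.ne'] at h2
    have h3 : Real.log 8 ≤ 3 := by
      have : Real.log 8 = 3 * Real.log 2 := by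
        rw [show (8 : ℝ) = 2 ^ 3 by norm_num, Real.log_pow]
        norm_num
      have := Real.log_two_lt_d9
      linarith
    linarith
  · have h1 : 8 * η * c + 4 ≤ 12 * n := by nlinarith [mul_le_mul hη1 hcn hc zero_le_one]
    have h2 := Real.log_le_log (by positivity) h1
    rw [Real.log_mul (by norm_num) hn0.ne'] at h2
    have h3 : Real.log 12 ≤ 3 := by
      have h4 : Real.log 12 ≤ Real.log 16 := Real.log_le_log (by norm_num) (by norm_num)
      have : Real.log 16 = 4 * Real.log 2 := by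
        rw [show (16 : ℝ) = 2 ^ 4 by norm_num, Real.log_pow]
        norm_num
      have := Real.log_two_lt_d9
      linarith
    linarith

/-- the constant of the compensator -/
noncomputable def cc (n : ℕ) (b s a : ℝ) : ℝ := s ^ 2 * n * (1 + a) / b

lemma cc_eq {y' : ℝ} (hy : y' ≠ 0) :
    cc n b s a = 2 * s ^ 2 * (y' * (n / (2 * b) * (1 + a)) / y') := by
  unfold cc
  field_simp

lemma err_bound (hn : 1 ≤ n) (hb : 0 < b) (hy : 0 < y) (hθ : 0 < θ) (hθ1 : θ ≤ 1)
    (hy1 : y * (1 + θ) ≤ 1) (hη : 0 < η) {X Y : ℝ} (hX : X ≤ 5 + Real.log n)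
    (hY : Y ≤ 3 + Real.log n) {δ : ℝ} (hδ : |δ| ≤ n / (2 * b) * (2 * A)) :
    (y * (y * (1 + θ) * X) + y * (1 + θ) * (Y + y * (1 + 3 * s ^ 2 * |δ| * η))) / (θ * y) ≤
      60 / θ * (1 + Real.log n + n * y * s ^ 2 * η * A / b) := by
  have hn1 : (1 : ℝ) ≤ n := by exact_mod_cast hn
  have hl : 0 ≤ Real.log n := Real.log_nonneg hn1
  have hyb : y ≤ 1 := by nlinarith
  have hA0 : 0 ≤ n / (2 * b) * (2 * A) := (abs_nonneg _).trans hδ
  have hA : 0 ≤ A := by
    by_contra hneg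
    push Not at hneg
    have : n / (2 * b) * (2 * A) < 0 :=
      mul_neg_of_pos_of_neg (by positivity) (by linarith)
    linarith
  rw [div_le_iff₀ (by positivity)]
  have e1 : 60 / θ * (1 + Real.log n + n * y * s ^ 2 * η * A / b) * (θ * y) =
      60 * y * (1 + Real.log n + n * y * s ^ 2 * η * A / b) := by
    field_simp
  rw [e1]
  have h1 : y * (y * (1 + θ) * X) ≤ y * (1 * (5 + Real.log n)) := by
    refine mul_le_mul_of_nonneg_left ?_ hy.le
    have h2 : y * (1 + θ) * X ≤ y * (1 + θ) * (5 + Real.log n) :=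
      mul_le_mul_of_nonneg_left hX (by positivity)
    exact h2.trans (mul_le_mul_of_nonneg_right hy1 (by linarith))
  have h2 : 3 * s ^ 2 * |δ| * η ≤ 3 * (n * s ^ 2 * η * A / b) := by
    have h3 : 3 * s ^ 2 * |δ| * η ≤ 3 * s ^ 2 * (n / (2 * b) * (2 * A)) * η := by gcongr
    refine h3.trans (le_of_eq ?_)
    field_simp
  have h4 : Y + y * (1 + 3 * s ^ 2 * |δ| * η) ≤
      4 + Real.log n + 3 * (n * y * s ^ 2 * η * A / b) := by
    have h5 := mul_le_mul_of_nonneg_left h2 hy.le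
    have e2 : y * (3 * (n * s ^ 2 * η * A / b)) = 3 * (n * y * s ^ 2 * η * A / b) := by ring
    nlinarith
  have h6 : 0 ≤ n * y * s ^ 2 * η * A / b := by positivity
  have h7 : y * (1 + θ) * (Y + y * (1 + 3 * s ^ 2 * |δ| * η)) ≤
      2 * y * (4 + Real.log n + 3 * (n * y * s ^ 2 * η * A / b)) := by
    calc y * (1 + θ) * (Y + y * (1 + 3 * s ^ 2 * |δ| * η))
        ≤ y * (1 + θ) * (4 + Real.log n + 3 * (n * y * s ^ 2 * η * A / b)) :=
          mul_le_mul_of_nonneg_left h4 (by positivity)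
      _ ≤ 2 * y * (4 + Real.log n + 3 * (n * y * s ^ 2 * η * A / b)) :=
          mul_le_mul_of_nonneg_right (by nlinarith) (by positivity)
  nlinarith [mul_nonneg hy.le hl, mul_nonneg hy.le h6]

lemma slope_diff (hn : 1 ≤ n) (hb : 0 < b) {y1 y2 : ℝ} (h1 : 0 < y1) (h2 : 0 < y2)
    (ha : |a| ≤ A) (ha' : |a'| ≤ A) :
    |y1 * (n / (2 * b) * (1 + a)) / y1 - y2 * (n / (2 * b) * (1 + a')) / y2| ≤
      n / (2 * b) * (2 * A) := by
  have hn1 : (1 : ℝ) ≤ n := by exact_mod_cast hn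
  have e1 : y1 * (n / (2 * b) * (1 + a)) / y1 - y2 * (n / (2 * b) * (1 + a')) / y2 =
      n / (2 * b) * (a - a') := by
    field_simp
    ring
  rw [e1, abs_mul, abs_of_pos (by positivity : (0 : ℝ) < n / (2 * b))]
  refine mul_le_mul_of_nonneg_left ?_ (by positivity)
  calc |a - a'| ≤ |a| + |a'| := abs_sub _ _
    _ ≤ 2 * A := by linarith

/-- **LINK, upper, numerical form.** The amplitude law at the exponent `y (1 + θ)` with its own
slope `a'`. -/
theorem link_up_num (hn : 1 ≤ n) (hb : 0 < b) (hB : ∑ l, cB l ^ 2 = 1)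
    (hV : V = ∑ l, cF l ^ 2 + s ^ 2) (hV1 : V ≤ 1) (hs : 0 < s) (hlam : 1 ≤ lam) (hη : 0 < η)
    (hη1 : η < 1) (hle : 1 ≤ lam * η) (hy : 0 < y) (hθ : 0 < θ) (hθ1 : θ ≤ 1)
    (hy1 : y * (1 + θ) ≤ 1) (ha : SG n b y V a) (ha' : SG n b (y * (1 + θ)) V a')
    (hA : |a| ≤ A) (hA' : |a'| ≤ A) :
    KV n b y V ≤ KL (Fsk n LB LF b cB cF lam s η (cc n b s a')) (y * (1 + θ)) +
      60 / θ * (1 + Real.log n + n * y * s ^ 2 * η * A / b) := by
  have hn1 : (1 : ℝ) ≤ n := by exact_mod_cast hn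
  have hh : 0 < θ * y := by positivity
  have ey : y * (1 + θ) = y + θ * y := by ring
  have hy' : 0 < y * (1 + θ) := by positivity
  have hF0 : 0 ≤ ∑ l, cF l ^ 2 := Finset.sum_nonneg fun _ _ => sq_nonneg _
  have hV0 : 0 < V := by rw [hV]; positivity
  have hs1 : s ^ 2 ≤ 1 := by linarith
  have q0 := ha'.nonneg hy'.le hV0.le
  have q1 := ha'.le hy' hy1 hV0
  have hc0 : 0 ≤ cc n b s a' := by
    rw [cc_eq hy'.ne', mul_div_assoc, mul_comm (y * (1 + θ))]
    rw [div_mul_cancel₀ _ hy'.ne']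
    positivity
  have hcn : cc n b s a' ≤ n := by
    rw [cc_eq hy'.ne', mul_div_assoc, mul_comm (y * (1 + θ)), div_mul_cancel₀ _ hy'.ne']
    nlinarith
  have hl : 1 ≤ (lam + cc n b s a') * η := by nlinarith
  have key := link_up_sk (h := θ * y) (p := y * (n / (2 * b) * (1 + a)))
    (p' := y * (1 + θ) * (n / (2 * b) * (1 + a'))) hB hV hs (by linarith) hη hη1 hy hh
    (by rw [← ey]; exact hy1) hl (ha.lphi hy) (by positivity)
    (by rw [← ey]; exact cc_eq hy'.ne')
  rw [← ey] at key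
  refine key.trans (add_le_add_right ?_ _)
  obtain ⟨l1, l2⟩ := log_bounds hn hlam hc0 hcn hη hη1.le
  exact err_bound hn hb hy hθ hθ1 hy1 hη l1 l2 (slope_diff hn hb hy hy' hA hA')

/-- **LINK, lower, numerical form.** The amplitude law at the exponent `y` with its own slope
`a`. -/
theorem link_dn_num (hn : 1 ≤ n) (hb : 0 < b) (hB : ∑ l, cB l ^ 2 = 1)
    (hV : V = ∑ l, cF l ^ 2 + s ^ 2) (hV1 : V ≤ 1) (hs : 0 < s) (hlam : 1 ≤ lam) (hη : 0 < η)
    (hη1 : η < 1) (hle : 1 ≤ lam * η) (hy : 0 < y) (hθ : 0 < θ) (hθ1 : θ ≤ 1)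
    (hy1 : y * (1 + θ) ≤ 1) (ha : SG n b y V a) (ha' : SG n b (y * (1 + θ)) V a')
    (hA : |a| ≤ A) (hA' : |a'| ≤ A) :
    KL (Fsk n LB LF b cB cF lam s η (cc n b s a)) y ≤ KV n b (y * (1 + θ)) V +
      60 / θ * (1 + Real.log n + n * y * s ^ 2 * η * A / b) := by
  have hn1 : (1 : ℝ) ≤ n := by exact_mod_cast hn
  have hh : 0 < θ * y := by positivity
  have ey : y * (1 + θ) = y + θ * y := by ring
  have hy' : 0 < y * (1 + θ) := by positivity
  have hF0 : 0 ≤ ∑ l, cF l ^ 2 := Finset.sum_nonneg fun _ _ => sq_nonneg _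
  have hV0 : 0 < V := by rw [hV]; positivity
  have hs1 : s ^ 2 ≤ 1 := by linarith
  have hyy : y ≤ 1 := by nlinarith
  have q0 := ha.nonneg hy.le hV0.le
  have q1 := ha.le hy hyy hV0
  have hc0 : 0 ≤ cc n b s a := by
    rw [cc_eq hy.ne', mul_div_assoc, mul_comm y, div_mul_cancel₀ _ hy.ne']
    positivity
  have hcn : cc n b s a ≤ n := by
    rw [cc_eq hy.ne', mul_div_assoc, mul_comm y, div_mul_cancel₀ _ hy.ne']
    nlinarith
  have hl : 1 ≤ (lam + cc n b s a) * η := by nlinarith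
  have key := link_dn_sk (h := θ * y) (p := y * (n / (2 * b) * (1 + a)))
    (p' := y * (1 + θ) * (n / (2 * b) * (1 + a'))) hB hV hs (by linarith) hη hη1 hy hh
    (by rw [← ey]; exact hy1) hl (by rw [← ey]; exact ha'.lphi hy') (by positivity)
    (cc_eq hy.ne')
  rw [← ey] at key
  refine key.trans (add_le_add_right ?_ _)
  obtain ⟨l1, l2⟩ := log_bounds hn hlam hc0 hcn hη hη1.le
  have hd := slope_diff hn hb hy' hy hA' hA
  have e2 := err_bound (s := s) (A := A) hn hb hy hθ hθ1 hy1 hη l1 l2 hd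
  -- the same terms in another order; here the logarithm has the factor `y` and not `y + h`
  refine le_trans ?_ e2
  have hh0 : 0 < θ * y := hh
  refine div_le_div_of_nonneg_right ?_ hh0.le
  have n1 : 0 ≤ Real.log (8 * η * cc n b s a + 4) := by
    refine Real.log_nonneg ?_
    have : 0 ≤ 8 * η * cc n b s a := by positivity
    linarith
  have n2 : 0 ≤ 3 * s ^ 2 * |y * (1 + θ) * (n / (2 * b) * (1 + a')) / (y * (1 + θ)) -
      y * (n / (2 * b) * (1 + a)) / y| * η := by positivity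
  have n3 : y * Real.log (8 * η * cc n b s a + 4) ≤
      y * (1 + θ) * Real.log (8 * η * cc n b s a + 4) :=
    mul_le_mul_of_nonneg_right (by nlinarith) n1
  nlinarith

end Vale.Agent.P146.H529
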