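import Mathlib

/-!
The image of a standard Gaussian vector under a matrix with orthonormal rows is a standard Gaussian
vector.
-/

open MeasureTheory ProbabilityTheory

namespace Vale.Agent.P146.H529

lemma charFunDual_gauss (L : StrongDual ℝ ℝ) :
    charFunDual (gaussianReal 0 1) L = Complex.exp (-(((L 1) ^ 2 / 2 : ℝ) : ℂ)) := by
  have h : L = InnerProductSpace.toDualMap ℝ ℝ (L 1) := by
    ext
    simp
  rw [h, ← charFun_eq_charFunDual_toDualMap, charFun_gaussianReal]
  congr 1
  simp

variable {κ κ' : Type} [Fintype κ] [Fintype κ']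

/-- matrix with orthonormal rows: the image of the standard Gaussian law -/
theorem gauss_map [DecidableEq κ'] {A : κ' → κ → ℝ}
    (hA : ∀ p q, ∑ e, A p e * A q e = if p = q then 1 else 0) :
    (Measure.pi fun _ : κ => gaussianReal 0 1).map (fun u p => ∑ e, A p e * u e) =
      Measure.pi fun _ : κ' => gaussianReal 0 1 := by
  classical
  set T : (κ → ℝ) →L[ℝ] (κ' → ℝ) :=
    ContinuousLinearMap.pi fun p => ∑ e, A p e • ContinuousLinearMap.proj (R := ℝ)
      (φ := fun _ : κ => ℝ) e with hT
  have eT : (fun (u : κ → ℝ) (p : κ') => ∑ e, A p e * u e) = T := by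
    funext u p
    simp [hT]
  rw [eT]
  have : IsProbabilityMeasure ((Measure.pi fun _ : κ => gaussianReal 0 1).map T) :=
    Measure.isProbabilityMeasure_map T.continuous.measurable.aemeasurable
  refine charFunDual_eq_pi_iff.1 fun L => ?_
  rw [charFunDual_map, charFunDual_pi]
  simp only [charFunDual_gauss]
  rw [← Complex.exp_sum, ← Complex.exp_sum]
  congr 1
  rw [Finset.sum_neg_distrib, Finset.sum_neg_distrib]
  congr 1
  rw [← Complex.ofReal_sum, ← Complex.ofReal_sum]
  congr 1
  -- coordinates of `L`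
  set l : κ' → ℝ := fun p => L (Pi.single p 1) with hl
  have e1 : ∀ w : κ' → ℝ, L w = ∑ p, w p * l p := by
    intro w
    have h1 : w = ∑ p, w p • (Pi.single p (1 : ℝ) : κ' → ℝ) := by
      funext q
      simp [Finset.sum_apply, Pi.single_apply]
    conv_lhs => rw [h1]
    rw [map_sum]
    refine Finset.sum_congr rfl fun p _ => ?_
    rw [map_smul, smul_eq_mul]
  have e2 : ∀ e : κ, ((L.comp T).comp (ContinuousLinearMap.single ℝ (fun _ : κ => ℝ) e)) 1 =
      ∑ p, A p e * l p := by
    intro e
    simp only [ContinuousLinearMap.comp_apply]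
    rw [e1]
    refine Finset.sum_congr rfl fun p _ => ?_
    congr 1
    rw [hT]
    simp [Pi.single_apply]
  have e3 : ∀ p : κ', (L.comp (ContinuousLinearMap.single ℝ (fun _ : κ' => ℝ) p)) 1 = l p := by
    intro p
    rfl
  simp only [e2, e3]
  rw [← Finset.sum_div, ← Finset.sum_div]
  congr 1
  have e4 : ∀ e : κ, (∑ p, A p e * l p) ^ 2 = ∑ p, ∑ q, l p * l q * (A p e * A q e) := by
    intro e
    rw [sq, Finset.sum_mul_sum]
    refine Finset.sum_congr rfl fun p _ => Finset.sum_congr rfl fun q _ => ?_
    ring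
  simp only [e4]
  rw [Finset.sum_comm]
  refine Finset.sum_congr rfl fun p _ => ?_
  rw [Finset.sum_comm]
  simp only [← Finset.mul_sum, hA]
  simp [sq]

/-- integrals of functions of the image -/
theorem gauss_int [DecidableEq κ'] {A : κ' → κ → ℝ}
    (hA : ∀ p q, ∑ e, A p e * A q e = if p = q then 1 else 0) {G : (κ' → ℝ) → ℝ}
    (hG : Measurable G) :
    ∫ u, G (fun p => ∑ e, A p e * u e) ∂(Measure.pi fun _ : κ => gaussianReal 0 1) =
      ∫ w, G w ∂(Measure.pi fun _ : κ' => gaussianReal 0 1) := by
  rw [← gauss_map hA, integral_map]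
  · exact Measurable.aemeasurable (by fun_prop)
  · exact hG.aestronglyMeasurable

end Vale.Agent.P146.H529
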