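import Vale.Agent.P146.H529.LinkLaw

/-!
P146, block LINK in the literal form of the flow (`H178`): the amplitude law with parameter
functions `sF lF hF` of `(n, y, V)`; slopes at most `n ^ w y ^ 2`.
-/

open MeasureTheory ProbabilityTheory Filter Topology Set

namespace Vale.Agent.P146.H529

open Vale.Agent.P157.Lv Vale.Agent.P146 Vale.Agent.P146.H425 Vale.Agent.P146.H325
  Vale.Agent.P146.H332 Vale.Agent.P146.H196 Vale.Agent.P146.H475 Vale.Agent.P146.H9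
  Vale.Agent.P146.H347 Vale.Agent.P146.H877

set_option linter.unusedSectionVars false

section num

variable {n : ℕ} {LB LF : Type} [Fintype LB] [DecidableEq LB] [Fintype LF] [DecidableEq LF]
  {b : ℝ} {cB : LB → ℝ} {cF : LF → ℝ} {lam s η c y θ V a a' A : ℝ}

/-- `link_up_num` with `s ^ 2 ≤ 1` in place of `V ≤ 1` -/
theorem link_up_num1 (hn : 1 ≤ n) (hb : 0 < b) (hB : ∑ l, cB l ^ 2 = 1)
    (hV : V = ∑ l, cF l ^ 2 + s ^ 2) (hs1 : s ^ 2 ≤ 1) (hs : 0 < s) (hlam : 1 ≤ lam) (hη : 0 < η)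
    (hη1 : η < 1) (hle : 1 ≤ lam * η) (hy : 0 < y) (hθ : 0 < θ) (hθ1 : θ ≤ 1)
    (hy1 : y * (1 + θ) ≤ 1) (ha : SG n b y V a) (ha' : SG n b (y * (1 + θ)) V a')
    (hA : |a| ≤ A) (hA' : |a'| ≤ A) :
    KV n b y V ≤ KL (Fsk n LB LF b cB cF lam s η (cc n b s a')) (y * (1 + θ)) +
      60 / θ * (1 + Real.log n + n * y * s ^ 2 * η * A / b) := by
  have hn1 : (1 : ℝ) ≤ n := by exact_mod_cast hn
  have hh : 0 < θ * y := by positivity
  have ey : y * (1 + θ) = y + θ * y := by ring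
  have hy' : 0 < y * (1 + θ) := by positivity
  have hF0 : 0 ≤ ∑ l, cF l ^ 2 := Finset.sum_nonneg fun _ _ => sq_nonneg _
  have hV0 : 0 < V := by rw [hV]; positivity
  have q0 := ha'.nonneg hy'.le hV0.le
  have q1 := ha'.le hy' hy1 hV0
  have hc0 : 0 ≤ cc n b s a' := by
    rw [cc_eq hy'.ne', mul_div_assoc, mul_comm (y * (1 + θ))]
    rw [div_mul_cancel₀ _ hy'.ne']
    positivity
  have hcn : cc n b s a' ≤ n := by
    rw [cc_eq hy'.ne', mul_div_assoc, mul_comm (y * (1 + θ)), div_mul_cancel₀ _ hy'.ne']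
    nlinarith
  have hl : 1 ≤ (lam + cc n b s a') * η := by nlinarith
  have key := link_up_sk (h := θ * y) (p := y * (n / (2 * b) * (1 + a)))
    (p' := y * (1 + θ) * (n / (2 * b) * (1 + a'))) hB hV hs (by linarith) hη hη1 hy hh
    (by rw [← ey]; exact hy1) hl (ha.lphi hy) (by positivity)
    (by rw [← ey]; exact cc_eq hy'.ne')
  rw [← ey] at key
  refine key.trans (add_le_add_right ?_ _)
  obtain ⟨l1, l2⟩ := log_bounds hn hlam hc0 hcn hη hη1.le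
  exact err_bound hn hb hy hθ hθ1 hy1 hη l1 l2 (slope_diff hn hb hy hy' hA hA')

/-- `link_dn_num` with `s ^ 2 ≤ 1` in place of `V ≤ 1` -/
theorem link_dn_num1 (hn : 1 ≤ n) (hb : 0 < b) (hB : ∑ l, cB l ^ 2 = 1)
    (hV : V = ∑ l, cF l ^ 2 + s ^ 2) (hs1 : s ^ 2 ≤ 1) (hs : 0 < s) (hlam : 1 ≤ lam) (hη : 0 < η)
    (hη1 : η < 1) (hle : 1 ≤ lam * η) (hy : 0 < y) (hθ : 0 < θ) (hθ1 : θ ≤ 1)
    (hy1 : y * (1 + θ) ≤ 1) (ha : SG n b y V a) (ha' : SG n b (y * (1 + θ)) V a')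
    (hA : |a| ≤ A) (hA' : |a'| ≤ A) :
    KL (Fsk n LB LF b cB cF lam s η (cc n b s a)) y ≤ KV n b (y * (1 + θ)) V +
      60 / θ * (1 + Real.log n + n * y * s ^ 2 * η * A / b) := by
  have hn1 : (1 : ℝ) ≤ n := by exact_mod_cast hn
  have hh : 0 < θ * y := by positivity
  have ey : y * (1 + θ) = y + θ * y := by ring
  have hy' : 0 < y * (1 + θ) := by positivity
  have hF0 : 0 ≤ ∑ l, cF l ^ 2 := Finset.sum_nonneg fun _ _ => sq_nonneg _
  have hV0 : 0 < V := by rw [hV]; positivity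
  have hyy : y ≤ 1 := by nlinarith
  have q0 := ha.nonneg hy.le hV0.le
  have q1 := ha.le hy hyy hV0
  have hc0 : 0 ≤ cc n b s a := by
    rw [cc_eq hy.ne', mul_div_assoc, mul_comm y, div_mul_cancel₀ _ hy.ne']
    positivity
  have hcn : cc n b s a ≤ n := by
    rw [cc_eq hy.ne', mul_div_assoc, mul_comm y, div_mul_cancel₀ _ hy.ne']
    nlinarith
  have hl : 1 ≤ (lam + cc n b s a) * η := by nlinarith
  have key := link_dn_sk (h := θ * y) (p := y * (n / (2 * b) * (1 + a)))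
    (p' := y * (1 + θ) * (n / (2 * b) * (1 + a'))) hB hV hs (by linarith) hη hη1 hy hh
    (by rw [← ey]; exact hy1) hl (by rw [← ey]; exact ha'.lphi hy') (by positivity)
    (cc_eq hy.ne')
  rw [← ey] at key
  refine key.trans (add_le_add_right ?_ _)
  obtain ⟨l1, l2⟩ := log_bounds hn hlam hc0 hcn hη hη1.le
  have hd := slope_diff hn hb hy' hy hA' hA
  have e2 := err_bound (s := s) (A := A) hn hb hy hθ hθ1 hy1 hη l1 l2 hd
  -- the same terms in another order; here the logarithm has the factor `y` and not `y + h`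
  refine le_trans ?_ e2
  have hh0 : 0 < θ * y := hh
  refine div_le_div_of_nonneg_right ?_ hh0.le
  have n1 : 0 ≤ Real.log (8 * η * cc n b s a + 4) := by
    refine Real.log_nonneg ?_
    have : 0 ≤ 8 * η * cc n b s a := by positivity
    linarith
  have n2 : 0 ≤ 3 * s ^ 2 * |y * (1 + θ) * (n / (2 * b) * (1 + a')) / (y * (1 + θ)) -
      y * (n / (2 * b) * (1 + a)) / y| * η := by positivity
  have n3 : y * Real.log (8 * η * cc n b s a + 4) ≤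
      y * (1 + θ) * Real.log (8 * η * cc n b s a + 4) :=
    mul_le_mul_of_nonneg_right (by nlinarith) n1
  nlinarith

end num

/-- the entropy of the amplitude law with the parameter functions `sF`, `lF`, `hF` -/
noncomputable def Kam (β : ℝ) (sF lF hF : ℕ → ℝ → ℝ → ℝ) (n : ℕ) (y V a : ℝ) : ℝ :=
  (law n β V (sF n y V) (lF n y V) (hF n y V) a y).KA

lemma Kam_eq (β : ℝ) (sF lF hF : ℕ → ℝ → ℝ → ℝ) (n : ℕ) (y V a : ℝ) :
    Kam β sF lF hF n y V a = KL (Fsk n Unit Unit β (fun _ => 1) (fun _ => √(V - sF n y V ^ 2))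
      (lF n y V) (sF n y V) (hF n y V) (cc n β (sF n y V) a)) y := rfl

/-- the parameter functions are admissible -/
def ParOK (e d k ce : ℝ) (sF lF hF : ℕ → ℝ → ℝ → ℝ) : Prop := ∀ A : ℝ, 1 ≤ A →
  ∀ᶠ n : ℕ in atTop, ∀ y V : ℝ, (n : ℝ) ^ (-(1 / 6) + e) ≤ A * y → y ≤ 1 / 32 →
    (n : ℝ) ^ (-d) * y ^ 3 ≤ A * V → V ≤ A * y ^ 3 →
    0 < sF n y V ∧ sF n y V ^ 2 ≤ (n : ℝ) ^ (-k) * V ∧ 1 ≤ lF n y V ∧ 0 < hF n y V ∧
      hF n y V ≤ (n : ℝ) ^ (-ce) ∧ 1 ≤ lF n y V * hF n y V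

lemma err_K {β e ch g w k ce : ℝ} (hβ : 0 < β) (hce : 0 < ce) (hch : 0 < ch)
    (h1 : ch + g < 6 * e) (h2 : g + ch + w < k + ce) {A : ℝ} (hA : 1 ≤ A) :
    ∀ᶠ n : ℕ in atTop, 1 ≤ n ∧ 0 < (n : ℝ) ^ (-ch) ∧ (n : ℝ) ^ (-ch) ≤ 1 ∧
      (n : ℝ) ^ (-ce) < 1 ∧
      ∀ y V s η : ℝ, (n : ℝ) ^ (-(1 / 6) + e) ≤ A * y → y ≤ 1 / 64 → V ≤ A * y ^ 3 →
      s ^ 2 ≤ (n : ℝ) ^ (-k) * V → 0 ≤ η → η ≤ (n : ℝ) ^ (-ce) →
      60 / (n : ℝ) ^ (-ch) * (1 + Real.log n + n * y * s ^ 2 * η *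
        ((n : ℝ) ^ w * (2 * y) ^ 2) / β) ≤ (n : ℝ) ^ (1 - g) * y ^ 6 := by
  obtain ⟨e', he', he2⟩ : ∃ e' : ℝ, e' < e ∧ ch + g < 6 * e' :=
    ⟨(e + (ch + g) / 6) / 2, by linarith, by linarith⟩
  obtain ⟨δ, hδ, hδ2⟩ : ∃ δ : ℝ, 0 < δ ∧ g + ch < k - w - δ + ce :=
    ⟨(k + ce - (g + ch + w)) / 2, by linarith, by linarith⟩
  filter_upwards [link_err2 (b := β) (e := e') (k := k - w - δ) (g := g) (ch := ch) (ce := ce) hβ
    he2 hδ2, ev_rpow hδ (4 * A), ev_rpow hce 2, ev_rpow (show 0 < e - e' by linarith) A,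
    eventually_ge_atTop 1] with n g1 g2 g3 g5 g4
  have hn1 : (1 : ℝ) ≤ n := by exact_mod_cast g4
  have hn0 : (0 : ℝ) < n := by linarith
  refine ⟨g4, Real.rpow_pos_of_pos hn0 _, Real.rpow_le_one_of_one_le_of_nonpos hn1 (by linarith),
    ?_, ?_⟩
  · rw [Real.rpow_neg hn0.le]
    exact inv_lt_one_of_one_lt₀ (by linarith)
  intro y V s η hy hy1 hVy hs hη hη1
  have hA0 : 0 < A := by linarith
  have hy0 : 0 < y := by
    have h3 : 0 < (n : ℝ) ^ (-(1 / 6) + e) := Real.rpow_pos_of_pos hn0 _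
    have h4 : 0 < A * y := h3.trans_le hy
    exact pos_of_mul_pos_right h4 hA0.le
  have hlow : (n : ℝ) ^ (-(1 / 6) + e') ≤ 2 * y := by
    have e1 : (n : ℝ) ^ (-(1 / 6) + e') * (n : ℝ) ^ (e - e') = (n : ℝ) ^ (-(1 / 6) + e) := by
      rw [← Real.rpow_add hn0]
      congr 1
      ring
    have h3 : (n : ℝ) ^ (-(1 / 6) + e') * A ≤ A * y := by
      calc (n : ℝ) ^ (-(1 / 6) + e') * A ≤ (n : ℝ) ^ (-(1 / 6) + e') * (n : ℝ) ^ (e - e') := by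
            gcongr
        _ ≤ A * y := by rw [e1]; exact hy
    have h4 : (n : ℝ) ^ (-(1 / 6) + e') ≤ y := by
      have : A * (n : ℝ) ^ (-(1 / 6) + e') ≤ A * y := by linarith
      exact le_of_mul_le_mul_left this hA0
    linarith
  refine g1 y s η _ hlow (by linarith) hη hη1 (by positivity) ?_
  have hk0 : 0 < (n : ℝ) ^ (-k) := Real.rpow_pos_of_pos hn0 _
  have hw0 : 0 < (n : ℝ) ^ w := Real.rpow_pos_of_pos hn0 _
  calc s ^ 2 * ((n : ℝ) ^ w * (2 * y) ^ 2)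
      ≤ ((n : ℝ) ^ (-k) * (A * y ^ 3)) * ((n : ℝ) ^ w * (2 * y) ^ 2) := by
        refine mul_le_mul_of_nonneg_right (hs.trans ?_) (by positivity)
        gcongr
    _ = 4 * A * ((n : ℝ) ^ (-k) * (n : ℝ) ^ w) * y ^ 5 := by ring
    _ ≤ (n : ℝ) ^ δ * ((n : ℝ) ^ (-k) * (n : ℝ) ^ w) * y ^ 5 := by gcongr
    _ = (n : ℝ) ^ (-(k - w - δ)) * y ^ 5 := by
        rw [← Real.rpow_add hn0, ← Real.rpow_add hn0]
        congr 2
        ring

/-- **LINK, upper, in the literal form of the flow.** -/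
theorem linkUp_Kam {β e ch g w d k ce : ℝ} {sF lF hF : ℕ → ℝ → ℝ → ℝ} (hβ : 0 < β)
    (hce : 0 < ce) (hk : 0 < k) (hch : 0 < ch) (h1 : ch + g < 6 * e)
    (h2 : g + ch + w < k + ce) (hp : ParOK e d k ce sF lF hF) :
    ∀ A : ℝ, 1 ≤ A → ∀ᶠ n : ℕ in atTop, ∀ y : ℝ, (n : ℝ) ^ (-(1 / 6) + e) ≤ A * y →
      y ≤ 1 / 64 → ∀ V : ℝ, (n : ℝ) ^ (-d) * y ^ 3 ≤ A * V → V ≤ A * y ^ 3 → ∀ a a' : ℝ,
      SG n β y V a → SG n β (y * (1 + (n : ℝ) ^ (-ch))) V a' →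
      |a| ≤ (n : ℝ) ^ w * y ^ 2 → |a'| ≤ (n : ℝ) ^ w * y ^ 2 →
      KV n β y V ≤ Kam β sF lF hF n (y * (1 + (n : ℝ) ^ (-ch))) V a' +
        (n : ℝ) ^ (1 - g) * y ^ 6 := by
  intro A hA
  filter_upwards [err_K (β := β) (w := w) (k := k) hβ hce hch h1 h2 hA, hp (8 * A) (by linarith),
    ev_rpow hk A] with n hn hpn hkA
  obtain ⟨g1, g2, g3, g4, g5⟩ := hn
  intro y hy hy1 V hVl hVu a a' hsg hsg' ha ha'
  have hn1 : (1 : ℝ) ≤ n := by exact_mod_cast g1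
  have hn0 : (0 : ℝ) < n := by linarith
  have hA0 : 0 < A := by linarith
  have hy0 : 0 < y := by
    have h3 : 0 < (n : ℝ) ^ (-(1 / 6) + e) := Real.rpow_pos_of_pos hn0 _
    have h4 : 0 < A * y := h3.trans_le hy
    exact pos_of_mul_pos_right h4 hA0.le
  set y' := y * (1 + (n : ℝ) ^ (-ch)) with hy'
  have hyy : y ≤ y' := by rw [hy']; nlinarith
  have hyy2 : y' ≤ 2 * y := by rw [hy']; nlinarith
  have hy'0 : 0 < y' := by linarith
  have hd0 : 0 < (n : ℝ) ^ (-d) := Real.rpow_pos_of_pos hn0 _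
  have hV0 : 0 < V := by
    have h3 : 0 < A * V := lt_of_lt_of_le (by positivity) hVl
    exact pos_of_mul_pos_right h3 hA0.le
  have hcube : y' ^ 3 ≤ 8 * y ^ 3 := by
    calc y' ^ 3 ≤ (2 * y) ^ 3 := pow_le_pow_left₀ hy'0.le hyy2 3
      _ = 8 * y ^ 3 := by ring
  obtain ⟨p1, p2, p3, p4, p5, p6⟩ := hpn y' V (by nlinarith) (by linarith) (by
      calc (n : ℝ) ^ (-d) * y' ^ 3 ≤ (n : ℝ) ^ (-d) * (8 * y ^ 3) := by gcongr
        _ = 8 * ((n : ℝ) ^ (-d) * y ^ 3) := by ring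
        _ ≤ 8 * (A * V) := by linarith
        _ = 8 * A * V := by ring) (by
      have h3 : y ^ 3 ≤ y' ^ 3 := pow_le_pow_left₀ hy0.le hyy 3
      have h4 : A * y ^ 3 ≤ A * y' ^ 3 := mul_le_mul_of_nonneg_left h3 hA0.le
      have h5 : 0 ≤ A * y' ^ 3 := by positivity
      linarith)
  set s := sF n y' V with hs
  set η := hF n y' V with hη
  set lam := lF n y' V with hlam
  have hk0 : 0 < (n : ℝ) ^ (-k) := Real.rpow_pos_of_pos hn0 _
  have hk1 : (n : ℝ) ^ (-k) ≤ 1 := Real.rpow_le_one_of_one_le_of_nonpos hn1 (by linarith)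
  have hkA' : (n : ℝ) ^ (-k) * A ≤ 1 := by
    calc (n : ℝ) ^ (-k) * A ≤ (n : ℝ) ^ (-k) * (n : ℝ) ^ k := by gcongr
      _ = 1 := by rw [← Real.rpow_add hn0]; simp
  have hsV : s ^ 2 ≤ V := by nlinarith
  have hs1 : s ^ 2 ≤ 1 := by
    have h3 : y ^ 3 ≤ 1 := pow_le_one₀ hy0.le (by linarith)
    calc s ^ 2 ≤ (n : ℝ) ^ (-k) * V := p2
      _ ≤ (n : ℝ) ^ (-k) * (A * 1) := by
          refine mul_le_mul_of_nonneg_left (hVu.trans ?_) hk0.le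
          gcongr
      _ ≤ 1 := by linarith
  have hV0' : 0 ≤ V - s ^ 2 := by linarith
  have hVV : V = ∑ _l : Unit, √(V - s ^ 2) ^ 2 + s ^ 2 := by
    simp [Real.sq_sqrt hV0']
  have hA2 : |a| ≤ (n : ℝ) ^ w * (2 * y) ^ 2 := by
    refine ha.trans ?_
    gcongr
    linarith
  have hA2' : |a'| ≤ (n : ℝ) ^ w * (2 * y) ^ 2 := by
    refine ha'.trans ?_
    gcongr
    linarith
  have key := link_up_num1 (LB := Unit) (LF := Unit) (cB := fun _ => 1)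
    (cF := fun _ => √(V - s ^ 2)) (lam := lam) g1 hβ (by simp) hVV hs1 p1 p3 p4
    (p5.trans_lt g4) p6 hy0 g2 g3 (by linarith) hsg hsg' hA2 hA2'
  rw [Kam_eq]
  exact key.trans (add_le_add_right (g5 y V s η hy hy1 hVu p2 p4.le p5) _)

/-- **LINK, lower, in the literal form of the flow.** -/
theorem linkDn_Kam {β e ch g w d k ce : ℝ} {sF lF hF : ℕ → ℝ → ℝ → ℝ} (hβ : 0 < β)
    (hce : 0 < ce) (hk : 0 < k) (hch : 0 < ch) (h1 : ch + g < 6 * e)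
    (h2 : g + ch + w < k + ce) (hp : ParOK e d k ce sF lF hF) :
    ∀ A : ℝ, 1 ≤ A → ∀ᶠ n : ℕ in atTop, ∀ y : ℝ, (n : ℝ) ^ (-(1 / 6) + e) ≤ A * y →
      y ≤ 1 / 64 → ∀ V : ℝ, (n : ℝ) ^ (-d) * y ^ 3 ≤ A * V → V ≤ A * y ^ 3 → ∀ a a' : ℝ,
      SG n β y V a → SG n β (y * (1 + (n : ℝ) ^ (-ch))) V a' →
      |a| ≤ (n : ℝ) ^ w * y ^ 2 → |a'| ≤ (n : ℝ) ^ w * y ^ 2 →
      Kam β sF lF hF n y V a ≤ KV n β (y * (1 + (n : ℝ) ^ (-ch))) V +
        (n : ℝ) ^ (1 - g) * y ^ 6 := by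
  intro A hA
  filter_upwards [err_K (β := β) (w := w) (k := k) hβ hce hch h1 h2 hA, hp A hA,
    ev_rpow hk A] with n hn hpn hkA
  obtain ⟨g1, g2, g3, g4, g5⟩ := hn
  intro y hy hy1 V hVl hVu a a' hsg hsg' ha ha'
  have hn1 : (1 : ℝ) ≤ n := by exact_mod_cast g1
  have hn0 : (0 : ℝ) < n := by linarith
  have hA0 : 0 < A := by linarith
  have hy0 : 0 < y := by
    have h3 : 0 < (n : ℝ) ^ (-(1 / 6) + e) := Real.rpow_pos_of_pos hn0 _
    have h4 : 0 < A * y := h3.trans_le hy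
    exact pos_of_mul_pos_right h4 hA0.le
  have hd0 : 0 < (n : ℝ) ^ (-d) := Real.rpow_pos_of_pos hn0 _
  have hV0 : 0 < V := by
    have h3 : 0 < A * V := lt_of_lt_of_le (by positivity) hVl
    exact pos_of_mul_pos_right h3 hA0.le
  obtain ⟨p1, p2, p3, p4, p5, p6⟩ := hpn y V hy (by linarith) hVl hVu
  have hθy : y * (1 + (n : ℝ) ^ (-ch)) ≤ 2 * y := by nlinarith
  set s := sF n y V with hs
  set η := hF n y V with hη
  set lam := lF n y V with hlam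
  have hk0 : 0 < (n : ℝ) ^ (-k) := Real.rpow_pos_of_pos hn0 _
  have hk1 : (n : ℝ) ^ (-k) ≤ 1 := Real.rpow_le_one_of_one_le_of_nonpos hn1 (by linarith)
  have hkA' : (n : ℝ) ^ (-k) * A ≤ 1 := by
    calc (n : ℝ) ^ (-k) * A ≤ (n : ℝ) ^ (-k) * (n : ℝ) ^ k := by gcongr
      _ = 1 := by rw [← Real.rpow_add hn0]; simp
  have hsV : s ^ 2 ≤ V := by nlinarith
  have hs1 : s ^ 2 ≤ 1 := by
    have h3 : y ^ 3 ≤ 1 := pow_le_one₀ hy0.le (by linarith)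
    calc s ^ 2 ≤ (n : ℝ) ^ (-k) * V := p2
      _ ≤ (n : ℝ) ^ (-k) * (A * 1) := by
          refine mul_le_mul_of_nonneg_left (hVu.trans ?_) hk0.le
          gcongr
      _ ≤ 1 := by linarith
  have hV0' : 0 ≤ V - s ^ 2 := by linarith
  have hVV : V = ∑ _l : Unit, √(V - s ^ 2) ^ 2 + s ^ 2 := by
    simp [Real.sq_sqrt hV0']
  have hA2 : |a| ≤ (n : ℝ) ^ w * (2 * y) ^ 2 := by
    refine ha.trans ?_
    gcongr
    linarith
  have hA2' : |a'| ≤ (n : ℝ) ^ w * (2 * y) ^ 2 := by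
    refine ha'.trans ?_
    gcongr
    linarith
  have key := link_dn_num1 (LB := Unit) (LF := Unit) (cB := fun _ => 1)
    (cF := fun _ => √(V - s ^ 2)) (lam := lam) g1 hβ (by simp) hVV hs1 p1 p3 p4
    (p5.trans_lt g4) p6 hy0 g2 g3 (by linarith) hsg hsg' hA2 hA2'
  rw [Kam_eq]
  exact key.trans (add_le_add_right (g5 y V s η hy hy1 hVu p2 p4.le p5) _)

end Vale.Agent.P146.H529
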