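import Vale.Agent.P146.H529.LinkAP
import Vale.Agent.P146.H418.Skel

/-!
P146, block LINK in the letters of `H418.Skel`: the relative entropy `Law.KA` of the amplitude law
against the natural entropy `KV`.

* `Fsk_eq` : `Fsk` is `H119.Fm`; `KA_eq`;
* `link_up_law`, `link_dn_law`.
-/

open MeasureTheory ProbabilityTheory Filter Topology Set

namespace Vale.Agent.P146.H529

open Vale.Agent.P157.Lv Vale.Agent.P146 Vale.Agent.P146.H425 Vale.Agent.P146.H325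
  Vale.Agent.P146.H332 Vale.Agent.P146.H196 Vale.Agent.P146.H475 Vale.Agent.P146.H9
  Vale.Agent.P146.H347 Vale.Agent.P146.H877

set_option linter.unusedSectionVars false

lemma Fsk_eq (n : ℕ) (LB LF : Type) [Fintype LB] [DecidableEq LB] [Fintype LF] [DecidableEq LF]
    (b : ℝ) (cB : LB → ℝ) (cF : LF → ℝ) (lam s η c : ℝ) :
    Fsk n LB LF b cB cF lam s η c = H119.Fm n b cB cF s lam η c := rfl

/-- the law of the parameters `(n, b, V, s, lam, η, a, x)`: plain variance `V - s ^ 2`, constant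
`cc n b s a` -/
noncomputable def law (n : ℕ) (b V s lam η a x : ℝ) : H418.Law where
  n := n
  b := b
  vp := V - s ^ 2
  s := s
  lam := lam
  η := η
  c := cc n b s a
  x := x

lemma KA_eq (n : ℕ) (b V s lam η a x : ℝ) :
    (law n b V s lam η a x).KA =
      KL (Fsk n Unit Unit b (fun _ => 1) (fun _ => √(V - s ^ 2)) lam s η (cc n b s a)) x := rfl

/-- **LINK, upper.** -/
theorem link_up_law {b s0 e g ch ce k : ℝ} (hb : 0 < b) (hch : 0 ≤ ch) (hce : 0 < ce) (hk : 0 ≤ k)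
    (h1 : ch + g < 6 * e) (h2 : g + ch + s0 < k + ce) :
    ∀ᶠ n : ℕ in atTop, ∀ lam s η y V a' : ℝ, V ≤ 1 → 0 < s → s ^ 2 ≤ (n : ℝ) ^ (-k) * V →
      1 ≤ lam → 0 < η → η ≤ (n : ℝ) ^ (-ce) → 1 ≤ lam * η →
      (n : ℝ) ^ (-(1 / 6) + e) ≤ 2 * y → y ≤ 1 / 2 →
      H178.AP b s0 n y (2 * V) → H178.AP b s0 n (y * (1 + (n : ℝ) ^ (-ch))) (2 * V) →
      SG n b (y * (1 + (n : ℝ) ^ (-ch))) V a' →
      KV n b y V ≤ (law n b V s lam η a' (y * (1 + (n : ℝ) ^ (-ch)))).KA +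
        (n : ℝ) ^ (1 - g) * y ^ 6 := by
  filter_upwards [link_up_ap (s0 := s0) (k := k) hb hch hce h1 h2, eventually_ge_atTop 1] with n h hn
  intro lam s η y V a' hV1 hs hs2 hlam hη hη1 hle hy hy1 hap hap' hsg
  have hn1 : (1 : ℝ) ≤ n := by exact_mod_cast hn
  have hs0 : 0 < s ^ 2 := by positivity
  have hV0 : 0 ≤ V - s ^ 2 := by
    have h3 : (n : ℝ) ^ (-k) ≤ 1 := Real.rpow_le_one_of_one_le_of_nonpos hn1 (by linarith)
    have h4 : 0 < (n : ℝ) ^ (-k) := Real.rpow_pos_of_pos (by linarith) _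
    have h5 : 0 < V := by
      by_contra h6
      push Not at h6
      nlinarith
    nlinarith
  rw [KA_eq]
  refine h Unit Unit (fun _ => 1) (fun _ => √(V - s ^ 2)) lam s η y V a' (by simp) ?_ hV1 hs hs2
    hlam hη hη1 hle hy hy1 hap hap' hsg
  simp [Real.sq_sqrt hV0]

/-- **LINK, lower.** -/
theorem link_dn_law {b s0 e g ch ce k : ℝ} (hb : 0 < b) (hch : 0 ≤ ch) (hce : 0 < ce) (hk : 0 ≤ k)
    (h1 : ch + g < 6 * e) (h2 : g + ch + s0 < k + ce) :
    ∀ᶠ n : ℕ in atTop, ∀ lam s η y V a : ℝ, V ≤ 1 → 0 < s → s ^ 2 ≤ (n : ℝ) ^ (-k) * V →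
      1 ≤ lam → 0 < η → η ≤ (n : ℝ) ^ (-ce) → 1 ≤ lam * η →
      (n : ℝ) ^ (-(1 / 6) + e) ≤ 2 * y → y ≤ 1 / 2 →
      H178.AP b s0 n y (2 * V) → H178.AP b s0 n (y * (1 + (n : ℝ) ^ (-ch))) (2 * V) →
      SG n b y V a →
      (law n b V s lam η a y).KA ≤ KV n b (y * (1 + (n : ℝ) ^ (-ch))) V +
        (n : ℝ) ^ (1 - g) * y ^ 6 := by
  filter_upwards [link_dn_ap (s0 := s0) (k := k) hb hch hce h1 h2, eventually_ge_atTop 1] with n h hn
  intro lam s η y V a hV1 hs hs2 hlam hη hη1 hle hy hy1 hap hap' hsg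
  have hn1 : (1 : ℝ) ≤ n := by exact_mod_cast hn
  have hs0 : 0 < s ^ 2 := by positivity
  have hV0 : 0 ≤ V - s ^ 2 := by
    have h3 : (n : ℝ) ^ (-k) ≤ 1 := Real.rpow_le_one_of_one_le_of_nonpos hn1 (by linarith)
    have h4 : 0 < (n : ℝ) ^ (-k) := Real.rpow_pos_of_pos (by linarith) _
    have h5 : 0 < V := by
      by_contra h6
      push Not at h6
      nlinarith
    nlinarith
  rw [KA_eq]
  refine h Unit Unit (fun _ => 1) (fun _ => √(V - s ^ 2)) lam s η y V a (by simp) ?_ hV1 hs hs2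
    hlam hη hη1 hle hy hy1 hap hap' hsg
  simp [Real.sq_sqrt hV0]

end Vale.Agent.P146.H529
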