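import Vale.Agent.P146.H347.Mod3
import Vale.Agent.P146.H9.Mod2
import Vale.Agent.P146.H529.Link4
import Vale.Agent.P146.H529.GMap

/-!
P146, block LINK, the SK instance in the coordinates `Co n LB LF` of `H347.Mod2`.

`v = ∑ cF ^ 2 + s ^ 2`, `∑ cB ^ 2 = 1`.

* `Mw_sk` : `Mw z a = exp (LPhi n b z (∑ cF ^ 2 + a ^ 2 s ^ 2))`;
* `KL_sk` : `KL (Rw 1) y = KV n b y v`;
* `link_up_sk`, `link_dn_sk` : comparison of `KV` with the relative entropy of the amplitude law.
-/

open MeasureTheory ProbabilityTheory Filter Topology Set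

namespace Vale.Agent.P146.H529

open Vale.Agent.P157.Lv Vale.Agent.P146 Vale.Agent.P146.H425 Vale.Agent.P146.H325
  Vale.Agent.P146.H332 Vale.Agent.P146.H196 Vale.Agent.P146.H475 Vale.Agent.P146.H9
  Vale.Agent.P146.H347 Vale.Agent.P146.H877

set_option linter.unusedSectionVars false

variable {n : ℕ} {LB LF : Type} [Fintype LB] [DecidableEq LB] [Fintype LF] [DecidableEq LF]
  {b : ℝ} {cB : LB → ℝ} {cF : LF → ℝ} {lam s η c z y h v a w : ℝ}

lemma msx (n : ℕ) : MeasurableSingletonClass (Xs n) := by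
  have := dmx n
  infer_instance

/-- the matrix which collects the levels -/
noncomputable def Am (cB : LB → ℝ) (cF : LF → ℝ) (w t : ℝ) :
    Pair n ⊕ Fin n → Co n LB LF → ℝ
  | Sum.inl p, Sum.inl (Sum.inl e) => if p = e.1 then cB e.2 else 0
  | Sum.inl _, Sum.inl (Sum.inr _) => 0
  | Sum.inl _, Sum.inr _ => 0
  | Sum.inr _, Sum.inl (Sum.inl _) => 0
  | Sum.inr i, Sum.inl (Sum.inr e) => if i = e.1 then cF e.2 / √w else 0
  | Sum.inr i, Sum.inr j => if i = j then t / √w else 0

lemma Am_orth (hB : ∑ l, cB l ^ 2 = 1) (hw : 0 < w) {t : ℝ} (hwt : w = ∑ l, cF l ^ 2 + t ^ 2)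
    (p q : Pair n ⊕ Fin n) :
    ∑ e, Am (LB := LB) (LF := LF) cB cF w t p e * Am cB cF w t q e = if p = q then 1 else 0 := by
  have hs : √w ^ 2 = w := Real.sq_sqrt hw.le
  have hs0 : √w ≠ 0 := (Real.sqrt_pos.2 hw).ne'
  rw [Fintype.sum_sum_type, Fintype.sum_sum_type]
  rcases p with p | i <;> rcases q with q | j
  · simp only [Am, mul_zero, Finset.sum_const_zero, add_zero, Sum.inl.injEq]
    rw [Fintype.sum_prod_type]
    have h1 : ∀ x : Pair n, ∑ l, (if p = x then cB l else 0) * (if q = x then cB l else 0) =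
        if p = x then (if q = x then 1 else 0) else 0 := by
      intro x
      split_ifs
      · rw [← hB]
        exact Finset.sum_congr rfl fun l _ => (sq _).symm
      · simp
      · simp
      · simp
    simp only [h1]
    rw [Finset.sum_ite_eq, if_pos (Finset.mem_univ _)]
    by_cases hpq : p = q
    · rw [if_pos hpq, if_pos hpq.symm]
    · rw [if_neg hpq, if_neg (fun h => hpq h.symm)]
  · simp [Am]
  · simp [Am]
  · simp only [Am, mul_zero, Finset.sum_const_zero, zero_add, Sum.inr.injEq]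
    rw [Fintype.sum_prod_type]
    have h1 : ∀ x : Fin n, ∑ l, (if i = x then cF l / √w else 0) *
        (if j = x then cF l / √w else 0) =
        if i = x then (if j = x then (∑ l, cF l ^ 2) / w else 0) else 0 := by
      intro x
      split_ifs
      · rw [Finset.sum_div]
        refine Finset.sum_congr rfl fun l _ => ?_
        rw [div_mul_div_comm, ← sq, ← sq, hs]
      · simp
      · simp
      · simp
    have h2 : ∀ x : Fin n, (if i = x then t / √w else 0) * (if j = x then t / √w else 0) =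
        if i = x then (if j = x then t ^ 2 / w else 0) else 0 := by
      intro x
      split_ifs
      · rw [div_mul_div_comm, ← sq, ← sq, hs]
      · simp
      · simp
      · simp
    simp only [h1, h2]
    rw [Finset.sum_ite_eq, if_pos (Finset.mem_univ _), Finset.sum_ite_eq,
      if_pos (Finset.mem_univ _)]
    by_cases hpq : i = j
    · rw [if_pos hpq, if_pos hpq.symm, if_pos hpq.symm, ← add_div, ← hwt, div_self hw.ne']
    · rw [if_neg hpq, if_neg (fun h => hpq h.symm), if_neg (fun h => hpq h.symm), add_zero]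

/-- the raw free energy is the one of `H9.Fv` after collecting the levels -/
lemma Rw_Fv (hw : 0 < w) (u : Co n LB LF → ℝ) :
    Rw (S0 b cB cF) (fun (j : Fin n) (σ : Xs n) => sp σ j) s a u =
      Fv n b w fun p => ∑ e, Am cB cF w (a * s) p e * u e := by
  have hs0 : √w ≠ 0 := (Real.sqrt_pos.2 hw).ne'
  unfold Rw Fv lz Zp ez
  congr 1
  refine Finset.sum_congr rfl fun σ _ => ?_
  congr 1
  rw [one_mul, Fintype.sum_sum_type]
  unfold Ef Gf
  rw [Fintype.sum_sum_type, add_assoc]
  have a1 : ∀ p : Pair n, ∑ e, Am (LB := LB) (LF := LF) cB cF w (a * s) (Sum.inl p) e * u e =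
      ∑ l, cB l * u (bd LF p l) := by
    intro p
    rw [Fintype.sum_sum_type, Fintype.sum_sum_type]
    simp only [Am, zero_mul, Finset.sum_const_zero, add_zero]
    rw [Fintype.sum_prod_type]
    have : ∀ x : Pair n, ∑ l, (if p = x then cB l else 0) * u (Sum.inl (Sum.inl (x, l))) =
        if p = x then ∑ l, cB l * u (bd LF x l) else 0 := by
      intro x
      split_ifs <;> simp
    simp only [this]
    rw [Finset.sum_ite_eq, if_pos (Finset.mem_univ _)]
  have a2 : ∀ i : Fin n, ∑ e, Am (LB := LB) (LF := LF) cB cF w (a * s) (Sum.inr i) e * u e =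
      (∑ l, cF l * u (fd LB i l) + a * s * u (gd LB LF i)) / √w := by
    intro i
    rw [Fintype.sum_sum_type, Fintype.sum_sum_type]
    simp only [Am, zero_mul, Finset.sum_const_zero, zero_add]
    rw [Fintype.sum_prod_type]
    have h1 : ∀ x : Fin n, ∑ l, (if i = x then cF l / √w else 0) * u (Sum.inl (Sum.inr (x, l))) =
        if i = x then (∑ l, cF l * u (fd LB x l)) / √w else 0 := by
      intro x
      split_ifs
      · rw [Finset.sum_div]
        refine Finset.sum_congr rfl fun l _ => ?_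
        ring
      · simp
    have h2 : ∀ x : Fin n, (if i = x then a * s / √w else 0) * u (Sum.inr x) =
        if i = x then a * s * u (gd LB LF x) / √w else 0 := by
      intro x
      split_ifs
      · ring
      · simp
    simp only [h1, h2]
    rw [Finset.sum_ite_eq, if_pos (Finset.mem_univ _), Finset.sum_ite_eq,
      if_pos (Finset.mem_univ _), ← add_div]
  simp only [a1, a2]
  congr 1
  · rw [Fintype.sum_prod_type]
    refine Finset.sum_congr rfl fun p _ => ?_
    rw [Finset.mul_sum]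
    refine Finset.sum_congr rfl fun l _ => ?_
    simp only [S0_inl, Sf, Sum.elim_inl]
    ring
  · rw [Fintype.sum_prod_type, Finset.mul_sum, ← Finset.sum_add_distrib]
    refine Finset.sum_congr rfl fun i _ => ?_
    simp only [Sf, Sum.elim_inr, S0_inr]
    have : √w * sp σ i * ((∑ l, cF l * u (fd LB i l) + a * s * u (gd LB LF i)) / √w) =
        sp σ i * (∑ l, cF l * u (fd LB i l)) + a * s * sp σ i * u (gd LB LF i) := by
      field_simp
    rw [this, Finset.mul_sum]
    congr 1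
    · refine Finset.sum_congr rfl fun l _ => ?_
      ring
    · ring

/-- moments of all functions of the raw free energy -/
lemma int_sk (hB : ∑ l, cB l ^ 2 = 1) (hw : 0 < w) (hwa : w = ∑ l, cF l ^ 2 + (a * s) ^ 2)
    {G : ℝ → ℝ} (hG : Measurable G) :
    ∫ u, G (Rw (S0 b cB cF) (fun (j : Fin n) (σ : Xs n) => sp σ j) s a u) ∂(gI (Co n LB LF)) =
      ∫ x, G (Fv n b w x) ∂(gI (Pair n ⊕ Fin n)) := by
  have h1 : Measurable fun x => G (Fv n b w x) :=
    hG.comp ((c11_Fv n b w).lip.lip (c11_Fv n b w).B0).continuous.measurable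
  rw [← gauss_int (A := Am (LB := LB) (LF := LF) cB cF w (a * s)) (Am_orth hB hw hwa) h1]
  refine integral_congr_ae (Eventually.of_forall fun u => ?_)
  simp only
  rw [Rw_Fv hw]

/-- **The natural moments at the amplitude `a`.** -/
theorem Mw_sk (hB : ∑ l, cB l ^ 2 = 1) (hw : 0 < ∑ l, cF l ^ 2 + a ^ 2 * s ^ 2) (z : ℝ) :
    Mw (S0 b cB cF) (fun (j : Fin n) (σ : Xs n) => sp σ j) s z a =
      Real.exp (LPhi n b z (∑ l, cF l ^ 2 + a ^ 2 * s ^ 2)) := by
  unfold Mw
  rw [int_sk hB hw (by ring) (G := fun r => Real.exp (z * r)) (by fun_prop), LPhi_eq,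
    Real.exp_log]
  exact integral_exp_pos ((c11_Fv n b _).eg_exp z).integrable

/-- constants for which the bounds `H475.AB` hold -/
theorem ab_sk (n : ℕ) (b : ℝ) (cB : LB → ℝ) (cF : LF → ℝ) (s : ℝ) (hη : 0 ≤ η) :
    AB (S0 (n := n) b cB cF) (fun (j : Fin n) (σ : Xs n) => sp σ j) s η
      (|b / √n| * ∑ l, |cB l| + ∑ l, |cF l| + (1 + η) * |s|) where
  pos := by positivity
  b0 := by
    intro e σ
    have h3 : 0 ≤ (1 + η) * |s| := by positivity
    rcases e with e | e
    · rw [S0_inl, abs_mul, abs_mul]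
      have h1 : |SkS e.1 σ| = 1 := abs_pr _ _ _
      rw [h1, mul_one]
      have h2 : |cB e.2| ≤ ∑ l, |cB l| :=
        Finset.single_le_sum (f := fun l => |cB l|) (fun _ _ => abs_nonneg _) (Finset.mem_univ _)
      have h4 : 0 ≤ ∑ l, |cF l| := Finset.sum_nonneg fun _ _ => abs_nonneg _
      have := mul_le_mul_of_nonneg_left h2 (abs_nonneg (b / √n))
      linarith
    · rw [S0_inr, abs_mul, abs_sp, mul_one]
      have h2 : |cF e.2| ≤ ∑ l, |cF l| :=
        Finset.single_le_sum (f := fun l => |cF l|) (fun _ _ => abs_nonneg _) (Finset.mem_univ _)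
      have h4 : 0 ≤ |b / √n| * ∑ l, |cB l| := by positivity
      linarith
  b1 := by
    intro j σ
    rw [abs_sp, mul_one]
    have h4 : 0 ≤ |b / √n| * ∑ l, |cB l| := by positivity
    have h5 : 0 ≤ ∑ l, |cF l| := Finset.sum_nonneg fun _ _ => abs_nonneg _
    linarith

/-- **The natural relative entropy.** -/
theorem KL_sk (hB : ∑ l, cB l ^ 2 = 1) (hv : v = ∑ l, cF l ^ 2 + s ^ 2) (hv0 : 0 < v) (y : ℝ) :
    KL (Rw (S0 b cB cF) (fun (j : Fin n) (σ : Xs n) => sp σ j) s 1 : (Co n LB LF → ℝ) → ℝ) y =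
      KV n b y v := by
  have := msx n
  unfold KV
  refine KL_congr (lip_raw le_rfl (ab_sk n b cB cF s le_rfl)) (Km_nn (ab_sk n b cB cF s le_rfl))
    (c11_Fv n b v).lip (c11_Fv n b v).B0 (fun z => ?_) y
  unfold lm
  rw [int_sk hB hv0 (by rw [hv]; ring) (G := fun r => Real.exp (z * r)) (by fun_prop)]

/-- the amplitude functional of the SK model -/
noncomputable def Fsk (n : ℕ) (LB LF : Type) [Fintype LB] [Fintype LF] (b : ℝ) (cB : LB → ℝ)
    (cF : LF → ℝ) (lam s η c : ℝ) : (Co n LB LF → ℝ) → ℝ :=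
  FA (S0 b cB cF) (fun (j : Fin n) (σ : Xs n) => sp σ j) lam s η c

/-- **LINK, upper**: `KV` at `y` by the amplitude law at `y + h`. `p, p'` are slopes of `LPhi n b y`
and `LPhi n b (y + h)` at `v`. -/
theorem link_up_sk {p p' : ℝ} (hB : ∑ l, cB l ^ 2 = 1) (hv : v = ∑ l, cF l ^ 2 + s ^ 2)
    (hs : 0 < s) (hlam : 0 < lam) (hη : 0 < η) (hη1 : η < 1) (hy : 0 < y) (hh : 0 < h)
    (hy1 : y + h ≤ 1) (hl : 1 ≤ (lam + c) * η)
    (hp : ∀ w ≥ 0, LPhi n b y w ≤ LPhi n b y v + p * (w - v))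
    (hp' : 0 ≤ p') (hc : c = 2 * s ^ 2 * (p' / (y + h))) :
    KV n b y v ≤ KL (Fsk n LB LF b cB cF lam s η c) (y + h) +
      (y * ((y + h) * (Real.log (4 * (lam + c) / lam) + 2)) +
        (y + h) * (Real.log (8 * η * c + 4) +
          y * (1 + 3 * s ^ 2 * |p / y - p' / (y + h)| * η))) / h := by
  have := msx n
  have h0 : 0 ≤ ∑ l, cF l ^ 2 := Finset.sum_nonneg fun _ _ => sq_nonneg _
  have hv0 : 0 < v := by rw [hv]; positivity
  have hpos : ∀ a ∈ Icc (1 - η) (1 + η), 0 < ∑ l, cF l ^ 2 + a ^ 2 * s ^ 2 := by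
    intro a ha
    have : 0 < a := by linarith [ha.1]
    positivity
  rw [← KL_sk (LB := LB) (LF := LF) hB hv hv0]
  exact link_up (ℓ := fun z w => LPhi n b z w) (v0 := ∑ l, cF l ^ 2) hlam hη hη1.le
    (ab_sk n b cB cF s hη.le) hy hh hy1 hl hv (fun a ha => Mw_sk hB (hpos a ha) y)
    (fun a ha => hp _ (hpos a ha).le) hp' hc

/-- **LINK, lower**: the amplitude law at `y` by `KV` at `y + h`. -/
theorem link_dn_sk {p p' : ℝ} (hB : ∑ l, cB l ^ 2 = 1) (hv : v = ∑ l, cF l ^ 2 + s ^ 2)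
    (hs : 0 < s) (hlam : 0 < lam) (hη : 0 < η) (hη1 : η < 1) (hy : 0 < y) (hh : 0 < h)
    (hy1 : y + h ≤ 1) (hl : 1 ≤ (lam + c) * η)
    (hp' : ∀ w ≥ 0, LPhi n b (y + h) w ≤ LPhi n b (y + h) v + p' * (w - v))
    (hp0 : 0 ≤ p) (hc : c = 2 * s ^ 2 * (p / y)) :
    KL (Fsk n LB LF b cB cF lam s η c) y ≤ KV n b (y + h) v +
      (y * (Real.log (8 * η * c + 4) +
          (y + h) * (1 + 3 * s ^ 2 * |p' / (y + h) - p / y| * η)) +
        (y + h) * (y * (Real.log (4 * (lam + c) / lam) + 2))) / h := by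
  have := msx n
  have h0 : 0 ≤ ∑ l, cF l ^ 2 := Finset.sum_nonneg fun _ _ => sq_nonneg _
  have hv0 : 0 < v := by rw [hv]; positivity
  have hpos : ∀ a ∈ Icc (1 - η) (1 + η), 0 < ∑ l, cF l ^ 2 + a ^ 2 * s ^ 2 := by
    intro a ha
    have : 0 < a := by linarith [ha.1]
    positivity
  rw [← KL_sk (LB := LB) (LF := LF) hB hv hv0]
  exact link_dn (ℓ := fun z w => LPhi n b z w) (v0 := ∑ l, cF l ^ 2) hlam hη hη1.le
    (ab_sk n b cB cF s hη.le) hy hh hy1 hl hv (fun a ha => Mw_sk hB (hpos a ha) (y + h))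
    (fun a ha => hp' _ (hpos a ha).le) hp0 hc

end Vale.Agent.P146.H529
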