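import Vale.Agent.P146.H529.LinkK

/-!
P146: explicit parameter functions of the amplitude law, and `ParOK` for them.

* `etaF ce n = n ^ (-ce)`, `lamF c n y = n ^ c / y` (so `y lam η = n ^ (c - ce)`);
* `sFin ds n y V = √(n ^ (-ds) V)`, `sS1 x n y V = √(n ^ (-x) y ^ 4)`.
-/

open MeasureTheory ProbabilityTheory Filter Topology Set

namespace Vale.Agent.P146.H529

/-- the window of the amplitude -/
noncomputable def etaF (ce : ℝ) : ℕ → ℝ → ℝ → ℝ := fun n _ _ => (n : ℝ) ^ (-ce)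

/-- the rate of the Laplace weight -/
noncomputable def lamF (c : ℝ) : ℕ → ℝ → ℝ → ℝ := fun n y _ => (n : ℝ) ^ c / y

/-- the modulated field, variance `n ^ (-ds) V` -/
noncomputable def sFin (ds : ℝ) : ℕ → ℝ → ℝ → ℝ := fun n _ V => √((n : ℝ) ^ (-ds) * V)

/-- the modulated field, variance `n ^ (-x) y ^ 4` -/
noncomputable def sS1 (x : ℝ) : ℕ → ℝ → ℝ → ℝ := fun n y _ => √((n : ℝ) ^ (-x) * y ^ 4)

lemma etaF_pos {ce : ℝ} {n : ℕ} (hn : 1 ≤ n) (y V : ℝ) : 0 < etaF ce n y V := by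
  have hn0 : (0 : ℝ) < n := by exact_mod_cast hn
  exact Real.rpow_pos_of_pos hn0 _

/-- `y lam η = n ^ (c - ce)` -/
lemma lam_eta {c ce : ℝ} {n : ℕ} (hn : 1 ≤ n) {y : ℝ} (hy : 0 < y) (V : ℝ) :
    y * (lamF c n y V * etaF ce n y V) = (n : ℝ) ^ (c - ce) := by
  have hn0 : (0 : ℝ) < n := by exact_mod_cast hn
  unfold lamF etaF
  rw [sub_eq_add_neg, Real.rpow_add hn0]
  field_simp

lemma sFin_sq {ds : ℝ} (n : ℕ) (y : ℝ) {V : ℝ} (hV : 0 ≤ V) :
    sFin ds n y V ^ 2 = (n : ℝ) ^ (-ds) * V := by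
  unfold sFin
  exact Real.sq_sqrt (by positivity)

lemma sS1_sq {x : ℝ} (n : ℕ) (y V : ℝ) : sS1 x n y V ^ 2 = (n : ℝ) ^ (-x) * y ^ 4 := by
  unfold sS1
  exact Real.sq_sqrt (by positivity)

lemma box_pos {A y V d e : ℝ} {n : ℕ} (hn : 1 ≤ n) (hA : 1 ≤ A)
    (hy : (n : ℝ) ^ (-(1 / 6) + e) ≤ A * y) (hV : (n : ℝ) ^ (-d) * y ^ 3 ≤ A * V) :
    0 < y ∧ 0 < V := by
  have hn0 : (0 : ℝ) < n := by exact_mod_cast hn
  have hA0 : 0 < A := by linarith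
  have h3 : 0 < (n : ℝ) ^ (-(1 / 6) + e) := Real.rpow_pos_of_pos hn0 _
  have hy0 : 0 < y := pos_of_mul_pos_right (h3.trans_le hy) hA0.le
  have h4 : 0 < (n : ℝ) ^ (-d) := Real.rpow_pos_of_pos hn0 _
  exact ⟨hy0, pos_of_mul_pos_right (lt_of_lt_of_le (by positivity) hV) hA0.le⟩

lemma lam_le {c ce : ℝ} (hc : ce ≤ c) (hce : 0 ≤ ce) {n : ℕ} (hn : 1 ≤ n) {y : ℝ} (hy : 0 < y)
    (hy1 : y ≤ 1) (V : ℝ) : 1 ≤ lamF c n y V ∧ 1 ≤ lamF c n y V * etaF ce n y V := by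
  have hn1 : (1 : ℝ) ≤ n := by exact_mod_cast hn
  have h1 : 1 ≤ (n : ℝ) ^ c := Real.one_le_rpow hn1 (hce.trans hc)
  have h2 : 1 ≤ (n : ℝ) ^ (c - ce) := Real.one_le_rpow hn1 (by linarith)
  constructor
  · unfold lamF
    rw [le_div_iff₀ hy]
    linarith
  · have h3 := lam_eta (c := c) (ce := ce) hn hy V
    have h4 : 0 ≤ lamF c n y V * etaF ce n y V := by
      unfold lamF
      have := (etaF_pos (ce := ce) hn y V).le
      positivity
    nlinarith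

/-- the final choice is admissible with `k = ds` -/
theorem parOK_fin {e d ds c ce : ℝ} (hc : ce ≤ c) (hce : 0 ≤ ce) :
    ParOK e d ds ce (sFin ds) (lamF c) (etaF ce) := by
  intro A hA
  filter_upwards [eventually_ge_atTop 1] with n hn
  intro y V hy hy1 hV _
  obtain ⟨hy0, hV0⟩ := box_pos hn hA hy hV
  have hn0 : (0 : ℝ) < n := by exact_mod_cast hn
  obtain ⟨h1, h2⟩ := lam_le hc hce hn hy0 (by linarith) V
  refine ⟨?_, (sFin_sq n y hV0.le).le, h1, etaF_pos hn y V, le_rfl, h2⟩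
  unfold sFin
  have := Real.rpow_pos_of_pos hn0 (-ds)
  positivity

/-- the choice of the stage S1 is admissible for every `k < x - d` -/
theorem parOK_S1 {e d x k c ce : ℝ} (hk : k < x - d) (hc : ce ≤ c) (hce : 0 ≤ ce) :
    ParOK e d k ce (sS1 x) (lamF c) (etaF ce) := by
  intro A hA
  filter_upwards [ev_rpow (show 0 < x - d - k by linarith) A, eventually_ge_atTop 1] with n hnA hn
  intro y V hy hy1 hV _
  obtain ⟨hy0, hV0⟩ := box_pos hn hA hy hV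
  have hn0 : (0 : ℝ) < n := by exact_mod_cast hn
  obtain ⟨h1, h2⟩ := lam_le hc hce hn hy0 (by linarith) V
  have hx0 := Real.rpow_pos_of_pos hn0 (-x)
  refine ⟨?_, ?_, h1, etaF_pos hn y V, le_rfl, h2⟩
  · unfold sS1
    positivity
  · rw [sS1_sq]
    have e1 : (n : ℝ) ^ (-x) = (n : ℝ) ^ (d - x) * (n : ℝ) ^ (-d) := by
      rw [← Real.rpow_add hn0]
      congr 1
      ring
    have e2 : (n : ℝ) ^ (-k) = (n : ℝ) ^ (d - x) * (n : ℝ) ^ (x - d - k) := by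
      rw [← Real.rpow_add hn0]
      congr 1
      ring
    have h3 := Real.rpow_pos_of_pos hn0 (d - x)
    have h4 := Real.rpow_pos_of_pos hn0 (-d)
    have h5 : y ^ 4 ≤ y ^ 3 := pow_le_pow_of_le_one hy0.le (by linarith) (by norm_num)
    calc (n : ℝ) ^ (-x) * y ^ 4 ≤ (n : ℝ) ^ (-x) * y ^ 3 := by gcongr
      _ = (n : ℝ) ^ (d - x) * ((n : ℝ) ^ (-d) * y ^ 3) := by rw [e1]; ring
      _ ≤ (n : ℝ) ^ (d - x) * (A * V) := by gcongr
      _ ≤ (n : ℝ) ^ (d - x) * ((n : ℝ) ^ (x - d - k) * V) := by gcongr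
      _ = (n : ℝ) ^ (-k) * V := by rw [e2]; ring

end Vale.Agent.P146.H529
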