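import Vale.Agent.P146.H122.S3Defs
import Vale.Agent.P146.H119.S3Par
import Vale.Agent.P146.H529.S3Up

/-!
# P146: the upper bound of the entropy with a constant, in the size and the unit

* `KaCS`: the bound `KA ≤ C n y^6` of the auxiliary law;
* `UpVS`: the bound `KV ≤ C n y^6` at the field `V = n^(-24q) y^3`, under the condition `AP`;
* `upVS`: `LinkUpS` and `KaCS` give `UpVS`.
-/

open MeasureTheory ProbabilityTheory Filter Topology Set

namespace Vale.Agent.P146.S3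

open Vale.Agent.P146.H418 (lawOf KW s2F lamF etaF)
open Vale.Agent.P146.H9 (Phn KV)
open Vale.Agent.P146.H529 Vale.Agent.P146.H178

variable {β b₁ C : ℝ}

/-- **the entropy of the auxiliary law with a constant**, `s² = n^(-80q) V` -/
def KaCS (b₁ A b C : ℝ) : Prop := EV fun n q => ∀ y V al s lam η : ℝ,
  KW (1 / 6) b₁ q A b n y V al s lam η → s ^ 2 = (n : ℝ) ^ (-(80 * q)) * V →
    (lawOf n b y V al s lam η).KA ≤ C * (n * y ^ 6)

/-- **the entropy at the field `V = n^(-24q) y^3` with a constant**, from the condition on the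
mean energies at the fields in `[y, 2y]` -/
def UpVS (β b₁ C : ℝ) : Prop := ∀ A : ℝ, 1 ≤ A → EV fun n q =>
  ∀ y : ℝ, (n : ℝ) ^ (-(1 / 6) + 1000 * q) ≤ A * y → y ≤ A * (n : ℝ) ^ (-b₁) →
    ∀ V : ℝ, (n : ℝ) ^ (-(24 * q)) * y ^ 3 ≤ A * V → V ≤ A * ((n : ℝ) ^ (-(24 * q)) * y ^ 3) →
    (∀ u : ℝ, y ≤ u → u ≤ 2 * y → AP β (q / 2) n u (2 * V)) →
    KV n β y V ≤ C * (n * y ^ 6)

/-- **The bound of the entropy with a constant.** -/
theorem upVS (hβ : 0 < β) (hb₁ : 0 < b₁) (hC : 0 ≤ C)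
    (hL : LinkUpS β fun q => Kam β (sC q) (lA q) (hA q))
    (hKa : ∀ A : ℝ, 1 ≤ A → KaCS b₁ A β C) : UpVS β b₁ (2 * C + 1) := by
  intro A hA1
  have hA0 : 0 < A := by linarith
  filter_upwards [hL A hA1, hKa (8 * A) (by linarith), kw_two (a0 := 1 / 6) (b₁ := b₁) (b := β)
      le_rfl (show (1 : ℝ) ≤ 8 * A by linarith),
    ev_rpow (show (0 : ℝ) < 1 / 2 by norm_num) (128 * β * A),
    ev_rpow (show (0 : ℝ) < 45 by norm_num) 10, ev_rpow (show (0 : ℝ) < 24 by norm_num) A,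
    ev_atTop (Vale.Agent.P146.H529.ev_rpow hb₁ (64 * A)), ev_ge 1, ev_q0]
    with ⟨n, q⟩ g1 g2 g3 t1 t2 t3 t4 hn hq
  dsimp only at g1 g2 g3 t1 t2 t3 t4 hn hq
  intro y hy1 hy2 V hV1 hV2 hap
  have hn0 : (0 : ℝ) < n := by exact_mod_cast hn
  have hy0 := (box_pos hn hA1 (e := 1000 * q) (d := 24 * q) (y := y) (V := V) hy1 hV1).1
  have t1' : 128 * β * A ≤ (n : ℝ) ^ (q / 2) := by
    rwa [show q / 2 = 1 / 2 * q by ring]
  have hy64 : y ≤ 1 / 64 := by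
    have e1 : (n : ℝ) ^ b₁ * (n : ℝ) ^ (-b₁) = 1 := by
      rw [← Real.rpow_add hn0]
      simp
    have h1 := mul_le_mul_of_nonneg_right t4 (Real.rpow_pos_of_pos hn0 (-b₁)).le
    rw [e1] at h1
    linarith
  have t2' : (n : ℝ) ^ (-(45 * q)) ≤ 1 / 10 := by
    rw [Real.rpow_neg hn0.le, inv_le_comm₀ (Real.rpow_pos_of_pos hn0 _) (by norm_num)]
    linarith
  have hD0 := Real.rpow_pos_of_pos hn0 (-(24 * q))
  have hV2' : V ≤ y ^ 2 := by
    have e1 : (n : ℝ) ^ (24 * q) * (n : ℝ) ^ (-(24 * q)) = 1 := by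
      rw [← Real.rpow_add hn0]
      simp
    calc V ≤ A * ((n : ℝ) ^ (-(24 * q)) * y ^ 3) := hV2
      _ ≤ (n : ℝ) ^ (24 * q) * ((n : ℝ) ^ (-(24 * q)) * y ^ 3) := by gcongr
      _ = y * y ^ 2 := by rw [← mul_assoc, e1]; ring
      _ ≤ 1 * y ^ 2 := by gcongr; linarith
      _ = y ^ 2 := one_mul _
  refine upV_n hβ hn hq hA1 hC t1' t2' t3 hy0 hy64 hV1 hV2 hap (g1 y hy1 hy64 V hV1 hV2') ?_
  intro u a hu1 hu2 hsg hapu
  have hu0 : 0 < u := by linarith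
  have hV0 : 0 < V := by
    have : 0 < A * V := lt_of_lt_of_le (by positivity) hV1
    exact pos_of_mul_pos_right this hA0.le
  have hu3 : u ^ 3 ≤ 8 * y ^ 3 := by
    calc u ^ 3 ≤ (2 * y) ^ 3 := pow_le_pow_left₀ hu0.le hu2 3
      _ = 8 * y ^ 3 := by ring
  have hy3 : y ^ 3 ≤ u ^ 3 := pow_le_pow_left₀ hy0.le hu1 3
  have hB0 := Real.rpow_pos_of_pos hn0 (-b₁)
  have hkw := g3 u V a (hy1.trans (by nlinarith)) (by nlinarith)
    (by
      calc (n : ℝ) ^ (-(24 * q)) * u ^ 3 ≤ (n : ℝ) ^ (-(24 * q)) * (8 * y ^ 3) := by gcongr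
        _ = 8 * ((n : ℝ) ^ (-(24 * q)) * y ^ 3) := by ring
        _ ≤ 8 * (A * V) := by linarith
        _ = 8 * A * V := by ring)
    (by
      calc V ≤ A * ((n : ℝ) ^ (-(24 * q)) * y ^ 3) := hV2
        _ ≤ A * ((n : ℝ) ^ (-(24 * q)) * u ^ 3) := by gcongr
        _ ≤ 8 * (A * ((n : ℝ) ^ (-(24 * q)) * u ^ 3)) := by
            have : 0 ≤ A * ((n : ℝ) ^ (-(24 * q)) * u ^ 3) := by positivity
            linarith
        _ = 8 * A * ((n : ℝ) ^ (-(24 * q)) * u ^ 3) := by ring) hsg hapu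
  have h := g2 u V a _ _ _ hkw (Real.sq_sqrt (by positivity))
  rw [Kam_lawOf]
  exact h

end Vale.Agent.P146.S3
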